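import Vale.Agent.P092GK.Low
import Vale.Agent.P092BF.Defs2

/-!
P092, group package (helper83): the flag of a point, in the form used by block B5.
-/

set_option linter.all false

open Matrix Filter Topology MeasureTheory Measure Set
open scoped Pointwise ENNReal

namespace Vale.Agent.P092GK

open FlD Vale.Agent.P092BF

variable {k : Type} [NontriviallyNormedField k] {G : Type} [Group G] {r : ℕ} {F : FlD k G r}
  [TopologicalSpace G] [IsTopologicalGroup G] [T2Space G] [LocallyCompactSpace G]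
  [SecondCountableTopology G] [MeasurableSpace G] [BorelSpace G] [ProperSpace k]

omit [IsTopologicalGroup G] [T2Space G] [LocallyCompactSpace G] [SecondCountableTopology G]
  [BorelSpace G] [ProperSpace k] in
/-- every function of the left factor is measurable -/
theorem Kak.meas_comp {C : Set G} {kl kr : G → G} {t : G → Fin r → ℤ} (hK : Kak F C kl t kr)
    {X : Type} {mX : MeasurableSpace X} (f : G → X) : Measurable fun x => f (kl x) := by
  intro S _
  have e : (fun x => f (kl x)) ⁻¹' S = ⋃ y ∈ range kl ∩ f ⁻¹' S, kl ⁻¹' {y} := by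
    ext x
    simp only [mem_preimage, mem_iUnion, mem_inter_iff, mem_singleton_iff]
    exact ⟨fun hx => ⟨kl x, ⟨⟨x, rfl⟩, hx⟩, rfl⟩, fun ⟨y, hy, e⟩ => e ▸ hy.2⟩
  rw [e]
  exact MeasurableSet.biUnion (hK.cnt.mono inter_subset_left) fun y _ => hK.fib y

namespace Fl

variable (h : Fl F)
include h

omit [SecondCountableTopology G] [T2Space G] [ProperSpace k] in
theorem tg : Tg F.len F.κ where
  mlen := h.cont_len.measurable
  mκ := h.cont_κ.measurable
  one := h.len_one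
  inv := FlD.len_inv
  nonneg := FlD.len_nonneg
  mul := h.len_mul
  loc := by
    obtain ⟨O, h1, h2⟩ := exists_compact_mem_nhds (1 : G)
    obtain ⟨R, -, h3⟩ := h.len_cpt h1
    exact ⟨O, h2, R, h3⟩
  lip := by
    obtain ⟨C, h1, h2⟩ := h.κ_lip
    exact ⟨C, by linarith, fun s g t i =>
      (norm_le_pi_norm (F.κ (s * g * t) - F.κ g) i).trans (h2 s g t)⟩

omit [T2Space G] [LocallyCompactSpace G] [SecondCountableTopology G] [BorelSpace G] in
theorem fg {C : Set G} {kl kr : G → G} {t : G → Fin r → ℤ} (hK : Kak F C kl t kr)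
    {mY : MeasurableSpace (F.Y Finset.univ)} :
    letI := h.metricY Finset.univ
    Fg F.len F.κ fun x => (kl x : F.Y Finset.univ) := by
  letI := h.metricY Finset.univ
  obtain ⟨A, h1, h2⟩ := h.flag_equiv hK
  exact ⟨hK.meas_comp fun g => (g : F.Y Finset.univ), fun y y' => dY_le_one y y',
    A, h1, fun s g u τ hg => h2 _ s g u τ fun j _ => hg j⟩

omit [LocallyCompactSpace G] [SecondCountableTopology G] [MeasurableSpace G] [BorelSpace G]
  [T2Space G] in
/-- on a compact part of the big cell the flags are attracted uniformly -/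
theorem dP_cell {K Q : Set G} (hK : IsCompact K) (hQ : IsCompact Q) (hs : Q ⊆ F.Ω) :
    ∃ C : ℝ, 1 ≤ C ∧ ∀ θ, ∀ a ∈ K, ∀ z, F.Dom z → ∀ w ∈ Q, ∀ T : ℝ, (∀ j ∈ θ, T ≤ F.ℓ z j) →
      F.dP θ (a * z * w) a ≤ C * Real.exp (-T) := by
  obtain ⟨A, hA, h1⟩ := h.dj_dom
  obtain ⟨B, hB, h2⟩ := h.dj_lip
  obtain ⟨R, hR, h3⟩ := h.len_cpt hK
  obtain ⟨D, hD, h4⟩ := cpt_up hQ (fun j x => ‖F.V j x (F.v j)‖ / ‖F.Δ j x‖) fun j =>
    (h.contVv j).norm.continuousOn.div (h.contΔ j).norm.continuousOn fun x hx =>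
      norm_ne_zero_iff.2 (hs hx j)
  have h5 : 1 ≤ Real.exp (2 * R) := Real.one_le_exp (by linarith)
  refine ⟨B * Real.exp (2 * R) * (A * D), one_le_mul_of_one_le_of_one_le
    (one_le_mul_of_one_le_of_one_le hB h5) (one_le_mul_of_one_le_of_one_le hA hD),
    fun θ a ha z hz w hw T hT => dP_le (by positivity) fun j hj => ?_⟩
  have h6 := h2 j a (z * w) 1
  rw [mul_one, ← mul_assoc] at h6
  have h7 : F.dj j (z * w) 1 ≤ A * Real.exp (-T) * D := (h1 z hz w j (hs hw j)).trans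
    (mul_le_mul (mul_le_mul_of_nonneg_left (Real.exp_le_exp.2 (by linarith [hT j hj]))
      (by linarith)) (h4 j w hw) (by positivity) (by positivity))
  refine h6.trans ((mul_le_mul (mul_le_mul_of_nonneg_left (Real.exp_le_exp.2
    (by linarith [h3 a ha] : 2 * F.len a ≤ 2 * R)) (by linarith)) h7 (pd_nonneg _ _)
    (by positivity)).trans_eq (by ring))

/-- far from the walls of `θ`, `x u` sends every flag close to the flag of `x`, for most `u` -/
theorem avg' (μ : Measure G) [μ.IsHaarMeasure] [μ.IsMulRightInvariant] {C : Set G}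
    {kl kr : G → G} {t : G → Fin r → ℤ} (hK : Kak F C kl t kr) {V : Set G} (hV : IsCompact V)
    {δ : ℝ} (hδ : 0 < δ) {ε : ℝ≥0∞} (hε : ε ≠ 0) : ∃ τ : ℝ, ∀ θ x, (∀ j ∈ θ, τ ≤ F.κ x j) →
      ∀ y : F.Y θ, μ {u | u ∈ V ∧ δ ≤ F.dY θ ((x * u) • y) (kl x : F.Y θ)} ≤ ε := by
  obtain ⟨C₂, hC₂, h1⟩ := h.exists_rep
  obtain ⟨Q, hQ, hs, -, h2⟩ := h.most_Ω μ ((hK.cpt.mul hV).mul hC₂) hε
  obtain ⟨A, hA, h3⟩ := h.dP_cell hK.cpt hQ hs
  obtain ⟨D, hD, h4⟩ := h.κ_cpt hK.cpt
  obtain ⟨T, -, h5⟩ := exp_small A (half_pos hδ)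
  refine ⟨T + D, fun θ x hx y => ?_⟩
  obtain ⟨c, hc, rfl⟩ := h1 θ y
  have h6 : μ ((fun u => kr x * u) ⁻¹' ((fun u => u * c) ⁻¹' ((C * V * C₂) \ Q))) ≤ ε := by
    rw [measure_preimage_mul, measure_preimage_mul_right]
    exact h2
  refine le_trans (measure_mono fun u hu => ?_) h6
  refine ⟨mul_mem_mul (mul_mem_mul (hK.kr_mem x) hu.1) hc, fun hq => ?_⟩
  have hz := h.a_dom (hK.t_nonneg x)
  have h7 := h3 θ _ (hK.kl_mem x) _ hz _ hq T fun j hj => by
    have h8 := abs_le.1 (h4 _ hz _ (hK.kl_mem x) _ (hK.kr_mem x) j)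
    rw [← hK.eq x] at h8
    linarith [hx j hj]
  have h9 := hu.2
  rw [smul_mk, dY_mk] at h9
  rw [show kl x * F.a (t x) * (kr x * u * c) = kl x * F.a (t x) * kr x * u * c by group,
    ← hK.eq x] at h7
  linarith [h5 T le_rfl]

theorem avg (μ : Measure G) [μ.IsHaarMeasure] [μ.IsMulRightInvariant] {C : Set G}
    {kl kr : G → G} {t : G → Fin r → ℤ} (hK : Kak F C kl t kr) :
    letI := h.metricY Finset.univ
    Avg μ F.κ fun x => (kl x : F.Y Finset.univ) := by
  letI := h.metricY Finset.univ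
  intro V hV δ ε hδ hε
  obtain ⟨τ, h1⟩ := h.avg' μ hK hV hδ (ENNReal.ofReal_pos.2 hε).ne'
  exact ⟨τ, fun x hx y => h1 _ x (fun j _ => hx j) y⟩

end Fl

end Vale.Agent.P092GK
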