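import Vale.Agent.P092GK.Opp

/-!
P092, group package (helper83): the panel package on top of the flag package.
-/

set_option linter.all false

namespace Vale.Agent.P092GK

variable {k : Type} [NontriviallyNormedField k] {G : Type} [Group G] {r : ℕ}

/-- the Levi subgroup of semisimple rank one of the simple root `i` -/
abbrev FlD.L₁ (F : FlD k G r) (i : Fin r) : Subgroup G := F.L (Finset.univ.erase i)

/-- **The panel package**: simple reflections `s i`, Bruhat decompositions of the rank one Levi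
subgroups, the subgroups over the minimal parabolic subgroup, and a reduced word `τ` of length `N`
of the longest element with its partial products `w`. -/
structure Pan (F : FlD k G r) (s : Fin r → G) (N : ℕ) (τ : ℕ → Fin r) (w : ℕ → G) : Prop where
  gen : ∀ i, ∃ u ∈ F.Up, ∃ v ∈ F.Um, ∃ v' ∈ F.Um, u ∈ F.L₁ i ∧ v ∈ F.L₁ i ∧ v' ∈ F.L₁ i ∧ u ≠ 1 ∧
    s i = v * u * v'
  sZ : ∀ i z, z ∈ F.Z ↔ s i * z * (s i)⁻¹ ∈ F.Z
  ss : ∀ i, s i * s i ∈ F.Z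
  sU : ∀ i, ∀ u ∈ F.L₁ i, u ∈ F.Up ↔ s i * u * (s i)⁻¹ ∈ F.Um
  bru : ∀ i, ∀ l ∈ F.L₁ i, l ∈ F.P Finset.univ ∨ (s i)⁻¹ * l ∈ F.Ω
  bn : ∀ S S' : Subgroup G, F.P Finset.univ ≤ S → F.P Finset.univ ≤ S' →
    (∀ i, s i ∈ S → s i ∈ S') → S ≤ S'
  zero : w 0 = 1
  step : ∀ n, w (n + 1) = w n * s (τ n)
  last : F.n₀⁻¹ * w N ∈ F.Z
  wall : ∀ n < N, ∀ m < N, n ≠ m → ∃ a ∈ F.Z,
    F.ℓ ((w n)⁻¹ * a * w n) (τ n) ≠ 0 ∧ F.ℓ ((w m)⁻¹ * a * w m) (τ m) = 0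

end Vale.Agent.P092GK
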