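import Vale.Agent.P092GK.Hm
import Mathlib.Topology.Algebra.ProperAction.Basic

/-!
P092, group package (helper83): the Weil formula, invariant measures on homogeneous spaces, and the
product formula on an open double coset.
-/

set_option linter.all false

open MeasureTheory Measure Filter Topology Set
open scoped ENNReal NNReal Pointwise

namespace Vale.Agent.P092GK

variable {G : Type} [Group G] [TopologicalSpace G] [IsTopologicalGroup G]
  [SecondCountableTopology G] [MeasurableSpace G] [BorelSpace G] [LocallyCompactSpace G] [T2Space G]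
  {H H' : Subgroup G} {η η' : Measure G}

/-- a function of total mass one on every coset -/
structure Br (η : Measure G) (ψ : G → ℝ≥0∞) : Prop where
  meas : Measurable ψ
  one : ∀ g, ∫⁻ x, ψ (g * x) ∂η = 1

theorem Hm.exists_br (h : Hm H η) : ∃ ψ, Br η ψ := by
  classical
  haveI := h.sfin
  let K := CompactExhaustion.choice G
  have h0 : ∀ g : G, ∃ n, ∃ x ∈ H, g * x ∈ interior (K n) := fun g => by
    obtain ⟨n, hn⟩ := K.exists_mem g
    exact ⟨n + 1, 1, H.one_mem, by rw [mul_one]; exact K.subset_interior_succ n hn⟩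
  have h1 : ∀ n, IsOpen {g : G | ∃ x ∈ H, g * x ∈ interior (K n)} := fun n => by
    simp only [setOf_exists, ← exists_prop]
    exact isOpen_iUnion fun x => isOpen_iUnion fun _ =>
      isOpen_interior.preimage (continuous_mul_const x)
  have h2 : ∀ n, Measurable fun g : G => η {x | g * x ∈ interior (K n)} := fun n =>
    measurable_measure_prodMk_left (s := {q : G × G | q.1 * q.2 ∈ interior (K n)})
      (isOpen_interior.preimage continuous_mul).measurableSet
  refine ⟨fun g => (interior (K (Nat.find (h0 g)))).indicator 1 g *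
    (η {x | g * x ∈ interior (K (Nat.find (h0 g)))})⁻¹, Measurable.find
      (f := fun n g => (interior (K n)).indicator 1 g * (η {x | g * x ∈ interior (K n)})⁻¹)
      (fun n => (measurable_one.indicator isOpen_interior.measurableSet).mul (h2 n).inv)
      (fun n => (h1 n).measurableSet) h0, fun g => ?_⟩
  obtain ⟨n, hn⟩ : ∃ n, n = Nat.find (h0 g) := ⟨_, rfl⟩
  have h3 : MeasurableSet {x | g * x ∈ interior (K n)} :=
    (isOpen_interior.preimage (continuous_const_mul g)).measurableSet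
  rw [lintegral_congr_ae (g := fun x => {x | g * x ∈ interior (K n)}.indicator 1 x *
    (η {x | g * x ∈ interior (K n)})⁻¹), lintegral_mul_const _ (measurable_one.indicator h3),
    lintegral_indicator_one h3, ENNReal.mul_inv_cancel]
  · obtain ⟨x, hx, h4⟩ := Nat.find_spec (h0 g)
    exact h.pos _ (isOpen_interior.preimage (continuous_const_mul g)) ⟨x, hn ▸ h4, hx⟩
  · refine (lt_of_le_of_lt (measure_mono fun x hx => ?_)
      (h.fin _ ((K.isCompact n).image (continuous_const_mul g⁻¹)))).ne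
    exact ⟨_, interior_subset hx, inv_mul_cancel_left _ _⟩
  · filter_upwards [h.ae] with x hx
    have h4 : Nat.find (h0 (g * x)) = n := by
      rw [hn]
      congr 1
      funext m
      refine propext ⟨fun ⟨y, hy, e⟩ => ⟨x * y, H.mul_mem hx hy, mul_assoc g x y ▸ e⟩,
        fun ⟨y, hy, e⟩ => ⟨x⁻¹ * y, H.mul_mem (H.inv_mem hx) hy, ?_⟩⟩
      rwa [mul_assoc, mul_inv_cancel_left]
    rw [h4, ← (h.mp_left hx).measure_preimage h3.nullMeasurableSet]
    simp only [mul_assoc]
    rfl

variable (μ : Measure G) [μ.IsHaarMeasure] [μ.IsMulRightInvariant]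

theorem Br.weil (h : Hm H η) (hu : ∀ x ∈ H, mdl H x = 0) {ψ : G → ℝ≥0∞} (hψ : Br η ψ)
    {f : G → ℝ≥0∞} (hf : Measurable f) :
    ∫⁻ g, ψ g * ∫⁻ x, f (g * x) ∂η ∂μ = ∫⁻ g, f g ∂μ := by
  haveI := h.sfin
  have m1 : Measurable fun q : G × G => ψ q.1 * f (q.1 * q.2) :=
    (hψ.meas.comp measurable_fst).mul (hf.comp measurable_mul)
  have m2 : Measurable fun q : G × G => ψ (q.1 * q.2⁻¹) * f q.1 :=
    (hψ.meas.comp (measurable_fst.mul measurable_snd.inv)).mul (hf.comp measurable_fst)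
  calc _ = ∫⁻ g, ∫⁻ x, ψ g * f (g * x) ∂η ∂μ := lintegral_congr fun g =>
        (lintegral_const_mul _ (hf.comp (measurable_const_mul g))).symm
    _ = ∫⁻ x, ∫⁻ g, ψ g * f (g * x) ∂μ ∂η := lintegral_lintegral_swap m1.aemeasurable
    _ = ∫⁻ x, ∫⁻ g, ψ (g * x⁻¹) * f g ∂μ ∂η := lintegral_congr fun x => by
        rw [← lintegral_mul_right_eq_self (fun g => ψ (g * x⁻¹) * f g) x]
        simp only [mul_inv_cancel_right]
    _ = ∫⁻ g, ∫⁻ x, ψ (g * x⁻¹) * f g ∂η ∂μ := (lintegral_lintegral_swap m2.aemeasurable).symm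
    _ = _ := lintegral_congr fun g => by
        have m3 : Measurable fun x => ψ (g * x) := hψ.meas.comp (measurable_const_mul g)
        rw [lintegral_mul_const (f := fun x => ψ (g * x⁻¹)) _ (m3.comp measurable_inv),
          ← lintegral_map m3 measurable_inv, h.inv hu, hψ.one, one_mul]

/-- `ν` is the quotient of `μ` by the Haar measure `η` of the unimodular group `H` -/
structure Qm {X : Type} [MeasurableSpace X] (μ : Measure G) (H : Subgroup G) (η : Measure G)
    (π : G → X) (ν : Measure X) : Prop where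
  hm : Hm H η
  uni : ∀ x ∈ H, mdl H x = 0
  meas : Measurable π
  eq : ∀ g g', π g = π g' ↔ g⁻¹ * g' ∈ H
  lint : ∀ ψ, Br η ψ → ∀ f : X → ℝ≥0∞, Measurable f → ∫⁻ y, f y ∂ν = ∫⁻ g, ψ g * f (π g) ∂μ

variable {X : Type} [MeasurableSpace X] {π : G → X} {ν : Measure X}

theorem exists_qm (h : Hm H η) (hu : ∀ x ∈ H, mdl H x = 0) (hπ : Measurable π)
    (e : ∀ g g', π g = π g' ↔ g⁻¹ * g' ∈ H) : ∃ ν, Qm μ H η π ν := by
  obtain ⟨ψ, hψ⟩ := h.exists_br
  refine ⟨map π (μ.withDensity ψ), h, hu, hπ, e, fun ψ' h' f hf => ?_⟩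
  have m1 : Measurable fun g => f (π g) := hf.comp hπ
  have m2 : Measurable fun g => ψ' g * f (π g) := h'.meas.mul m1
  rw [lintegral_map hf hπ, lintegral_withDensity_eq_lintegral_mul _ hψ.meas m1,
    ← hψ.weil μ h hu m2]
  refine lintegral_congr fun g => ?_
  rw [lintegral_congr_ae (g := fun x => ψ' (g * x) * f (π g)),
    lintegral_mul_const (f := fun x => ψ' (g * x)) _ (h'.meas.comp (measurable_const_mul g)),
    h'.one, one_mul]
  · rfl
  · filter_upwards [h.ae] with x hx
    show _ * f (π (g * x)) = _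
    rw [← (e g (g * x)).2 (by rwa [inv_mul_cancel_left])]

variable {μ}

namespace Qm

variable (h : Qm μ H η π ν)
include h

theorem mul (g : G) {x : G} (hx : x ∈ H) : π (g * x) = π g :=
  ((h.eq g (g * x)).2 (by rwa [inv_mul_cancel_left])).symm

theorem le_weil {f : G → ℝ≥0∞} (hf : Measurable f) {F : X → ℝ≥0∞} (hF : Measurable F)
    (e : ∀ g, F (π g) ≤ ∫⁻ x, f (g * x) ∂η) : ∫⁻ y, F y ∂ν ≤ ∫⁻ g, f g ∂μ := by
  obtain ⟨ψ, hψ⟩ := h.hm.exists_br
  rw [h.lint ψ hψ F hF, ← hψ.weil μ h.hm h.uni hf]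
  exact lintegral_mono fun g => mul_le_mul_right (e g) _

theorem weil_le {f : G → ℝ≥0∞} (hf : Measurable f) {F : X → ℝ≥0∞} (hF : Measurable F)
    (e : ∀ g, ∫⁻ x, f (g * x) ∂η ≤ F (π g)) : ∫⁻ g, f g ∂μ ≤ ∫⁻ y, F y ∂ν := by
  obtain ⟨ψ, hψ⟩ := h.hm.exists_br
  rw [h.lint ψ hψ F hF, ← hψ.weil μ h.hm h.uni hf]
  exact lintegral_mono fun g => mul_le_mul_right (e g) _

/-- **Weil formula** -/
theorem weil {f : G → ℝ≥0∞} (hf : Measurable f) {F : X → ℝ≥0∞} (hF : Measurable F)
    (e : ∀ g, F (π g) = ∫⁻ x, f (g * x) ∂η) : ∫⁻ y, F y ∂ν = ∫⁻ g, f g ∂μ :=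
  le_antisymm (h.le_weil hf hF fun g => (e g).le) (h.weil_le hf hF fun g => (e g).ge)

/-- invariance under left translations -/
theorem left {T : X → X} (hT : Measurable T) {s : G} (e : ∀ g, T (π g) = π (s * g)) :
    map T ν = ν := by
  obtain ⟨ψ, hψ⟩ := h.hm.exists_br
  have h1 : Br η fun g => ψ (s * g) := ⟨hψ.meas.comp (measurable_const_mul s), fun g => by
    simp only [← mul_assoc]; exact hψ.one _⟩
  refine ext_of_lintegral _ fun f hf => ?_
  rw [lintegral_map hf hT, h.lint _ h1 (fun y => f (T y)) (hf.comp hT), h.lint ψ hψ f hf,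
    ← lintegral_mul_left_eq_self (fun g => ψ g * f (π g)) s]
  simp only [Function.comp, e]

/-- scaling under right translations -/
theorem right {T : X → X} (hT : Measurable T) {q : G} (hq : q ∈ Subgroup.normalizer (H : Set G))
    (e : ∀ g, T (π g) = π (g * q)) : map T ν = eo (-mdl H q) • ν := by
  obtain ⟨ψ, hψ⟩ := h.hm.exists_br
  have h1 : Br η fun g => eo (-mdl H q) * ψ (g * q) :=
    ⟨(hψ.meas.comp (measurable_mul_const q)).const_mul _, fun g => by
      rw [lintegral_const_mul' _ _ (eo_ne_top _),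
        lintegral_congr (g := fun x => ψ (g * q * (q⁻¹ * x * q))) fun x => by congr 1; group,
        h.hm.lint_conj hq fun x => ψ (g * q * x), hψ.one, mul_one, eo_neg_mul]⟩
  refine ext_of_lintegral _ fun f hf => ?_
  rw [lintegral_map hf hT, h.lint _ h1 (fun y => f (T y)) (hf.comp hT), lintegral_smul_measure, h.lint ψ hψ f hf,
    ← lintegral_mul_right_eq_self (fun g => ψ g * f (π g)) q, smul_eq_mul,
    ← lintegral_const_mul' _ _ (eo_ne_top _)]
  simp only [Function.comp, e, mul_assoc]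

theorem null_iff {S : Set X} (hS : MeasurableSet S) : ν S = 0 ↔ μ (π ⁻¹' S) = 0 := by
  have h1 := h.meas hS
  constructor
  · intro h0
    have := h.weil_le (measurable_one.indicator h1) ((measurable_const (a := ⊤)).indicator hS)
      fun g => by
        by_cases hg : π g ∈ S
        · rw [indicator_of_mem hg]; exact le_top
        · rw [lintegral_congr_ae (g := fun _ => 0), lintegral_zero]
          · exact bot_le
          · filter_upwards [h.hm.ae] with x hx
            exact indicator_of_notMem (by rwa [mem_preimage, h.mul g hx]) _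
    rwa [lintegral_indicator_one h1, lintegral_indicator_const hS, h0, mul_zero,
      nonpos_iff_eq_zero] at this
  · intro h0
    obtain ⟨ψ, hψ⟩ := h.hm.exists_br
    rw [← lintegral_indicator_one hS, h.lint ψ hψ _ (measurable_one.indicator hS),
      lintegral_congr_ae (g := fun _ => 0), lintegral_zero]
    filter_upwards [measure_eq_zero_iff_ae_notMem.1 h0] with g hg
    rw [indicator_of_notMem (show π g ∉ S from hg), mul_zero]

theorem ae_iff {S : Set X} (hS : MeasurableSet S) : (∀ᵐ y ∂ν, y ∈ S) ↔ ∀ᵐ g ∂μ, π g ∈ S :=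
  h.null_iff hS.compl

/-- comparison of `ν S` with the Haar measure of a window of the preimage: upper bound -/
theorem le_win {K : Set G} (hK : IsCompact K) : ∃ (L : Set G) (C : ℝ), IsCompact L ∧
    ∀ S, MeasurableSet S → S ⊆ π '' K → ν S ≤ eo C * μ (L ∩ π ⁻¹' S) := by
  obtain ⟨V, hV, h1⟩ := exists_compact_mem_nhds (1 : G)
  obtain ⟨C, -, hC⟩ := exists_eo_le (h.hm.pos' h1)
  refine ⟨K * V, C, hK.mul hV, fun S hS hs => ?_⟩
  have h2 := (hK.mul hV).measurableSet.inter (h.meas hS)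
  rw [← lintegral_indicator_one hS, ← lintegral_indicator_const h2]
  refine h.le_weil (measurable_const.indicator h2) (measurable_one.indicator hS) fun g => ?_
  by_cases hg : π g ∈ S
  · obtain ⟨y, hy, e⟩ := hs hg
    have h3 := (h.eq _ _).1 e.symm
    rw [indicator_of_mem hg, ← h.hm.lint_left h3]
    refine le_trans ?_ (lintegral_mono_ae (f := V.indicator fun _ => eo C) ?_)
    · rw [lintegral_indicator_const hV.measurableSet, Pi.one_apply, ← eo_mul_neg C]
      exact mul_le_mul_right hC _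
    · filter_upwards [h.hm.ae] with x hx
      by_cases hv : x ∈ V
      · rw [indicator_of_mem hv, indicator_of_mem]
        rw [← mul_assoc, mul_inv_cancel_left]
        exact ⟨mul_mem_mul hy hv, by rw [mem_preimage, h.mul y hx, e]; exact hg⟩
      · rw [indicator_of_notMem hv]; exact bot_le
  · rw [indicator_of_notMem hg]; exact bot_le

/-- comparison of `ν S` with the Haar measure of a window of the preimage: lower bound -/
theorem win_le {L : Set G} (hL : IsCompact L) : ∃ C : ℝ,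
    ∀ S, MeasurableSet S → μ (L ∩ π ⁻¹' S) ≤ eo C * ν S := by
  obtain ⟨C, -, hC⟩ := exists_le_eo (h.hm.fin _ (hL.inv.mul hL)).ne
  refine ⟨C, fun S hS => ?_⟩
  have h2 := hL.measurableSet.inter (h.meas hS)
  rw [← lintegral_indicator_one h2, ← lintegral_indicator_const hS]
  refine h.weil_le (measurable_one.indicator h2) (measurable_const.indicator hS) fun g => ?_
  by_cases hg : ∃ x ∈ H, g * x ∈ L ∩ π ⁻¹' S
  · obtain ⟨y, hy, e⟩ := hg
    rw [indicator_of_mem (h.mul g hy ▸ e.2), ← h.hm.lint_left hy]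
    refine le_trans (lintegral_mono (g := (L⁻¹ * L).indicator 1) fun x => ?_) ?_
    · by_cases hv : g * (y * x) ∈ L ∩ π ⁻¹' S
      · rw [indicator_of_mem hv, indicator_of_mem]
        · exact le_rfl
        · exact ⟨_, Set.inv_mem_inv.2 e.1, _, hv.1, by simp only; group⟩
      · rw [indicator_of_notMem hv]; exact bot_le
    · rwa [lintegral_indicator_one (hL.inv.mul hL).measurableSet]
  · rw [lintegral_congr_ae (g := fun _ => 0), lintegral_zero]
    · exact bot_le
    · filter_upwards [h.hm.ae] with x hx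
      exact indicator_of_notMem (fun e => hg ⟨x, hx, e⟩) _

theorem fin_image {K : Set G} (hK : IsCompact K) {S : Set X} (hS : MeasurableSet S)
    (hs : S ⊆ π '' K) : ν S < ⊤ := by
  obtain ⟨L, C, hL, h1⟩ := h.le_win hK
  exact (h1 S hS hs).trans_lt (ENNReal.mul_lt_top (eo_ne_top C).lt_top
    ((measure_mono inter_subset_left).trans_lt hL.measure_lt_top))

variable [TopologicalSpace X] [OpensMeasurableSpace X]

theorem openPos (hπ : IsOpenQuotientMap π) : ν.IsOpenPosMeasure := ⟨fun U hU ⟨y, hy⟩ h0 => by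
  obtain ⟨g, rfl⟩ := hπ.surjective y
  exact (hU.preimage hπ.continuous).measure_ne_zero μ ⟨g, hy⟩ ((h.null_iff hU.measurableSet).1 h0)⟩

omit h in
theorem exists_lift (hπ : IsOpenQuotientMap π) {S : Set X} (hS : IsCompact S) :
    ∃ K, IsCompact K ∧ S ⊆ π '' K := by
  let K := CompactExhaustion.choice G
  obtain ⟨n, hn⟩ := hS.elim_directed_cover (fun n => π '' interior (K n))
    (fun n => hπ.isOpenMap _ isOpen_interior) (fun y _ => by
      obtain ⟨g, rfl⟩ := hπ.surjective y
      obtain ⟨n, hn⟩ := K.exists_mem g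
      exact mem_iUnion.2 ⟨n + 1, g, K.subset_interior_succ n hn, rfl⟩)
    (Monotone.directed_le fun m n hmn => image_mono (interior_mono (K.subset hmn)))
  exact ⟨K n, K.isCompact n, hn.trans (image_mono interior_subset)⟩

theorem finCpt [T2Space X] (hπ : IsOpenQuotientMap π) : IsFiniteMeasureOnCompacts ν :=
  ⟨fun S hS => by
    obtain ⟨K, hK, h1⟩ := exists_lift hπ hS
    exact h.fin_image hK hS.measurableSet h1⟩

end Qm

/-- the invariant measure on `G ⧸ H` -/
theorem exists_quo (μ : Measure G) [μ.IsHaarMeasure] [μ.IsMulRightInvariant]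
    [MeasurableSpace (G ⧸ H)] [BorelSpace (G ⧸ H)] (h : Hm H η) (hu : ∀ x ∈ H, mdl H x = 0) :
    ∃ ν : Measure (G ⧸ H), Qm μ H η (fun g => (g : G ⧸ H)) ν ∧ ν.IsOpenPosMeasure ∧
      IsFiniteMeasureOnCompacts ν ∧ SMulInvariantMeasure G (G ⧸ H) ν := by
  haveI := h.cl
  obtain ⟨ν, hν⟩ := exists_qm μ (π := fun g => (g : G ⧸ H)) h hu
    QuotientGroup.continuous_mk.measurable fun g g' => QuotientGroup.eq
  refine ⟨ν, hν, hν.openPos QuotientGroup.isOpenQuotientMap_mk,
    hν.finCpt QuotientGroup.isOpenQuotientMap_mk, ⟨fun s S hS => ?_⟩⟩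
  have hm : Measurable fun y : G ⧸ H => s • y := (continuous_const_smul s).measurable
  rw [← map_apply hm hS, hν.left hm fun g => rfl]

/-- the Haar measure on an open double coset `H x H'` with trivial stabilisers -/
theorem cell_haar (μ : Measure G) [μ.IsHaarMeasure] [μ.IsMulRightInvariant] (h : Hm H η)
    (h' : Hm H' η') {O : Set G} (hO : IsOpen O) (e : ∀ g, g ∈ O ↔ ∃ u ∈ H, ∃ p ∈ H', g = u * p)
    {l : G → G} (hl : ContinuousOn l O) (el : ∀ u ∈ H, ∀ p ∈ H', l (u * p) = u) :
    ∃ c : ℝ, μ.restrict O = eo c • map (fun q : G × G => q.1 * q.2⁻¹) (η.prod η') := by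
  haveI := h.sfin
  haveI := h'.sfin
  have hm : Measurable fun q : G × G => q.1 * q.2⁻¹ := by fun_prop
  have hr : (range fun q : H × H' => (q.1 : G) * 1 * (q.2 : G)⁻¹) = O := Set.ext fun g => by
    rw [e]
    exact ⟨fun ⟨q, hq⟩ => ⟨_, q.1.2, _, H'.inv_mem q.2.2, by rw [← hq]; simp only [mul_one]⟩,
      fun ⟨u, hu, p, hp, hg⟩ => ⟨(⟨u, hu⟩, ⟨p, hp⟩⁻¹), by simp [hg]⟩⟩
  have h0 : ∀ᵐ q ∂η.prod η', q.1 ∈ H ∧ q.2 ∈ H' :=
    (quasiMeasurePreserving_fst.ae h.ae).and (quasiMeasurePreserving_snd.ae h'.ae)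
  have h1 : ∀ q : H × H', l ((q.1 : G) * 1 * (q.2 : G)⁻¹) = q.1 := fun q => by
    rw [mul_one, el _ q.1.2 _ (H'.inv_mem q.2.2)]
  have hc : Continuous fun q : H × H' => (q.1 : G) * 1 * (q.2 : G)⁻¹ := by fun_prop
  have h2 : IsOpenEmbedding fun q : H × H' => (q.1 : G) * 1 * (q.2 : G)⁻¹ := by
    refine ⟨⟨isInducing_iff_nhds.2 fun q => le_antisymm (hc.tendsto q).le_comap ?_, fun q q' e => ?_⟩,
      hr ▸ hO⟩
    · obtain ⟨Ψ, hΨ⟩ : ∃ Ψ, Ψ = fun q : H × H' => (q.1 : G) * 1 * (q.2 : G)⁻¹ := ⟨_, rfl⟩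
      show Filter.comap _ (𝓝 ((fun q : H × H' => (q.1 : G) * 1 * (q.2 : G)⁻¹) q)) ≤ _
      rw [← hΨ] at hr ⊢
      have h3 : Tendsto (fun x : H × H' => l (Ψ x)) (comap Ψ (𝓝 (Ψ q))) (𝓝 (l (Ψ q))) :=
        (hl.continuousAt (hO.mem_nhds (hr ▸ mem_range_self q))).tendsto.comp tendsto_comap
      have h4 : Tendsto (fun x : H × H' => (Ψ x)⁻¹ * l (Ψ x)) (comap Ψ (𝓝 (Ψ q)))
          (𝓝 ((Ψ q)⁻¹ * l (Ψ q))) := (Tendsto.inv tendsto_comap).mul h3
      have h5 : ∀ x : H × H', l (Ψ x) = x.1 := fun x => hΨ ▸ h1 x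
      have h6 : ∀ x : H × H', (Ψ x)⁻¹ * x.1 = x.2 := fun x => by rw [hΨ]; simp only; group
      simp only [h5, h6] at h3 h4
      exact (tendsto_subtype_rng.2 h3).prodMk_nhds (tendsto_subtype_rng.2 h4)
    · have h3 : (q.1 : G) = q'.1 := by rw [← h1 q, ← h1 q']; exact congrArg l e
      have h4 : (q.1 : G) * 1 * (q.2 : G)⁻¹ = q'.1 * 1 * (q'.2 : G)⁻¹ := e
      rw [h3] at h4
      exact Prod.ext (Subtype.ext h3) (Subtype.ext (inv_injective (mul_left_cancel h4)))
  obtain ⟨c, hc⟩ := P092RG.uniq H H' h.cl h'.cl 1 h2 μ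
    (map (fun q : G × G => q.1 * q.2⁻¹) (η.prod η')) (fun x hx => by
      have h3 := (h.mp_left hx).prod (MeasurePreserving.id η')
      rw [map_map (measurable_const_mul x) hm]
      conv_rhs => rw [← h3.map_eq, map_map hm h3.measurable]
      congr 1
      funext q
      exact (mul_assoc _ _ _).symm) (fun x hx => by
      have h3 := (MeasurePreserving.id η).prod (h'.mp_left (H'.inv_mem hx))
      rw [map_map (measurable_mul_const x) hm]
      conv_rhs => rw [← h3.map_eq, map_map hm h3.measurable]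
      congr 1
      funext q
      show q.1 * q.2⁻¹ * x = q.1 * (x⁻¹ * q.2)⁻¹
      group) fun C hC hs => by
      have h3 := hC.image_of_continuousOn (hl.mono (hr ▸ hs))
      have h4 := hC.inv.mul h3
      rw [map_apply hm hC.measurableSet]
      refine lt_of_le_of_lt (measure_mono_ae (t := (l '' C) ×ˢ (C⁻¹ * (l '' C))) ?_) ?_
      · filter_upwards [h0] with q hq hq'
        have h5 : q.1 ∈ l '' C := ⟨_, hq', el _ hq.1 _ (H'.inv_mem hq.2)⟩
        exact ⟨h5, _, Set.inv_mem_inv.2 hq', _, h5, by simp only; group⟩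
      · rw [prod_prod]
        exact ENNReal.mul_lt_top (h.fin _ h3) (h'.fin _ h4)
  rw [hr, restrict_eq_self_of_ae_mem ((ae_map_iff hm.aemeasurable hO.measurableSet).2 (by
    filter_upwards [h0] with q hq using (e _).2 ⟨_, hq.1, _, H'.inv_mem hq.2, rfl⟩))] at hc
  have h3 : (c : ℝ≥0∞) ≠ 0 := fun e => by
    have := congrArg (fun m : Measure G => m univ) hc
    simp only [Measure.coe_nnreal_smul_apply, e, zero_mul] at this
    rw [map_apply hm MeasurableSet.univ, preimage_univ, ← univ_prod_univ, prod_prod] at this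
    exact mul_ne_zero (h.pos' univ_mem) (h'.pos' univ_mem) this
  obtain ⟨x, hx⟩ := exists_eo h3 ENNReal.coe_ne_top
  refine ⟨-x, ?_⟩
  rw [hc, show c • μ.restrict O = eo x • μ.restrict O by rw [← hx]; rfl, smul_smul, eo_neg_mul,
    one_smul]

end Vale.Agent.P092GK
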