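import Vale.Agent.P092GK.Null
import Vale.Agent.P092GK.Weil
import Mathlib.MeasureTheory.Integral.Indicator

/-!
P092, group package (helper83): the modulus `ρ` (the sum of the positive roots), unimodular
subgroups, the Haar measure on the big cell, positivity of `ρ`.
-/

set_option linter.all false

open Matrix Filter Topology MeasureTheory Measure Set
open scoped Pointwise ENNReal

namespace Vale.Agent.P092GK

open FlD

variable {k : Type} [NontriviallyNormedField k] {G : Type} [Group G] {r : ℕ} {F : FlD k G r}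
  [TopologicalSpace G] [IsTopologicalGroup G] [T2Space G]

/-- the linear form with prescribed values on the coweights -/
noncomputable def FlD.lf (F : FlD k G r) (f : G → ℝ) : (Fin r → ℝ) →ₗ[ℝ] ℝ where
  toFun x := ∑ i, f (F.b i) / F.β * x i
  map_add' x y := by simp only [Pi.add_apply, mul_add, Finset.sum_add_distrib]
  map_smul' t x := by
    simp only [Pi.smul_apply, smul_eq_mul, RingHom.id_apply, Finset.mul_sum, mul_left_comm]

theorem lin_bound (l : (Fin r → ℝ) →ₗ[ℝ] ℝ) : ∃ C : ℝ, 1 ≤ C ∧ ∀ x, |l x| ≤ C * ‖x‖ :=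
  ⟨max 1 ‖LinearMap.toContinuousLinearMap l‖, le_max_left _ _, fun x =>
    ((LinearMap.toContinuousLinearMap l).le_opNorm x).trans
      (mul_le_mul_of_nonneg_right (le_max_right _ _) (norm_nonneg _))⟩

theorem lin_ext {l l' : (Fin r → ℝ) →ₗ[ℝ] ℝ} {t : ℝ} (ht : t ≠ 0)
    (e : ∀ i, l (Pi.single i t) = l' (Pi.single i t)) : l = l' := by
  refine LinearMap.pi_ext fun i x => ?_
  have : (Pi.single i x : Fin r → ℝ) = (x / t) • (Pi.single i t : Fin r → ℝ) := by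
    rw [← Pi.single_smul', smul_eq_mul, div_mul_cancel₀ _ ht]
  rw [this, map_smul, map_smul, e]

namespace Fl

variable (h : Fl F)
include h

/-- the subgroups between `M U⁺` and the minimal parabolic subgroup -/
def Hw (W : Submodule ℝ (Fin r → ℝ)) : Subgroup G where
  carrier := {p | p ∈ F.P Finset.univ ∧ F.ℓ p ∈ W}
  one_mem' := ⟨(F.P _).one_mem, h.ℓ_one ▸ W.zero_mem⟩
  mul_mem' hp hq := ⟨(F.P _).mul_mem hp.1 hq.1, h.ℓ_P (h.P_Ω hp.1) hq.1 ▸ W.add_mem hp.2 hq.2⟩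
  inv_mem' hp := ⟨(F.P _).inv_mem hp.1, h.ℓ_invP hp.1 ▸ W.neg_mem hp.2⟩

/-- the subgroups between `M` and `Z` -/
def Zw (W : Submodule ℝ (Fin r → ℝ)) : Subgroup G := F.Z ⊓ h.Hw W

theorem mem_Hw {W : Submodule ℝ (Fin r → ℝ)} {p : G} :
    p ∈ h.Hw W ↔ p ∈ F.P Finset.univ ∧ F.ℓ p ∈ W := Iff.rfl

theorem mem_Zw {W : Submodule ℝ (Fin r → ℝ)} {z : G} : z ∈ h.Zw W ↔ z ∈ F.Z ∧ F.ℓ z ∈ W :=
  ⟨fun e => ⟨e.1, e.2.2⟩, fun e => ⟨e.1, h.z_mem_P e.1 _, e.2⟩⟩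

theorem ℓ_of_up {u : G} (hu : u ∈ F.Up) : F.ℓ u = 0 := by rw [← one_mul u, h.ℓ_up hu, h.ℓ_one]

theorem ℓ_of_um {u : G} (hu : u ∈ F.Um) : F.ℓ u = 0 := by rw [← mul_one u, h.ℓ_um hu, h.ℓ_one]

theorem up_mem_Hw (W : Submodule ℝ (Fin r → ℝ)) {u : G} (hu : u ∈ F.Up) : u ∈ h.Hw W :=
  ⟨h.up_mem_P hu _, h.ℓ_of_up hu ▸ W.zero_mem⟩

theorem Hw_iff {W : Submodule ℝ (Fin r → ℝ)} {p : G} :
    p ∈ h.Hw W ↔ ∃ z ∈ h.Zw W, ∃ u ∈ F.Up, p = z * u := by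
  refine ⟨fun ⟨h1, h2⟩ => ?_, ?_⟩
  · obtain ⟨z, hz, u, hu, rfl⟩ := h.P_univ.1 h1
    exact ⟨z, h.mem_Zw.2 ⟨hz, h.ℓ_up hu z ▸ h2⟩, u, hu, rfl⟩
  · rintro ⟨z, hz, u, hu, rfl⟩
    exact (h.Hw W).mul_mem hz.2 (h.up_mem_Hw W hu)

theorem Hw_bot : h.Hw ⊥ = F.N Finset.univ := Subgroup.ext fun p => by
  simp only [h.Hw_iff, h.N_univ, h.mem_Zw, h.mem_M, Submodule.mem_bot]

theorem Hw_top : h.Hw ⊤ = F.P Finset.univ := Subgroup.ext fun p => ⟨fun e => e.1, fun e => ⟨e, trivial⟩⟩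

theorem Zw_top : h.Zw ⊤ = F.Z := Subgroup.ext fun p => by
  simp only [h.mem_Zw, Submodule.mem_top, and_true]

theorem Zw_bot : h.Zw ⊥ = F.M := Subgroup.ext fun p => by
  simp only [h.mem_Zw, h.mem_M, Submodule.mem_bot]

theorem Hw_mono {W W' : Submodule ℝ (Fin r → ℝ)} (e : W ≤ W') : h.Hw W ≤ h.Hw W' :=
  fun _ hp => ⟨hp.1, e hp.2⟩

theorem isClosed_Hw (W : Submodule ℝ (Fin r → ℝ)) : IsClosed (h.Hw W : Set G) :=
  (h.contOn_ℓ.mono fun _ => h.P_Ω).preimage_isClosed_of_isClosed (h.isClosed_P _)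
    W.closed_of_finiteDimensional

theorem isClosed_Zw (W : Submodule ℝ (Fin r → ℝ)) : IsClosed (h.Zw W : Set G) :=
  h.clZ.inter (h.isClosed_Hw W)

theorem nrm_Hw (W : Submodule ℝ (Fin r → ℝ)) :
    F.P Finset.univ ≤ Subgroup.normalizer (h.Hw W : Set G) := nrm_of fun q hq x hx => by
  have h1 := (F.P _).mul_mem hq hx.1
  refine ⟨(F.P _).mul_mem h1 ((F.P _).inv_mem hq), ?_⟩
  rw [h.ℓ_P (h.P_Ω h1) ((F.P _).inv_mem hq), h.ℓ_P (h.P_Ω hq) hx.1, h.ℓ_invP hq,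
    add_neg_cancel_comm]
  exact hx.2

theorem nrm_Zw (W : Submodule ℝ (Fin r → ℝ)) : F.Z ≤ Subgroup.normalizer (h.Zw W : Set G) :=
  nrm_of fun q hq x hx => ⟨F.Z.mul_mem (F.Z.mul_mem hq hx.1) (F.Z.inv_mem hq),
    (h.nrm_Hw W (h.z_mem_P hq _) x).1 hx.2⟩

theorem nrm_Up : F.P Finset.univ ≤ Subgroup.normalizer (F.Up : Set G) := nrm_of fun q hq x hx => by
  obtain ⟨z, hz, u, hu, rfl⟩ := h.P_univ.1 hq
  have := h.zup z hz _ (F.Up.mul_mem (F.Up.mul_mem hu hx) (F.Up.inv_mem hu))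
  rwa [show z * (u * x * u⁻¹) * z⁻¹ = z * u * x * (z * u)⁻¹ by group] at this

theorem nrm_Um : F.Pm Finset.univ ≤ Subgroup.normalizer (F.Um : Set G) := nrm_of fun q hq x hx => by
  obtain ⟨u, hu, z, hz, rfl⟩ := h.Pm_univ.1 hq
  have := F.Um.mul_mem (F.Um.mul_mem hu (h.zum z hz x hx)) (F.Um.inv_mem hu)
  rwa [show u * (z * x * z⁻¹) * u⁻¹ = u * z * x * (u * z)⁻¹ by group] at this

theorem md_zu {z u : G} (hz : z ∈ F.Z) (hu : u ∈ F.Up) : F.md (z * u) = z := by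
  have := (h.cell_eq F.Um.one_mem hz hu).2.1
  rwa [one_mul] at this

omit [T2Space G] in
theorem lf_b (f : G → ℝ) (i : Fin r) : F.lf f (F.ℓ (F.b i)) = f (F.b i) := by
  show ∑ j, f (F.b j) / F.β * F.ℓ (F.b i) j = _
  rw [h.bℓ, Finset.sum_eq_single i (fun j _ e => by rw [Pi.single_eq_of_ne e, mul_zero])
    fun e => absurd (Finset.mem_univ i) e, Pi.single_eq_same, div_mul_cancel₀ _ h.β_pos.ne']

/-- additive functions on `Z` are linear forms -/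
theorem add_Z {f : G → ℝ} (hf : ∀ a ∈ F.Z, ∀ b ∈ F.Z, f (a * b) = f a + f b)
    (hb : ∀ Q : Set G, IsCompact Q → Q ⊆ F.Z → ∃ B, ∀ z ∈ Q, |f z| ≤ B) {z : G} (hz : z ∈ F.Z) :
    f z = F.lf f (F.ℓ z) := by
  refine sub_eq_zero.1 (h.add_ext (f := fun z => f z - F.lf f (F.ℓ z)) (fun a ha b hb => ?_)
    (fun Q hQ hs => ?_) (fun i => by rw [h.lf_b, sub_self]) hz)
  · rw [hf a ha b hb, h.ℓ_mul ha hb, map_add]; ring
  · obtain ⟨B, hB⟩ := hb Q hQ hs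
    obtain ⟨B', -, h1⟩ := h.ℓ_bdd hQ fun x hx => h.z_mem (hs hx)
    obtain ⟨C, hC, h2⟩ := lin_bound (F.lf f)
    exact ⟨B + C * B', fun x hx => (abs_sub _ _).trans (add_le_add (hB x hx) ((h2 _).trans
      (mul_le_mul_of_nonneg_left (h1 x hx) (by linarith))))⟩

variable [SecondCountableTopology G] [LocallyCompactSpace G] [MeasurableSpace G] [BorelSpace G]

omit h in
/-- contracted elements act with modulus one -/
theorem mdl_contr {H : Subgroup G} (hH : IsClosed (H : Set G)) {S : Subgroup G}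
    (hS : S ≤ Subgroup.normalizer (H : Set G))
    (hc : ∀ u ∈ S, ∀ N ∈ 𝓝 (1 : G), ∃ z ∈ Subgroup.normalizer (H : Set G), z * u * z⁻¹ ∈ N)
    {u : G} (hu : u ∈ S) : mdl H u = 0 := by
  obtain ⟨K, hK, h1⟩ := exists_compact_mem_nhds (1 : G)
  obtain ⟨B, hB⟩ := mdl_bdd hH hK
  by_contra h0
  obtain ⟨n, hn⟩ := exists_nat_gt (B / |mdl H u|)
  obtain ⟨z, hz, h2⟩ := hc _ (S.pow_mem hu n) K h1
  have h3 := hS (S.pow_mem hu n)
  have h4 := hB _ h2 (Subgroup.mul_mem _ (Subgroup.mul_mem _ hz h3) (Subgroup.inv_mem _ hz))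
  rw [mdl_mul hH (Subgroup.mul_mem _ hz h3) (Subgroup.inv_mem _ hz), mdl_mul hH hz h3,
    mdl_inv hH hz, add_neg_cancel_comm, mdl_pow hH (hS hu), abs_mul, Nat.abs_cast] at h4
  exact absurd ((div_lt_iff₀ (abs_pos.2 h0)).1 hn) (not_lt.2 h4)

theorem mdl_Z {H : Subgroup G} (hH : IsClosed (H : Set G))
    (hn : F.Z ≤ Subgroup.normalizer (H : Set G)) {z : G} (hz : z ∈ F.Z) :
    mdl H z = F.lf (mdl H) (F.ℓ z) :=
  h.add_Z (fun a ha b hb => mdl_mul hH (hn ha) (hn hb)) (fun Q hQ hs =>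
    (mdl_bdd hH hQ).imp fun _ hB x hx => hB x hx (hn (hs hx))) hz

theorem mdl_P {H : Subgroup G} (hH : IsClosed (H : Set G))
    (hn : F.P Finset.univ ≤ Subgroup.normalizer (H : Set G)) {p : G} (hp : p ∈ F.P Finset.univ) :
    mdl H p = F.lf (mdl H) (F.ℓ p) := by
  obtain ⟨z, hz, u, hu, rfl⟩ := h.P_univ.1 hp
  rw [mdl_mul hH (hn (h.z_mem_P hz _)) (hn (h.up_mem_P hu _)), h.ℓ_up hu,
    h.mdl_Z hH (fun _ e => hn (h.z_mem_P e _)) hz,
    mdl_contr hH (S := F.Up) (fun _ e => hn (h.up_mem_P e _)) (fun u hu N hN => ?_) hu, add_zero]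
  obtain ⟨T, -, hT⟩ := h.up_contr (isCompact_singleton (x := u)) hN
  obtain ⟨a, ha, h1⟩ := h.exists_big T
  exact ⟨a⁻¹, hn (h.z_mem_P (F.Z.inv_mem ha) _), by rw [inv_inv]; exact hT a ha h1 u rfl hu⟩

theorem mdl_Pm {H : Subgroup G} (hH : IsClosed (H : Set G))
    (hn : F.Pm Finset.univ ≤ Subgroup.normalizer (H : Set G)) {p : G} (hp : p ∈ F.Pm Finset.univ) :
    mdl H p = F.lf (mdl H) (F.ℓ p) := by
  obtain ⟨u, hu, z, hz, rfl⟩ := h.Pm_univ.1 hp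
  rw [mdl_mul hH (hn (h.um_mem_Pm hu _)) (hn (h.z_mem_Pm hz _)), h.ℓ_um hu,
    h.mdl_Z hH (fun _ e => hn (h.z_mem_Pm e _)) hz,
    mdl_contr hH (S := F.Um) (fun _ e => hn (h.um_mem_Pm e _)) (fun u hu N hN => ?_) hu, zero_add]
  obtain ⟨T, -, hT⟩ := h.um_contr (isCompact_singleton (x := u)) hN
  obtain ⟨a, ha, h1⟩ := h.exists_big T
  exact ⟨a, hn (h.z_mem_Pm ha _), hT a ha h1 u rfl hu⟩

end Fl

variable [SecondCountableTopology G] [LocallyCompactSpace G] [MeasurableSpace G] [BorelSpace G]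

/-- the sum of the positive roots with multiplicities: the modulus of `Z` on `U⁺` -/
noncomputable def FlD.ρ (F : FlD k G r) : (Fin r → ℝ) →ₗ[ℝ] ℝ := F.lf (mdl F.Up)

namespace Fl

variable (h : Fl F)
include h

theorem mdl_Up {p : G} (hp : p ∈ F.P Finset.univ) : mdl F.Up p = F.ρ (F.ℓ p) :=
  h.mdl_P h.clUp h.nrm_Up hp

theorem uni_Up {u : G} (hu : u ∈ F.Up) : mdl F.Up u = 0 := by
  rw [h.mdl_Up (h.up_mem_P hu _), h.ℓ_of_up hu, map_zero]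

theorem uni_Um {u : G} (hu : u ∈ F.Um) : mdl F.Um u = 0 := by
  rw [h.mdl_Pm h.clUm h.nrm_Um (h.um_mem_Pm hu _), h.ℓ_of_um hu, map_zero]

/-- every closed normal subgroup of `Z` is unimodular -/
theorem mdl_le_Z {A : Subgroup G} (hA : IsClosed (A : Set G)) (h1 : A ≤ F.Z)
    (hn : F.Z ≤ Subgroup.normalizer (A : Set G)) {z : G} (hz : z ∈ F.Z) : mdl A z = 0 := by
  rw [h.mdl_Z hA hn hz]
  show ∑ i, mdl A (F.b i) / F.β * F.ℓ z i = 0
  exact Finset.sum_eq_zero fun i _ => by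
    rw [mdl_comm hA fun x hx => h.bcomm i x (h1 hx), zero_div, zero_mul]

theorem uni_Z {z : G} (hz : z ∈ F.Z) : mdl F.Z z = 0 :=
  h.mdl_le_Z h.clZ le_rfl F.Z.le_normalizer hz

theorem mdl_Zw (W : Submodule ℝ (Fin r → ℝ)) {z : G} (hz : z ∈ F.Z) : mdl (h.Zw W) z = 0 :=
  h.mdl_le_Z (h.isClosed_Zw W) inf_le_left (h.nrm_Zw W) hz

theorem hm_Hw {W : Submodule ℝ (Fin r → ℝ)} {α η : Measure G} (ha : Hm (h.Zw W) α)
    (hu : Hm F.Up η) : Hm (h.Hw W) (Measure.map (fun q : G × G => q.1 * q.2) (α.prod η)) :=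
  ha.sd hu (fun z hz => h.nrm_Up hz.2.1) (h.isClosed_Hw W) (fun _ => h.Hw_iff)
    (h.md_cont.mono fun _ hp => h.P_Ω hp.1) fun a ha u hu => h.md_zu ha.1 hu

theorem mdl_Hw (W : Submodule ℝ (Fin r → ℝ)) {p : G} (hp : p ∈ F.P Finset.univ) :
    mdl (h.Hw W) p = F.ρ (F.ℓ p) := by
  rw [h.mdl_P (h.isClosed_Hw W) (h.nrm_Hw W) hp]
  show ∑ i, mdl (h.Hw W) (F.b i) / F.β * F.ℓ p i = ∑ i, mdl F.Up (F.b i) / F.β * F.ℓ p i
  refine Finset.sum_congr rfl fun i _ => ?_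
  have h1 := h.z_mem_P (h.bZ i) Finset.univ
  rw [mdl_sd (h.isClosed_Zw W) h.clUp (fun z hz => h.nrm_Up hz.2.1) (h.isClosed_Hw W)
    (fun _ => h.Hw_iff) (h.md_cont.mono fun _ hp => h.P_Ω hp.1) (fun a ha u hu => h.md_zu ha.1 hu)
    (h.nrm_Zw W (h.bZ i)) (h.nrm_Up h1) (h.nrm_Hw W h1), h.mdl_Zw W (h.bZ i), zero_add]

theorem uni_Hw {W : Submodule ℝ (Fin r → ℝ)} (hW : W ≤ LinearMap.ker F.ρ) {p : G}
    (hp : p ∈ h.Hw W) : mdl (h.Hw W) p = 0 := (h.mdl_Hw W hp.1).trans (hW hp.2)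

theorem mdl_N {p : G} (hp : p ∈ F.P Finset.univ) : mdl (F.N Finset.univ) p = F.ρ (F.ℓ p) :=
  h.Hw_bot ▸ h.mdl_Hw ⊥ hp

theorem uni_N {p : G} (hp : p ∈ F.N Finset.univ) : mdl (F.N Finset.univ) p = 0 := by
  rw [← h.Hw_bot] at hp ⊢
  exact h.uni_Hw bot_le hp

theorem mdl_B {p : G} (hp : p ∈ F.P Finset.univ) : mdl (F.P Finset.univ) p = F.ρ (F.ℓ p) :=
  h.Hw_top ▸ h.mdl_Hw ⊤ hp

variable [ProperSpace k] (μ : Measure G) [μ.IsHaarMeasure] [μ.IsMulRightInvariant]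

/-- **The Haar measure on the big cell.** -/
theorem haar_cell {η π : Measure G} (hη : Hm F.Um η) (hπ : Hm (F.P Finset.univ) π) :
    ∃ c : ℝ, μ = eo c • Measure.map (fun q : G × G => q.1 * q.2⁻¹) (η.prod π) := by
  obtain ⟨c, hc⟩ := cell_haar μ hη hπ h.isOpen_Ω (fun _ => h.Ω_iff) h.lo_cont
    fun u hu p hp => h.lo_mul hu hp
  exact ⟨c, (h.restrict_Ω μ).symm.trans hc⟩

theorem lint_cell {η π : Measure G} (hη : Hm F.Um η) (hπ : Hm (F.P Finset.univ) π) :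
    ∃ c : ℝ, ∀ f : G → ℝ≥0∞, Measurable f →
      ∫⁻ g, f g ∂μ = eo c * ∫⁻ u, ∫⁻ p, f (u * p⁻¹) ∂π ∂η := by
  haveI := hη.sfin
  haveI := hπ.sfin
  obtain ⟨c, hc⟩ := h.haar_cell μ hη hπ
  refine ⟨c, fun f hf => ?_⟩
  have hm : Measurable fun q : G × G => q.1 * q.2⁻¹ := by fun_prop
  conv_lhs => rw [hc]
  rw [lintegral_smul_measure, lintegral_map hf hm,
    lintegral_prod (fun q : G × G => f (q.1 * q.2⁻¹)) (hf.comp hm).aemeasurable, smul_eq_mul]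

/-- the measure of a box in the big cell -/
theorem box {η π : Measure G} (hη : Hm F.Um η) (hπ : Hm (F.P Finset.univ) π) :
    ∃ c : ℝ, ∀ A B : Set G, MeasurableSet A → MeasurableSet B →
      μ {g | g ∈ F.Ω ∧ F.lo g ∈ A ∧ g⁻¹ * F.lo g ∈ B} = eo c * (η A * π B) := by
  haveI := hη.sfin
  haveI := hπ.sfin
  obtain ⟨c, hc⟩ := h.haar_cell μ hη hπ
  refine ⟨c, fun A B hA hB => ?_⟩
  have hm : Measurable fun q : G × G => q.1 * q.2⁻¹ := by fun_prop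
  have h1 : MeasurableSet {g | g ∈ F.Ω ∧ F.lo g ∈ A ∧ g⁻¹ * F.lo g ∈ B} := by
    classical
    have h2 := h.lo_cont.measurable_piecewise (g := fun _ => 1) continuousOn_const
      h.isOpen_Ω.measurableSet
    have h3 := h.isOpen_Ω.measurableSet.inter ((h2 hA).inter ((measurable_inv.mul h2) hB))
    refine (Set.ext fun g => and_congr_right fun hg => ?_ : _ = _) ▸ h3
    simp only [mem_inter_iff, mem_preimage, Pi.mul_apply, piecewise_eq_of_mem _ _ _ hg]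
  conv_lhs => rw [hc]
  rw [Measure.smul_apply, smul_eq_mul, map_apply hm h1, ← prod_prod]
  refine congrArg _ (measure_congr ?_)
  filter_upwards [(quasiMeasurePreserving_fst.ae hη.ae).and (quasiMeasurePreserving_snd.ae hπ.ae)]
    with q hq
  have h2 := (F.P _).inv_mem hq.2
  refine propext ?_
  show (q.1 * q.2⁻¹ ∈ F.Ω ∧ F.lo (q.1 * q.2⁻¹) ∈ A ∧ (q.1 * q.2⁻¹)⁻¹ * F.lo (q.1 * q.2⁻¹) ∈ B) ↔
    q.1 ∈ A ∧ q.2 ∈ B
  rw [h.lo_mul hq.1 h2, show (q.1 * q.2⁻¹)⁻¹ * q.1 = q.2 by group]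
  exact and_iff_right (h.Ω_iff.2 ⟨_, hq.1, _, h2, rfl⟩)

include μ

theorem mdl_Um {p : G} (hp : p ∈ F.Pm Finset.univ) : mdl F.Um p = -F.ρ (F.ℓ p) := by
  obtain ⟨u, hu, z, hz, rfl⟩ := h.Pm_univ.1 hp
  rw [mdl_mul h.clUm (h.nrm_Um (h.um_mem_Pm hu _)) (h.nrm_Um (h.z_mem_Pm hz _)), h.uni_Um hu,
    h.ℓ_um hu, zero_add, ← h.mdl_B (h.z_mem_P hz _)]
  obtain ⟨η, hη⟩ := exists_hm h.clUm
  obtain ⟨π, hπ⟩ := exists_hm (h.isClosed_P Finset.univ)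
  haveI := hη.sfin
  haveI := hπ.sfin
  obtain ⟨c, hc⟩ := h.haar_cell μ hη hπ
  have hm : Measurable fun q : G × G => q.1 * q.2⁻¹ := by fun_prop
  have hz' : Measurable fun u : G => z⁻¹ * u * z := by fun_prop
  have h1 : Measure.map (fun u : G => z⁻¹ * u * z) μ =
      eo (mdl F.Um z + mdl (F.P Finset.univ) z) • μ := by
    conv_rhs => rw [hc]
    rw [smul_comm, eo_add, ← Measure.map_smul, mul_smul, ← prod_smul_right, ← prod_smul_left,
      ← hη.mdl_spec (h.nrm_Um (h.z_mem_Pm hz _)),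
      ← hπ.mdl_spec ((F.P _).le_normalizer (h.z_mem_P hz _)), map_prod_map _ _ hz' hz',
      map_map hm (hz'.prodMap hz')]
    conv_lhs => rw [hc, Measure.map_smul, map_map hz' hm]
    congr 2
    funext u
    show z⁻¹ * (u.1 * u.2⁻¹) * z = z⁻¹ * u.1 * z * (z⁻¹ * u.2 * z)⁻¹
    group
  have h2 : Measure.map (fun u : G => z⁻¹ * u * z) μ = eo 0 • μ := by
    rw [eo_zero, one_smul]
    exact ((measurePreserving_mul_right μ z).comp (measurePreserving_mul_left μ z⁻¹)).map_eq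
  have := eo_inj ((hm_top μ).cancel (h1.symm.trans h2))
  linarith

/-- `ρ` is invariant under the opposition involution -/
theorem ρ_ι (x : Fin r → ℝ) : F.ρ (x ∘ F.ι) = F.ρ x := by
  obtain ⟨η, hη⟩ := exists_hm h.clUm
  have h1 := hη.conj F.n₀ h.n₀up
  refine congrFun (congrArg DFunLike.coe (lin_ext (l := F.ρ.comp (LinearMap.funLeft ℝ ℝ F.ι))
    h.β_pos.ne' fun i => ?_)) x
  have h2 := h.bZ i
  have h3 := (h.n₀Z _).1 h2
  have h4 : F.ℓ (F.n₀ * F.b i * F.n₀⁻¹) = -(LinearMap.funLeft ℝ ℝ F.ι (F.ℓ (F.b i))) := funext fun j => by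
    have := h.n₀ℓ _ h2 (F.ι j)
    rwa [h.ι_ι] at this
  have h5 := h.mdl_Um μ (h.z_mem_Pm h3 _)
  rw [h4, map_neg, neg_neg] at h5
  rw [← h.bℓ, LinearMap.comp_apply, ← h5, ← h.mdl_Up (h.z_mem_P h2 _)]
  refine (h1.mdl_eq (h.nrm_Up (h.z_mem_P h2 _)) ?_).symm
  rw [← Measure.map_smul, ← hη.mdl_spec (h.nrm_Um (h.z_mem_Pm h3 _)),
    map_map (by fun_prop) (by fun_prop), map_map (by fun_prop) (by fun_prop)]
  congr 1
  funext u
  simp only [Function.comp]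
  group

theorem um_conj {η : Measure G} (hη : Hm F.Um η) {z : G} (hz : z ∈ F.Z) (S : Set G) :
    η {u | z⁻¹ * u * z ∈ S} = eo (-F.ρ (F.ℓ z)) * η S := by
  rw [hη.conj_apply (h.nrm_Um (h.z_mem_Pm hz _)), h.mdl_Um μ (h.z_mem_Pm hz _)]

theorem ρ_b_pos (j : Fin r) : 0 < F.ρ (F.ℓ (F.b j)) := by
  obtain ⟨η, hη⟩ := exists_hm h.clUm
  obtain ⟨u, hu, h1⟩ := h.exists_um_moved j
  obtain ⟨D, hD, h2, h3⟩ := local_compact_nhds ((h.isClosed_L {j}).isOpen_compl.mem_nhds h1)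
  obtain ⟨L, hL, -, h4⟩ := h.um_bdd h3
  have h5 : η D ≠ 0 := fun e => hη.pos _ isOpen_interior
    ⟨u, mem_interior_iff_mem_nhds.2 hD, hu⟩ (measure_mono_null interior_subset e)
  have h6 := tendsto_measure_of_tendsto_indicator (μ := η) (L := atTop) (A := ∅)
    (As := fun n : ℕ => {w | (F.b j ^ n)⁻¹ * w * F.b j ^ n ∈ D} ∩ F.Um) (fun n =>
      ((h3.isClosed.preimage (by fun_prop)).inter h.clUm).measurableSet) hL.measurableSet
    (hη.fin L hL).ne (Eventually.of_forall fun n w hw => by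
      have h7 := F.Z.pow_mem (h.bZ j) n
      have := h4 _ (h.dom_pow (h.b_dom j) n) _ hw.1 (by
        have := h.zum _ (F.Z.inv_mem h7) w hw.2
        rwa [inv_inv] at this)
      rwa [show F.b j ^ n * ((F.b j ^ n)⁻¹ * w * F.b j ^ n) * (F.b j ^ n)⁻¹ = w by group] at this)
    fun w => by
      by_cases hw : w ∈ F.Um
      · by_cases hl : w ∈ F.L {j}
        · refine Eventually.of_forall fun n => iff_of_false (fun e => h2 e.1 ?_) id
          exact (F.L _).mul_mem ((F.L _).mul_mem ((F.L _).inv_mem (h.z_mem_L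
            (F.Z.pow_mem (h.bZ j) n) _)) hl) (h.z_mem_L (F.Z.pow_mem (h.bZ j) n) _)
        · filter_upwards [h.esc hw hl h3] with n hn using iff_of_false (fun e => hn e.1) id
      · exact Eventually.of_forall fun n => iff_of_false (fun e => hw e.2) id
  rw [measure_empty] at h6
  by_contra h7
  refine h5 (le_antisymm (ge_of_tendsto' h6 fun n => ?_) bot_le)
  rw [hη.inter, h.um_conj μ hη (F.Z.pow_mem (h.bZ j) n), h.ℓ_pow (h.bZ j), map_smul, smul_eq_mul]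
  refine le_mul_of_one_le_left' (eo_zero ▸ eo_le.2 ?_)
  nlinarith [Nat.cast_nonneg (α := ℝ) n]

theorem ρ_single_pos (j : Fin r) : 0 < F.ρ (Pi.single j 1) := by
  have h1 := h.ρ_b_pos μ j
  rw [h.bℓ, ← mul_one F.β, ← smul_eq_mul, Pi.single_smul', map_smul, smul_eq_mul] at h1
  exact (mul_pos_iff_of_pos_left h.β_pos).1 h1

theorem ρ_mono {x y : Fin r → ℝ} (e : x ≤ y) : F.ρ x ≤ F.ρ y := by
  rw [F.ρ.pi_apply_eq_sum_univ x, F.ρ.pi_apply_eq_sum_univ y]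
  refine Finset.sum_le_sum fun i _ => mul_le_mul_of_nonneg_right (e i) ?_
  have := (h.ρ_single_pos μ i).le
  rwa [show (Pi.single i 1 : Fin r → ℝ) = fun j => if i = j then 1 else 0 from
    funext fun j => by rw [Pi.single_apply]; simp only [eq_comm]] at this

/-- a dominant vector is controlled by `ρ` -/
theorem le_ρ : ∃ C : ℝ, 1 ≤ C ∧ ∀ x : Fin r → ℝ, 0 ≤ x → ∀ i, x i ≤ C * F.ρ x := by
  obtain ⟨c, hc, h1, h2⟩ := cpt_low (isCompact_singleton (x := ()))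
    (fun i _ => F.ρ (Pi.single i 1)) (fun _ => continuousOn_const) fun i _ _ => h.ρ_single_pos μ i
  refine ⟨c⁻¹, one_le_inv_iff₀.2 ⟨hc, h1⟩, fun x hx i => ?_⟩
  have h3 := h.ρ_mono μ (x := x i • (Pi.single i 1 : Fin r → ℝ)) (y := x) fun j => by
    rw [← Pi.single_smul', smul_eq_mul, mul_one]
    by_cases e : j = i
    · rw [e, Pi.single_eq_same]
    · rw [Pi.single_eq_of_ne e]; exact hx j
  rw [map_smul, smul_eq_mul] at h3
  rw [le_inv_mul_iff₀ hc]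
  exact le_trans (mul_comm c _ ▸ mul_le_mul_of_nonneg_left (h2 i () rfl) (hx i)) h3

end Fl

end Vale.Agent.P092GK
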