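import Vale.Agent.P092GK.Kak

/-!
P092, group package (helper83): the length `len`, the Cartan gauge `κ`, the rank one approximation
and the second differences of the sizes.
-/

set_option linter.all false

open Matrix Filter Topology

namespace Vale.Agent.P092GK

open FlD

variable {k : Type} [NontriviallyNormedField k] {G : Type} [Group G] {r : ℕ} {F : FlD k G r}

/-- a symmetric subadditive proper length function -/
noncomputable def FlD.len (F : FlD k G r) (g : G) : ℝ := ‖fun j => max (F.lam g j) (F.lam g⁻¹ j)‖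

theorem FlD.len_nonneg (g : G) : 0 ≤ F.len g := norm_nonneg _

theorem FlD.len_inv (g : G) : F.len g⁻¹ = F.len g := by
  simp only [FlD.len, inv_inv, max_comm]

theorem FlD.lam_le_len (g : G) (j : Fin r) : F.lam g j ≤ F.len g :=
  (le_max_left _ _).trans ((le_abs_self _).trans
    (norm_le_pi_norm (fun j => max (F.lam g j) (F.lam g⁻¹ j)) j))

theorem abs_log_sub {A B δ : ℝ} (hA : 0 < A) (hδ : δ ≤ 1 / 2) (h : |B - A| ≤ δ * A) :
    |Real.log B - Real.log A| ≤ 2 * δ := by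
  obtain ⟨h1, h2⟩ := abs_le.1 h
  have hδ0 : 0 ≤ δ := by
    by_contra hn
    nlinarith [abs_nonneg (B - A), not_le.1 hn]
  have hB : 0 < B := by nlinarith
  rw [abs_le]
  constructor
  · have h3 := Real.log_le_sub_one_of_pos (div_pos hA hB)
    rw [Real.log_div hA.ne' hB.ne'] at h3
    have h4 : A / B ≤ 1 + 2 * δ := by rw [div_le_iff₀ hB]; nlinarith [mul_nonneg hδ0 hA.le]
    linarith
  · have h3 := Real.log_le_sub_one_of_pos (div_pos hB hA)
    rw [Real.log_div hB.ne' hA.ne'] at h3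
    have h4 : B / A ≤ 1 + δ := by rw [div_le_iff₀ hA]; nlinarith
    linarith

variable [TopologicalSpace G]

namespace Fl

variable (h : Fl F)
include h

theorem exp_lam (g : G) (j : Fin r) : Real.exp (F.lam g j) = ‖F.V j g‖ :=
  Real.exp_log (norm_pos_iff.2 (h.V_ne j g))

theorem exp_ht (g : G) (j : Fin r) : Real.exp (F.ht g j) = ‖F.V j g (F.v j)‖ :=
  Real.exp_log (norm_pos_iff.2 (h.Vv_ne j g))

theorem exp_ht' (g : G) (j : Fin r) : Real.exp (F.ht' g j) = ‖(F.φ j).comp (F.V j g)‖ :=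
  Real.exp_log (norm_pos_iff.2 (h.φV_ne j g))

theorem norm_V_le (g : G) (j : Fin r) : ‖F.V j g‖ ≤ Real.exp (F.len g) := by
  rw [← h.exp_lam]; exact Real.exp_le_exp.2 (lam_le_len g j)

theorem lam_mul (g g' : G) (j : Fin r) : F.lam (g * g') j ≤ F.lam g j + F.lam g' j := by
  rw [← Real.exp_le_exp, Real.exp_add, h.exp_lam, h.exp_lam, h.exp_lam, map_mul]
  exact norm_mul_le _ _

theorem lam_one (j : Fin r) : F.lam 1 j = 0 := by
  haveI : Nontrivial (F.E j) := ⟨⟨_, _, h.v_ne j⟩⟩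
  rw [FlD.lam, map_one, norm_one, Real.log_one]

theorem lam_add_inv (g : G) (j : Fin r) : 0 ≤ F.lam g j + F.lam g⁻¹ j := by
  have := h.lam_mul g g⁻¹ j
  rwa [mul_inv_cancel, h.lam_one] at this

theorem abs_lam_le (g : G) (j : Fin r) : |F.lam g j| ≤ F.len g :=
  abs_le.2 ⟨by linarith [h.lam_add_inv g j, lam_le_len (F := F) g⁻¹ j, len_inv (F := F) g],
    lam_le_len g j⟩

theorem len_le {g : G} {R : ℝ} (hR : 0 ≤ R) (h1 : ∀ j, F.lam g j ≤ R) (h2 : ∀ j, F.lam g⁻¹ j ≤ R) :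
    F.len g ≤ R := by
  refine (pi_norm_le_iff_of_nonneg hR).2 fun j => ?_
  rw [Real.norm_eq_abs, abs_le]
  exact ⟨by linarith [h.lam_add_inv g j, le_max_left (F.lam g j) (F.lam g⁻¹ j),
    le_max_right (F.lam g j) (F.lam g⁻¹ j)], max_le (h1 j) (h2 j)⟩

theorem len_one : F.len 1 = 0 :=
  le_antisymm (h.len_le le_rfl (fun j => (h.lam_one j).le) fun j => by rw [inv_one, h.lam_one])
    (len_nonneg _)

theorem len_mul (g g' : G) : F.len (g * g') ≤ F.len g + F.len g' :=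
  h.len_le (add_nonneg (len_nonneg _) (len_nonneg _))
    (fun j => (h.lam_mul g g' j).trans (add_le_add (lam_le_len _ _) (lam_le_len _ _))) fun j => by
      rw [_root_.mul_inv_rev]
      have := h.lam_mul g'⁻¹ g⁻¹ j
      linarith [lam_le_len (F := F) g⁻¹ j, lam_le_len (F := F) g'⁻¹ j, len_inv (F := F) g,
        len_inv (F := F) g']

theorem len_pow (g : G) (n : ℕ) : F.len (g ^ n) ≤ n * F.len g := by
  induction n with
  | zero => simp [h.len_one]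
  | succ n ih => rw [pow_succ]; push_cast; linarith [h.len_mul (g ^ n) g]

theorem lam_lip (s g t : G) (j : Fin r) : |F.lam (s * g * t) j - F.lam g j| ≤ F.len s + F.len t := by
  have h1 := h.lam_mul (s * g) t j
  have h2 := h.lam_mul s g j
  have h3 := h.lam_mul (s⁻¹ * (s * g * t)) t⁻¹ j
  have h4 := h.lam_mul s⁻¹ (s * g * t) j
  rw [show s⁻¹ * (s * g * t) * t⁻¹ = g by group] at h3
  rw [abs_le]
  constructor <;> linarith [lam_le_len (F := F) s j, lam_le_len (F := F) t j,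
    lam_le_len (F := F) s⁻¹ j, lam_le_len (F := F) t⁻¹ j, len_inv (F := F) s, len_inv (F := F) t]

theorem ht_lip (s g : G) (j : Fin r) : |F.ht (s * g) j - F.ht g j| ≤ F.len s := by
  have h1 : ∀ s g : G, F.ht (s * g) j ≤ F.len s + F.ht g j := fun s g => by
    rw [← Real.exp_le_exp, Real.exp_add, h.exp_ht, h.exp_ht, V_mul]
    exact ((F.V j s).le_opNorm _).trans (mul_le_mul_of_nonneg_right (h.norm_V_le s j) (norm_nonneg _))
  have h2 := h1 s⁻¹ (s * g)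
  rw [inv_mul_cancel_left, len_inv] at h2
  rw [abs_le]
  constructor <;> linarith [h1 s g]

theorem ht'_lip (g t : G) (j : Fin r) : |F.ht' (g * t) j - F.ht' g j| ≤ F.len t := by
  have h1 : ∀ g t : G, F.ht' (g * t) j ≤ F.ht' g j + F.len t := fun g t => by
    rw [← Real.exp_le_exp, Real.exp_add, h.exp_ht', h.exp_ht', map_mul]
    exact (((F.φ j).comp (F.V j g)).opNorm_comp_le (F.V j t)).trans
      (mul_le_mul_of_nonneg_left (h.norm_V_le t j) (norm_nonneg _))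
  have h2 := h1 (g * t) t⁻¹
  rw [mul_inv_cancel_right, len_inv] at h2
  rw [abs_le]
  constructor <;> linarith [h1 g t]

theorem ht_up {u : G} (hu : u ∈ F.Up) (g : G) : F.ht (g * u) = F.ht g := by
  funext j; rw [FlD.ht, V_mul, h.upv u hu]; rfl

theorem ht_z {z : G} (hz : z ∈ F.Z) (g : G) : F.ht (g * z) = F.ht g + F.ω (F.ℓ z) := by
  funext j
  rw [FlD.ht, V_mul, h.zv z hz, map_smul, norm_smul, Real.log_mul
    (norm_ne_zero_iff.2 (h.Δ_ne hz j)) (norm_ne_zero_iff.2 (h.Vv_ne j g)), Pi.add_apply, h.ω_ℓ,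
    add_comm]
  rfl

theorem ht'_um {u : G} (hu : u ∈ F.Um) (g : G) : F.ht' (u * g) = F.ht' g := by
  funext j
  rw [FlD.ht', FlD.ht']
  congr 2
  ext x
  rw [ContinuousLinearMap.comp_apply, V_mul, h.umφ u hu]; rfl

theorem ht'_z {z : G} (hz : z ∈ F.Z) (g : G) : F.ht' (z * g) = F.ω (F.ℓ z) + F.ht' g := by
  funext j
  have h1 : (F.φ j).comp (F.V j (z * g)) = F.Δ j z • (F.φ j).comp (F.V j g) := by
    ext y
    rw [ContinuousLinearMap.comp_apply, V_mul, h.zφ z hz]; rfl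
  rw [FlD.ht', h1, norm_smul, Real.log_mul
    (norm_ne_zero_iff.2 (h.Δ_ne hz j)) (norm_ne_zero_iff.2 (h.φV_ne j g)), Pi.add_apply, h.ω_ℓ]
  rfl

theorem cont_lam : Continuous F.lam :=
  continuous_pi fun j => (h.contV j).norm.log fun g => norm_ne_zero_iff.2 (h.V_ne j g)

theorem cont_ht : Continuous F.ht :=
  continuous_pi fun j => (h.contVv j).norm.log fun g => norm_ne_zero_iff.2 (h.Vv_ne j g)

theorem cont_ht' : Continuous F.ht' :=
  continuous_pi fun j => (h.contφV j).norm.log fun g => norm_ne_zero_iff.2 (h.φV_ne j g)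

theorem cont_κ : Continuous F.κ := cont_co.comp h.cont_lam

theorem ω_κ (g : G) : F.ω (F.κ g) = F.lam g := h.ω_co _

theorem κ_lip : ∃ C : ℝ, 1 ≤ C ∧ ∀ s g t, ‖F.κ (s * g * t) - F.κ g‖ ≤ C * (F.len s + F.len t) := by
  obtain ⟨C, hC, hC'⟩ := F.co_bound
  refine ⟨C, hC, fun s g t => ?_⟩
  rw [FlD.κ, FlD.κ, ← co_sub]
  refine (hC' _).trans (mul_le_mul_of_nonneg_left ?_ (by linarith))
  exact (pi_norm_le_iff_of_nonneg (add_nonneg (len_nonneg _) (len_nonneg _))).2 fun j =>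
    h.lam_lip s g t j

theorem κ_le_len : ∃ C : ℝ, 1 ≤ C ∧ ∀ g, ‖F.κ g‖ ≤ C * F.len g := by
  obtain ⟨C, hC, hC'⟩ := F.co_bound
  refine ⟨C, hC, fun g => (hC' _).trans (mul_le_mul_of_nonneg_left ?_ (by linarith))⟩
  exact (pi_norm_le_iff_of_nonneg (len_nonneg _)).2 fun j => h.abs_lam_le g j

/-- the rank one approximation -/
theorem rank_one : ∃ C : ℝ, 1 ≤ C ∧ ∀ z, F.Dom z → ∀ x y j,
    ‖F.V j (x * z * y) - F.Δ j z • ((F.φ j).comp (F.V j y)).smulRight (F.V j x (F.v j))‖ ≤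
      C * (‖F.Δ j z‖ * Real.exp (-F.ℓ z j + (F.len x + F.len y))) := by
  obtain ⟨C, hC1, hC⟩ := h.con'
  refine ⟨C, hC1, fun z hz x y j => ?_⟩
  have h1 : F.V j (x * z * y) - F.Δ j z • ((F.φ j).comp (F.V j y)).smulRight (F.V j x (F.v j)) =
      F.V j x * (F.V j z - F.Δ j z • F.pr j) * F.V j y := by
    ext w
    simp only [ContinuousLinearMap.sub_apply, ContinuousLinearMap.smul_apply, V_mul,
      ContinuousLinearMap.smulRight_apply, ContinuousLinearMap.comp_apply,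
      ContinuousLinearMap.mul_apply, map_sub, map_smul, pr_apply]
  rw [h1]
  calc _ ≤ ‖F.V j x‖ * ‖F.V j z - F.Δ j z • F.pr j‖ * ‖F.V j y‖ := norm_mul₃_le
    _ ≤ Real.exp (F.len x) * (C * (‖F.Δ j z‖ * Real.exp (-F.ℓ z j))) * Real.exp (F.len y) := by
      gcongr
      · exact h.norm_V_le x j
      · exact hC z hz j
      · exact h.norm_V_le y j
    _ = _ := by rw [Real.exp_add, Real.exp_add]; ring

theorem ht_bound : ∃ C : ℝ, 1 ≤ C ∧ ∀ g j, |F.ht g j| ≤ C + F.len g ∧ |F.ht' g j| ≤ C + F.len g := by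
  obtain ⟨C, hC, hC'⟩ := cpt_up (isCompact_singleton (x := ())) (fun j _ => |F.ht 1 j| + |F.ht' 1 j|)
    fun _ => continuousOn_const
  refine ⟨C, hC, fun g j => ?_⟩
  have h1 := h.ht_lip g 1 j
  have h2 := h.ht'_lip 1 g j
  rw [mul_one] at h1
  rw [one_mul] at h2
  have h3 := hC' j () rfl
  have h4 := abs_sub_abs_le_abs_sub (F.ht g j) (F.ht 1 j)
  have h5 := abs_sub_abs_le_abs_sub (F.ht' g j) (F.ht' 1 j)
  constructor <;> linarith [abs_nonneg (F.ht 1 j), abs_nonneg (F.ht' 1 j)]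

/-- the size of a dominant element -/
theorem lam_dom : ∃ C : ℝ, 1 ≤ C ∧ ∀ z, F.Dom z → ∀ j, |F.lam z j - F.ω (F.ℓ z) j| ≤ C := by
  obtain ⟨C, hC1, hC⟩ := h.con'
  obtain ⟨D, hD, hD'⟩ := cpt_up (isCompact_singleton (x := ()))
    (fun j _ => |Real.log (C + ‖F.pr j‖)| + |Real.log (‖F.φ j‖ * ‖F.v j‖)|)
    fun _ => continuousOn_const
  refine ⟨D, hD, fun z hz j => ?_⟩
  have h1 : ‖F.V j z‖ ≤ (C + ‖F.pr j‖) * ‖F.Δ j z‖ := by
    have h2 := hC z hz j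
    have h3 := norm_sub_norm_le (F.V j z) (F.Δ j z • F.pr j)
    rw [norm_smul] at h3
    have h4 : Real.exp (-F.ℓ z j) ≤ 1 := Real.exp_le_one_iff.2 (neg_nonpos.2 (hz.2 j))
    have h5 : C * (‖F.Δ j z‖ * Real.exp (-F.ℓ z j)) ≤ C * (‖F.Δ j z‖ * 1) := by gcongr
    linarith
  have h2 : ‖F.Δ j z‖ ≤ (‖F.φ j‖ * ‖F.v j‖) * ‖F.V j z‖ :=
    ((F.φ j).le_opNorm _).trans ((mul_le_mul_of_nonneg_left ((F.V j z).le_opNorm _)
      (norm_nonneg _)).trans (le_of_eq (by ring)))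
  have hΔ := norm_pos_iff.2 (h.Δ_ne hz.1 j)
  have hV := norm_pos_iff.2 (h.V_ne j z)
  have h3 : 0 < ‖F.φ j‖ * ‖F.v j‖ := pos_of_mul_pos_left (hΔ.trans_le h2) hV.le
  have h4 : 0 < C + ‖F.pr j‖ := by positivity
  have h5 := Real.log_le_log hV h1
  have h6 := Real.log_le_log hΔ h2
  rw [Real.log_mul h4.ne' hΔ.ne'] at h5
  rw [Real.log_mul h3.ne' hV.ne'] at h6
  have h7 := hD' j () rfl
  rw [h.ω_ℓ, FlD.lam, abs_le]
  constructor <;> linarith [le_abs_self (Real.log (C + ‖F.pr j‖)),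
    le_abs_self (Real.log (‖F.φ j‖ * ‖F.v j‖)), abs_nonneg (Real.log (C + ‖F.pr j‖)),
    abs_nonneg (Real.log (‖F.φ j‖ * ‖F.v j‖))]

/-- the exact size of `x z y` deep in the chamber -/
theorem lam_approx : ∃ C : ℝ, 1 ≤ C ∧ ∀ z, F.Dom z → ∀ x y j,
    |F.lam (x * z * y) j - (F.ω (F.ℓ z) j + F.ht x j + F.ht' y j)| ≤
      C * Real.exp (-F.ℓ z j + 3 * (F.len x + F.len y)) := by
  obtain ⟨C, hC1, hC⟩ := h.rank_one
  obtain ⟨D, hD1, hD⟩ := h.ht_bound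
  obtain ⟨B, hB1, hB⟩ := h.lam_dom
  let A := C * Real.exp (2 * D)
  have hA : 1 ≤ A := one_le_mul_of_one_le_of_one_le hC1 (Real.one_le_exp (by linarith))
  refine ⟨2 * A * (B + 2 * D + 2), by nlinarith, fun z hz x y j => ?_⟩
  set L := F.len x + F.len y with hL
  have hL0 : 0 ≤ L := add_nonneg (len_nonneg _) (len_nonneg _)
  have he : Real.exp (-F.ℓ z j + 3 * L) = Real.exp (-F.ℓ z j + 2 * L) * Real.exp L := by
    rw [← Real.exp_add]; congr 1; ring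
  have hE := Real.add_one_le_exp L
  have hp := Real.exp_pos (-F.ℓ z j + 2 * L)
  by_cases hs : A * Real.exp (-F.ℓ z j + 2 * L) ≤ 1 / 2
  · have h1 : ‖F.Δ j z • ((F.φ j).comp (F.V j y)).smulRight (F.V j x (F.v j))‖ =
        Real.exp (F.ω (F.ℓ z) j + F.ht x j + F.ht' y j) := by
      rw [norm_smul, ContinuousLinearMap.norm_smulRight_apply, Real.exp_add, Real.exp_add, h.exp_ht,
        h.exp_ht', h.norm_Δ (h.z_mem hz.1)]
      ring
    have h2 := (abs_norm_sub_norm_le _ _).trans (hC z hz x y j)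
    rw [h1, h.norm_Δ (h.z_mem hz.1)] at h2
    have h3 : C * (Real.exp (F.ω (F.ℓ z) j) * Real.exp (-F.ℓ z j + L)) ≤
        A * Real.exp (-F.ℓ z j + 2 * L) * Real.exp (F.ω (F.ℓ z) j + F.ht x j + F.ht' y j) := by
      simp only [A, mul_assoc, ← Real.exp_add]
      refine mul_le_mul_of_nonneg_left (Real.exp_le_exp.2 ?_) (by linarith)
      linarith [(abs_le.1 (hD x j).1).1, (abs_le.1 (hD y j).2).1]
    have h4 := abs_log_sub (Real.exp_pos _) hs (h2.trans h3)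
    rw [Real.log_exp] at h4
    refine h4.trans ?_
    rw [he]
    have h5 : 1 ≤ (B + 2 * D + 2) * Real.exp L := by nlinarith
    nlinarith [mul_pos (zero_lt_one.trans_le hA) hp]
  · have h1 := h.lam_lip x z y j
    have h2 := hB z hz j
    have h3 : |F.lam (x * z * y) j - (F.ω (F.ℓ z) j + F.ht x j + F.ht' y j)| ≤ B + 2 * D + 2 * L := by
      obtain ⟨a1, a2⟩ := abs_le.1 h1
      obtain ⟨a3, a4⟩ := abs_le.1 h2
      obtain ⟨a5, a6⟩ := abs_le.1 (hD x j).1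
      obtain ⟨a7, a8⟩ := abs_le.1 (hD y j).2
      rw [abs_le]
      constructor <;> linarith
    refine h3.trans ?_
    rw [he]
    have h5 : B + 2 * D + 2 * L ≤ (B + 2 * D + 2) * Real.exp L := by nlinarith
    have h6 : 0 ≤ (B + 2 * D + 2) * Real.exp L := by positivity
    nlinarith [not_le.1 hs]

theorem κ_dom : ∃ C : ℝ, 1 ≤ C ∧ ∀ z, F.Dom z → ∀ x y,
    ‖F.κ (x * z * y) - F.ℓ z‖ ≤ C * (1 + F.len x + F.len y) := by
  obtain ⟨C, hC, hC'⟩ := F.co_bound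
  obtain ⟨B, hB1, hB⟩ := h.lam_dom
  refine ⟨C * B, by nlinarith, fun z hz x y => ?_⟩
  have h0 := len_nonneg (F := F) x
  have h0' := len_nonneg (F := F) y
  rw [← h.co_ω (F.ℓ z), FlD.κ, ← co_sub, mul_assoc C B]
  refine (hC' _).trans (mul_le_mul_of_nonneg_left ?_ (by linarith))
  refine (pi_norm_le_iff_of_nonneg (by positivity)).2 fun j => ?_
  obtain ⟨a1, a2⟩ := abs_le.1 (h.lam_lip x z y j)
  obtain ⟨a3, a4⟩ := abs_le.1 (hB z hz j)
  rw [Real.norm_eq_abs, Pi.sub_apply, abs_le]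
  constructor <;> nlinarith

theorem n₀_dom {z : G} (hz : F.Dom z) : F.Dom (F.n₀ * z⁻¹ * F.n₀⁻¹) :=
  ⟨(h.n₀Z _).1 (F.Z.inv_mem hz.1), fun i => by
    rw [← F.ι.apply_symm_apply i, h.n₀ℓ _ (F.Z.inv_mem hz.1), h.ℓ_inv hz.1, Pi.neg_apply, neg_neg]
    exact hz.2 _⟩

theorem ℓ_n₀ {z : G} (hz : z ∈ F.Z) (i : Fin r) : F.ℓ (F.n₀ * z⁻¹ * F.n₀⁻¹) (F.ι i) = F.ℓ z i := by
  rw [h.n₀ℓ _ (F.Z.inv_mem hz), h.ℓ_inv hz, Pi.neg_apply, neg_neg]

variable [IsTopologicalGroup G]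

theorem cont_len : Continuous F.len :=
  (continuous_pi fun j => ((continuous_apply j).comp h.cont_lam).max
    ((continuous_apply j).comp (h.cont_lam.comp continuous_inv))).norm

theorem len_cpt {K : Set G} (hK : IsCompact K) : ∃ R : ℝ, 1 ≤ R ∧ ∀ x ∈ K, F.len x ≤ R := by
  obtain ⟨R, hR, hR'⟩ := cpt_up hK (fun _ : Unit => F.len) fun _ => h.cont_len.continuousOn
  exact ⟨R, hR, hR' ()⟩

/-- the gauge of `x z y` for `x`, `y` in a compact set -/
theorem κ_cpt {K : Set G} (hK : IsCompact K) : ∃ C : ℝ, 1 ≤ C ∧ ∀ z, F.Dom z → ∀ x ∈ K, ∀ y ∈ K,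
    ∀ i, |F.κ (x * z * y) i - F.ℓ z i| ≤ C := by
  obtain ⟨C, hC, hC'⟩ := h.κ_dom
  obtain ⟨R, hR, hR'⟩ := h.len_cpt hK
  refine ⟨C * (1 + R + R), by nlinarith, fun z hz x hx y hy i => ?_⟩
  refine le_trans (norm_le_pi_norm (F.κ (x * z * y) - F.ℓ z) i) ((hC' z hz x y).trans ?_)
  gcongr
  · exact hR' x hx
  · exact hR' y hy

variable [T2Space G] [ProperSpace k]

theorem κ_low : ∃ C : ℝ, 1 ≤ C ∧ ∀ g i, -C ≤ F.κ g i := by
  obtain ⟨K, hK, hg⟩ := h.kak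
  obtain ⟨C, hC, hC'⟩ := h.κ_cpt hK
  refine ⟨C, hC, fun g i => ?_⟩
  obtain ⟨x, hx, t, ht, y, hy, rfl⟩ := hg g
  linarith [(abs_le.1 (hC' _ (h.a_dom ht) x hx y hy i)).1, (h.a_dom ht).2 i]

theorem κ_inv : ∃ C : ℝ, 1 ≤ C ∧ ∀ g i, |F.κ g⁻¹ (F.ι i) - F.κ g i| ≤ C := by
  obtain ⟨K, hK, hg⟩ := h.kak
  have hK' : IsCompact (K ∪ (fun y => y⁻¹ * F.n₀⁻¹) '' K ∪ (fun x => F.n₀ * x⁻¹) '' K) :=
    (hK.union (hK.image (by fun_prop))).union (hK.image (by fun_prop))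
  obtain ⟨C, hC, hC'⟩ := h.κ_cpt hK'
  refine ⟨2 * C, by linarith, fun g i => ?_⟩
  obtain ⟨x, hx, t, ht, y, hy, rfl⟩ := hg g
  have h1 := hC' _ (h.a_dom ht) x (Or.inl (Or.inl hx)) y (Or.inl (Or.inl hy)) i
  have h2 := hC' _ (h.n₀_dom (h.a_dom ht)) _ (Or.inl (Or.inr ⟨y, hy, rfl⟩)) _ (Or.inr ⟨x, hx, rfl⟩)
    (F.ι i)
  rw [h.ℓ_n₀ (h.a_mem t), show y⁻¹ * F.n₀⁻¹ * (F.n₀ * (F.a t)⁻¹ * F.n₀⁻¹) * (F.n₀ * x⁻¹) =
    (x * F.a t * y)⁻¹ by group] at h2
  obtain ⟨a1, a2⟩ := abs_le.1 h1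
  obtain ⟨a3, a4⟩ := abs_le.1 h2
  rw [abs_le]
  constructor <;> linarith

theorem len_le_κ : ∃ C : ℝ, 1 ≤ C ∧ ∀ g, F.len g ≤ C * (1 + ‖F.κ g‖) := by
  obtain ⟨C, hC, hC'⟩ := F.ω_bound
  obtain ⟨D, hD, hD'⟩ := h.κ_inv
  refine ⟨C * D, by nlinarith, fun g => ?_⟩
  have h0 := norm_nonneg (F.κ g)
  have h1 : ∀ g j, F.lam g j ≤ C * ‖F.κ g‖ := fun g j => by
    rw [← h.ω_κ]
    exact (le_abs_self _).trans ((norm_le_pi_norm (F.ω (F.κ g)) j).trans (hC' _))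
  have h2 : ‖F.κ g⁻¹‖ ≤ D + ‖F.κ g‖ := by
    refine (pi_norm_le_iff_of_nonneg (by linarith)).2 fun i => ?_
    have h3 := hD' g (F.ι.symm i)
    rw [F.ι.apply_symm_apply] at h3
    have h4 : |F.κ g (F.ι.symm i)| ≤ ‖F.κ g‖ := norm_le_pi_norm (F.κ g) _
    rw [Real.norm_eq_abs]
    linarith [abs_sub_abs_le_abs_sub (F.κ g⁻¹ i) (F.κ g (F.ι.symm i))]
  have h3 : C * (D + ‖F.κ g‖) ≤ C * D * (1 + ‖F.κ g‖) := by
    rw [mul_assoc]
    exact mul_le_mul_of_nonneg_left (by nlinarith) (by linarith)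
  refine h.len_le (by positivity) (fun j => (h1 g j).trans (le_trans ?_ h3)) fun j =>
    (h1 _ j).trans (le_trans ?_ h3) <;> gcongr
  linarith

/-- the gauge is proper -/
theorem cpt_κ (R : ℝ) : IsCompact {g | ‖F.κ g‖ ≤ R} := by
  obtain ⟨K, hK, hg⟩ := h.kak
  obtain ⟨C, hC, hC'⟩ := h.κ_cpt hK
  refine ((hK.prod ((h.zprop (C + R)).prod hK)).image
    (f := fun q : G × G × G => q.1 * q.2.1 * q.2.2) (by fun_prop)).of_isClosed_subset
    (isClosed_le h.cont_κ.norm continuous_const) fun g hR => ?_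
  obtain ⟨x, hx, t, ht, y, hy, rfl⟩ := hg g
  refine ⟨(x, F.a t, y), ⟨hx, ⟨h.a_mem t, fun i => ?_⟩, hy⟩, rfl⟩
  have h1 := hC' _ (h.a_dom ht) x hx y hy i
  have h2 : |F.κ (x * F.a t * y) i| ≤ R := (norm_le_pi_norm (F.κ (x * F.a t * y)) i).trans hR
  rw [abs_sub_comm] at h1
  linarith [abs_sub_abs_le_abs_sub (F.ℓ (F.a t) i) (F.κ (x * F.a t * y) i)]

theorem cpt_len (R : ℝ) : IsCompact {g | F.len g ≤ R} := by
  obtain ⟨C, hC, hC'⟩ := h.κ_le_len
  exact (h.cpt_κ (C * R)).of_isClosed_subset (isClosed_le h.cont_len continuous_const)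
    fun g hg => (hC' g).trans (mul_le_mul_of_nonneg_left hg (by linarith))

theorem cpt_lam (j : Fin r) (R : ℝ) : IsCompact {g | F.lam g j ≤ R} := by
  obtain ⟨C, hC, hC'⟩ := h.κ_low
  obtain ⟨D, hD, hD'⟩ := h.le_ω
  refine (h.cpt_κ (C + D * |R + F.ω (fun _ => C) j|)).of_isClosed_subset
    (isClosed_le ((continuous_apply j).comp h.cont_lam) continuous_const) fun g hg => ?_
  have h0 : 0 ≤ D * |R + F.ω (fun _ => C) j| := by positivity
  refine (pi_norm_le_iff_of_nonneg (by linarith)).2 fun i => ?_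
  have h1 := hD' (F.κ g + fun _ => C) (fun i => by
    have := hC' g i
    simp only [Pi.add_apply, Pi.zero_apply]; linarith) i j
  rw [ω_add, h.ω_κ, Pi.add_apply, Pi.add_apply] at h1
  have h2 : D * (F.lam g j + F.ω (fun _ => C) j) ≤ D * |R + F.ω (fun _ => C) j| :=
    mul_le_mul_of_nonneg_left (le_trans (by linarith [show F.lam g j ≤ R from hg]) (le_abs_self _))
      (by linarith)
  rw [Real.norm_eq_abs, abs_le]
  constructor <;> linarith [hC' g i]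

/-- the size of `s g t` in terms of a Cartan decomposition of `g` -/
theorem lam_kak {K : Set G} (hK : IsCompact K) : ∃ C : ℝ, 1 ≤ C ∧ ∀ z, F.Dom z → ∀ x ∈ K, ∀ y ∈ K,
    ∀ s t j, |F.lam (s * (x * z * y) * t) j - (F.ω (F.ℓ z) j + F.ht (s * x) j + F.ht' (y * t) j)| ≤
      C * Real.exp (-F.κ (x * z * y) j + 3 * (F.len s + F.len t)) := by
  obtain ⟨C, hC, hC'⟩ := h.lam_approx
  obtain ⟨D, hD, hD'⟩ := h.κ_cpt hK
  obtain ⟨R, hR, hR'⟩ := h.len_cpt hK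
  refine ⟨C * Real.exp (D + 6 * R), one_le_mul_of_one_le_of_one_le hC (Real.one_le_exp (by linarith)),
    fun z hz x hx y hy s t j => ?_⟩
  have h1 := hC' z hz (s * x) (y * t) j
  rw [show s * x * z * (y * t) = s * (x * z * y) * t by group] at h1
  refine h1.trans ?_
  rw [mul_assoc, ← Real.exp_add]
  refine mul_le_mul_of_nonneg_left (Real.exp_le_exp.2 ?_) (by linarith)
  linarith [h.len_mul s x, h.len_mul y t, hR' x hx, hR' y hy, (abs_le.1 (hD' z hz x hx y hy j)).2]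

/-- **Second differences of the sizes are exponentially small in the gap.** -/
theorem lam_second : ∃ C : ℝ, 1 ≤ C ∧ ∀ s g t j,
    |F.lam (s * g * t) j - F.lam (g * t) j - F.lam (s * g) j + F.lam g j| ≤
      C * Real.exp (-F.κ g j + 3 * (F.len s + F.len t)) := by
  obtain ⟨K, hK, hg⟩ := h.kak
  obtain ⟨C, hC, hC'⟩ := h.lam_kak hK
  refine ⟨4 * C, by linarith, fun s g t j => ?_⟩
  obtain ⟨x, hx, a, ha, y, hy, rfl⟩ := hg g
  have hb : ∀ s' t' : G, F.len s' ≤ F.len s → F.len t' ≤ F.len t →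
      |F.lam (s' * (x * F.a a * y) * t') j -
        (F.ω (F.ℓ (F.a a)) j + F.ht (s' * x) j + F.ht' (y * t') j)| ≤
      C * Real.exp (-F.κ (x * F.a a * y) j + 3 * (F.len s + F.len t)) := fun s' t' h1 h2 =>
    (hC' _ (h.a_dom ha) x hx y hy s' t' j).trans (by gcongr)
  have l1 : F.len 1 ≤ F.len s := h.len_one ▸ len_nonneg _
  have l2 : F.len 1 ≤ F.len t := h.len_one ▸ len_nonneg _
  obtain ⟨a1, a2⟩ := abs_le.1 (hb s t le_rfl le_rfl)
  obtain ⟨a3, a4⟩ := abs_le.1 (hb 1 t l1 le_rfl)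
  obtain ⟨a5, a6⟩ := abs_le.1 (hb s 1 le_rfl l2)
  obtain ⟨a7, a8⟩ := abs_le.1 (hb 1 1 l1 l2)
  simp only [one_mul, mul_one] at a3 a4 a5 a6 a7 a8
  rw [abs_le]
  constructor <;> linarith

end Fl

end Vale.Agent.P092GK
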