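import Vale.Agent.P092GK.Cone

/-!
P092, group package (helper83): opposite pairs in the cones and the invariant pairing; slabs,
separation of points, properness of the action on opposite pairs.
-/

set_option linter.all false

open Matrix Filter Topology MeasureTheory Measure Set
open scoped Pointwise ENNReal

namespace Vale.Agent.P092GK

open FlD

variable {k : Type} [NontriviallyNormedField k] {G : Type} [Group G] {r : ℕ} {F : FlD k G r}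
  {X : Type} [NormedAddCommGroup X] [NormedSpace ℝ X]

/-- the opposite pairs -/
def FlD.Op (F : FlD k G r) (H H' : Subgroup G) : Set ((G ⧸ H) × (G ⧸ H')) :=
  {q | F.n₀ * q.1.out⁻¹ * q.2.out ∈ F.Ω}

/-- the invariant pairing -/
noncomputable def FlD.dd (F : FlD k G r) (H : Subgroup G) (t : (Fin r → ℝ) →ₗ[ℝ] X)
    (q : (G ⧸ H) × (G ⧸ H)) : X := t (F.ℓ (F.n₀ * q.1.out⁻¹ * q.2.out))

/-- `t` bounds the vectors whose highest weights are bounded below -/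
def FlD.Pos (F : FlD k G r) (t : (Fin r → ℝ) →ₗ[ℝ] X) : Prop :=
  ∀ R : ℝ, ∃ R' : ℝ, ∀ x, (∀ j, -R ≤ F.ω x j) → ‖t x‖ ≤ R → ∀ j, F.ω x j ≤ R'

theorem FlD.Ht.le {H : Subgroup G} {t : (Fin r → ℝ) →ₗ[ℝ] X} (e : F.Ht H t) :
    H ≤ F.P Finset.univ := fun p hp => ((e p).1 hp).1

variable [TopologicalSpace G] [IsTopologicalGroup G] [T2Space G]

theorem cont_quo₂ {H H' : Subgroup G} {S : Set ((G ⧸ H) × (G ⧸ H'))} {Y : Type*} [TopologicalSpace Y]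
    {f : (G ⧸ H) × (G ⧸ H') → Y} (hS : IsOpen S)
    (hf : ContinuousOn (fun q : G × G => f (q.1, q.2)) {q | ((q.1 : G ⧸ H), (q.2 : G ⧸ H')) ∈ S}) :
    ContinuousOn f S := fun q hq => by
  have h1 := (QuotientGroup.isOpenQuotientMap_mk (N := H)).prodMap
    (QuotientGroup.isOpenQuotientMap_mk (N := H'))
  obtain ⟨p, rfl⟩ := h1.surjective q
  exact (h1.continuousAt_comp_iff.1
    (hf.continuousAt ((hS.preimage h1.continuous).mem_nhds hq))).continuousWithinAt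

theorem exists_lift' [LocallyCompactSpace G] [SecondCountableTopology G] (H : Subgroup G)
    {S : Set (G ⧸ H)} (hS : IsCompact S) :
    ∃ K, IsCompact K ∧ S ⊆ (fun g : G => (g : G ⧸ H)) '' K := by
  letI := borel G
  haveI : BorelSpace G := ⟨rfl⟩
  letI := borel (G ⧸ H)
  haveI : BorelSpace (G ⧸ H) := ⟨rfl⟩
  exact Qm.exists_lift QuotientGroup.isOpenQuotientMap_mk hS

namespace Fl

variable (h : Fl F) {H H' : Subgroup G} {t : (Fin r → ℝ) →ₗ[ℝ] X}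
include h

theorem n₀_B {p : G} (hp : p ∈ F.P Finset.univ) : F.n₀ * p * F.n₀⁻¹ ∈ F.Pm Finset.univ := by
  have := h.n₀_P hp
  rwa [Finset.image_univ_equiv] at this

theorem n₀_Bm {p : G} (hp : p ∈ F.Pm Finset.univ) : F.n₀ * p * F.n₀⁻¹ ∈ F.P Finset.univ := by
  have := h.n₀_Pm hp
  rwa [Finset.image_univ_equiv] at this

theorem ℓ_n₀B {p : G} (hp : p ∈ F.P Finset.univ) : F.ℓ (F.n₀ * p * F.n₀⁻¹) = -(F.ℓ p ∘ F.ι) := by
  obtain ⟨z, hz, u, hu, rfl⟩ := h.P_univ.1 hp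
  have h1 := (h.n₀Z z).1 hz
  rw [show F.n₀ * (z * u) * F.n₀⁻¹ = F.n₀ * z * F.n₀⁻¹ * (F.n₀ * u * F.n₀⁻¹) * (F.n₀ * z * F.n₀⁻¹)⁻¹ *
    (F.n₀ * z * F.n₀⁻¹) by group, h.ℓ_um (h.zum _ h1 _ ((h.n₀up u).1 hu)), h.ℓ_up hu]
  funext j
  have := h.n₀ℓ z hz (F.ι j)
  rwa [h.ι_ι] at this

theorem pair_Ω {p p' x : G} (hp : p ∈ F.P Finset.univ) (hp' : p' ∈ F.P Finset.univ) :
    F.n₀ * (p⁻¹ * x * p') ∈ F.Ω ↔ F.n₀ * x ∈ F.Ω := by
  rw [show F.n₀ * (p⁻¹ * x * p') = F.n₀ * p⁻¹ * F.n₀⁻¹ * (F.n₀ * x) * p' by group, h.Ω_mul_P hp',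
    h.Pm_mul_Ω (h.n₀_B ((F.P _).inv_mem hp))]

theorem pair_ℓ {p p' x : G} (hp : p ∈ F.P Finset.univ) (hp' : p' ∈ F.P Finset.univ)
    (hx : F.n₀ * x ∈ F.Ω) : F.ℓ (F.n₀ * (p⁻¹ * x * p')) = F.ℓ p ∘ F.ι + F.ℓ (F.n₀ * x) + F.ℓ p' := by
  have h1 := h.n₀_B ((F.P _).inv_mem hp)
  rw [show F.n₀ * (p⁻¹ * x * p') = F.n₀ * p⁻¹ * F.n₀⁻¹ * (F.n₀ * x) * p' by group,
    h.ℓ_P ((h.Pm_mul_Ω h1).2 hx) hp', h.ℓ_Pm hx h1, h.ℓ_n₀B ((F.P _).inv_mem hp), h.ℓ_invP hp]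
  congr 2
  funext j
  exact neg_neg _

theorem swap_Ω {x : G} (hx : F.n₀ * x ∈ F.Ω) : F.n₀ * x⁻¹ ∈ F.Ω ∧
    F.ℓ (F.n₀ * x⁻¹) = F.ℓ (F.n₀ * x) ∘ F.ι + F.ℓ (F.n₀ * F.n₀) := by
  obtain ⟨u, hu, p, hp, e⟩ := h.Ω_iff.1 hx
  have h1 := h.z_mem_P h.n₀_sq Finset.univ
  have h2 : F.n₀⁻¹ * u⁻¹ * F.n₀ ∈ F.Up := (h.n₀up _).2 (by
    rw [show F.n₀ * (F.n₀⁻¹ * u⁻¹ * F.n₀) * F.n₀⁻¹ = u⁻¹ by group]; exact F.Um.inv_mem hu)
  have h3 := (F.P _).mul_mem h1 (h.up_mem_P h2 Finset.univ)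
  have h4 : F.n₀ * x⁻¹ = F.n₀ * (p⁻¹ * F.n₀⁻¹ * (F.n₀ * F.n₀ * (F.n₀⁻¹ * u⁻¹ * F.n₀))) := by
    rw [show x = F.n₀⁻¹ * (u * p) by rw [← e]; group]
    have h5 : F.n₀ * F.n₀ * (F.n₀⁻¹ * u⁻¹ * F.n₀) = F.n₀ * u⁻¹ * F.n₀ := by group
    rw [h5]
    group
  have h5 : F.n₀ * F.n₀⁻¹ ∈ F.Ω := by rw [mul_inv_cancel]; exact h.one_mem
  refine ⟨h4 ▸ (h.pair_Ω hp h3).2 h5, ?_⟩
  rw [h4, h.pair_ℓ hp h3 h5, mul_inv_cancel, h.ℓ_one, add_zero, h.ℓ_up h2, e, h.ℓ_um hu]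

theorem ℓ_n₀_sq : F.ℓ (F.n₀ * F.n₀) ∘ F.ι = -F.ℓ (F.n₀ * F.n₀) := by
  have := h.ℓ_n₀B (h.z_mem_P h.n₀_sq Finset.univ)
  rw [show F.n₀ * (F.n₀ * F.n₀) * F.n₀⁻¹ = F.n₀ * F.n₀ by group] at this
  exact (neg_eq_iff_eq_neg.1 this.symm)

theorem op_mk (e : H ≤ F.P Finset.univ) (e' : H' ≤ F.P Finset.univ) (g g' : G) :
    ((g : G ⧸ H), (g' : G ⧸ H')) ∈ F.Op H H' ↔ F.n₀ * g⁻¹ * g' ∈ F.Ω := by
  obtain ⟨x, hx, h1⟩ := out_mem H g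
  obtain ⟨y, hy, h2⟩ := out_mem H' g'
  show F.n₀ * (g : G ⧸ H).out⁻¹ * (g' : G ⧸ H').out ∈ F.Ω ↔ _
  rw [h1, h2, show F.n₀ * (g * x)⁻¹ * (g' * y) = F.n₀ * (x⁻¹ * (g⁻¹ * g') * y) by group,
    h.pair_Ω (e hx) (e' hy), mul_assoc]

theorem isOpen_Op (e : H ≤ F.P Finset.univ) (e' : H' ≤ F.P Finset.univ) : IsOpen (F.Op H H') := by
  rw [← ((QuotientGroup.isOpenQuotientMap_mk (N := H)).prodMap
    (QuotientGroup.isOpenQuotientMap_mk (N := H'))).isQuotientMap.isOpen_preimage]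
  rw [show Prod.map _ _ ⁻¹' F.Op H H' = (fun q : G × G => F.n₀ * q.1⁻¹ * q.2) ⁻¹' F.Ω from
    Set.ext fun q => h.op_mk e e' q.1 q.2]
  exact h.isOpen_Ω.preimage (by fun_prop)

theorem op_smul (e : H ≤ F.P Finset.univ) (e' : H' ≤ F.P Finset.univ) (s : G) (z : G ⧸ H)
    (w : G ⧸ H') : (s • z, s • w) ∈ F.Op H H' ↔ (z, w) ∈ F.Op H H' := by
  obtain ⟨g, rfl⟩ := QuotientGroup.mk_surjective z
  obtain ⟨g', rfl⟩ := QuotientGroup.mk_surjective w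
  rw [mk_smul, mk_smul, h.op_mk e e', h.op_mk e e',
    show F.n₀ * (s * g)⁻¹ * (s * g') = F.n₀ * g⁻¹ * g' by group]

theorem op_swap (e : H ≤ F.P Finset.univ) (e' : H' ≤ F.P Finset.univ) {z : G ⧸ H} {w : G ⧸ H'}
    (hq : (z, w) ∈ F.Op H H') : (w, z) ∈ F.Op H' H := by
  have := (h.swap_Ω (x := z.out⁻¹ * w.out) (mul_assoc F.n₀ _ _ ▸ hq)).1
  rwa [_root_.mul_inv_rev, inv_inv, ← mul_assoc] at this

/-- opposition only depends on the directions -/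
theorem op_dir (e : F.Ht H t) {t' : (Fin r → ℝ) →ₗ[ℝ] X} (e' : F.Ht H' t') (z : G ⧸ H) (w : G ⧸ H') :
    (F.dir H Finset.univ z, F.dir H' Finset.univ w) ∈ F.Op _ _ ↔ (z, w) ∈ F.Op H H' :=
  h.op_mk le_rfl le_rfl _ _

theorem op_dir_left (z : G ⧸ H) (w : G ⧸ H') (e' : H' ≤ F.P Finset.univ) :
    (F.dir H Finset.univ z, w) ∈ F.Op _ H' ↔ (z, w) ∈ F.Op H H' := by
  have := h.op_mk le_rfl e' z.out w.out
  rwa [QuotientGroup.out_eq'] at this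

theorem op_dir_right (z : G ⧸ H) (w : G ⧸ H') (e : H ≤ F.P Finset.univ) :
    (z, F.dir H' Finset.univ w) ∈ F.Op H _ ↔ (z, w) ∈ F.Op H H' := by
  have := h.op_mk e le_rfl z.out w.out
  rwa [QuotientGroup.out_eq'] at this

theorem op_rt (e : F.Ht H t) {p p' : G} (hp : p ∈ F.P Finset.univ) (hp' : p' ∈ F.P Finset.univ)
    (z w : G ⧸ H) : (rt H p z, rt H p' w) ∈ F.Op H H ↔ (z, w) ∈ F.Op H H := by
  rw [← h.op_dir e e, h.dir_rt e _ hp, h.dir_rt e _ hp', h.op_dir e e]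

theorem dd_mk (e : F.Ht H t) (hι : ∀ x, t x = 0 → t (x ∘ F.ι) = 0) {g g' : G}
    (hg : F.n₀ * g⁻¹ * g' ∈ F.Ω) : F.dd H t (g, g') = t (F.ℓ (F.n₀ * g⁻¹ * g')) := by
  obtain ⟨x, hx, h1⟩ := out_mem H g
  obtain ⟨y, hy, h2⟩ := out_mem H g'
  show t (F.ℓ (F.n₀ * (g : G ⧸ H).out⁻¹ * (g' : G ⧸ H).out)) = _
  rw [h1, h2, show F.n₀ * (g * x)⁻¹ * (g' * y) = F.n₀ * (x⁻¹ * (g⁻¹ * g') * y) by group,
    h.pair_ℓ (e.le hx) (e.le hy) (mul_assoc F.n₀ _ _ ▸ hg), map_add, map_add, hι _ ((e x).1 hx).2,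
    ((e y).1 hy).2, zero_add, add_zero, mul_assoc]

theorem contOn_dd (e : F.Ht H t) (hι : ∀ x, t x = 0 → t (x ∘ F.ι) = 0) :
    ContinuousOn (F.dd H t) (F.Op H H) :=
  cont_quo₂ (h.isOpen_Op e.le e.le) ((t.continuous_of_finiteDimensional.comp_continuousOn
    (h.contOn_ℓ.comp (f := fun q : G × G => F.n₀ * q.1⁻¹ * q.2) (by fun_prop)
      fun q hq => (h.op_mk e.le e.le _ _).1 hq)).congr
    fun q hq => h.dd_mk e hι ((h.op_mk e.le e.le _ _).1 hq))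

theorem dd_smul (e : F.Ht H t) (hι : ∀ x, t x = 0 → t (x ∘ F.ι) = 0) (s : G) {z w : G ⧸ H}
    (hq : (z, w) ∈ F.Op H H) : F.dd H t (s • z, s • w) = F.dd H t (z, w) := by
  obtain ⟨g, rfl⟩ := QuotientGroup.mk_surjective z
  obtain ⟨g', rfl⟩ := QuotientGroup.mk_surjective w
  have h1 := (h.op_mk e.le e.le _ _).1 hq
  have h2 : F.n₀ * (s * g)⁻¹ * (s * g') = F.n₀ * g⁻¹ * g' := by group
  rw [mk_smul, mk_smul, h.dd_mk e hι (h2 ▸ h1), h.dd_mk e hι h1, h2]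

theorem dd_rt (e : F.Ht H t) (hι : ∀ x, t x = 0 → t (x ∘ F.ι) = 0) {p p' : G}
    (hp : p ∈ F.P Finset.univ) (hp' : p' ∈ F.P Finset.univ) {z w : G ⧸ H} (hq : (z, w) ∈ F.Op H H) :
    F.dd H t (rt H p z, rt H p' w) = t (F.ℓ p ∘ F.ι) + F.dd H t (z, w) + t (F.ℓ p') := by
  have h1 : F.n₀ * (z.out⁻¹ * w.out) ∈ F.Ω := mul_assoc F.n₀ _ _ ▸ hq
  have h2 : F.n₀ * (z.out * p)⁻¹ * (w.out * p') = F.n₀ * (p⁻¹ * (z.out⁻¹ * w.out) * p') := by group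
  rw [rt, rt, h.dd_mk e hι (h2 ▸ (h.pair_Ω hp hp').2 h1), h2, h.pair_ℓ hp hp' h1, map_add, map_add,
    ← mul_assoc]
  rfl

theorem dd_swap {z w : G ⧸ H} (hq : (z, w) ∈ F.Op H H) : F.dd H t (w, z) =
    t (F.ℓ (F.n₀ * z.out⁻¹ * w.out) ∘ F.ι) + t (F.ℓ (F.n₀ * F.n₀)) := by
  have := (h.swap_Ω (x := z.out⁻¹ * w.out) (mul_assoc F.n₀ _ _ ▸ hq)).2
  rw [_root_.mul_inv_rev, inv_inv, ← mul_assoc, ← mul_assoc] at this
  rw [← map_add, ← this]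
  rfl

theorem dd_symm (hι : ∀ x, t (x ∘ F.ι) = t x) {z w : G ⧸ H} (hq : (z, w) ∈ F.Op H H) :
    F.dd H t (w, z) = F.dd H t (z, w) := by
  have h1 := hι (F.ℓ (F.n₀ * F.n₀))
  rw [h.ℓ_n₀_sq, map_neg, neg_eq_iff_add_eq_zero, ← two_smul ℝ, smul_eq_zero_iff_right two_ne_zero] at h1
  rw [h.dd_swap hq, hι, h1, add_zero]
  rfl

/-- the chart of the points which are opposite to the base point -/
theorem op_base (e : H ≤ F.P Finset.univ) (e' : H' ≤ F.P Finset.univ) (hu : F.Up ≤ H') {w : G ⧸ H'}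
    (hw : (((1 : G) : G ⧸ H), w) ∈ F.Op H H') :
    ∃ u ∈ F.Up, ∃ z ∈ F.Z, w = ((u * F.n₀⁻¹ * z : G) : G ⧸ H') := by
  obtain ⟨g, rfl⟩ := QuotientGroup.mk_surjective w
  rw [h.op_mk e e', inv_one, mul_one] at hw
  refine ⟨F.n₀⁻¹ * F.lo (F.n₀ * g) * F.n₀, (h.n₀up _).2 ?_, _, h.md_mem hw, ?_⟩
  · rw [show ∀ u, F.n₀ * (F.n₀⁻¹ * u * F.n₀) * F.n₀⁻¹ = u from fun u => by group]
    exact h.lo_mem _ hw
  · rw [← QuotientGroup.mk_mul_of_mem _ (H'.inv_mem (hu (h.up_mem _ hw)))]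
    congr 1
    unfold FlD.md
    group

theorem dd_base (e : F.Ht H t) (hι : ∀ x, t x = 0 → t (x ∘ F.ι) = 0) {u z : G} (hu : u ∈ F.Up)
    (hz : z ∈ F.Z) : (((1 : G) : G ⧸ H), ((u * F.n₀⁻¹ * z : G) : G ⧸ H)) ∈ F.Op H H ∧
      F.dd H t (((1 : G) : G ⧸ H), ((u * F.n₀⁻¹ * z : G) : G ⧸ H)) = t (F.ℓ z) := by
  have h1 : F.n₀ * 1⁻¹ * (u * F.n₀⁻¹ * z) = F.n₀ * u * F.n₀⁻¹ * z := by group
  have h2 := (h.n₀up u).1 hu
  have h3 : F.n₀ * 1⁻¹ * (u * F.n₀⁻¹ * z) ∈ F.Ω :=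
    h1 ▸ h.Ω_iff.2 ⟨_, h2, _, h.z_mem_P hz _, rfl⟩
  exact ⟨(h.op_mk e.le e.le _ _).2 h3, by rw [h.dd_mk e hι h3, h1, h.ℓ_um h2]⟩

/-- **Slabs** are bounded modulo `U⁺` -/
theorem slab (e : F.Ht H t) (hι : ∀ x, t x = 0 → t (x ∘ F.ι) = 0) (hp : F.Prp t) (R : ℝ) :
    ∃ S : Set (G ⧸ H), IsCompact S ∧ (∀ y ∈ S, (((1 : G) : G ⧸ H), y) ∈ F.Op H H) ∧
      ∀ w, (((1 : G) : G ⧸ H), w) ∈ F.Op H H → ‖F.dd H t (((1 : G) : G ⧸ H), w)‖ ≤ R →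
        ∃ u ∈ F.Up, ∃ y ∈ S, w = u • y := by
  obtain ⟨Q, hQ, hs, h1⟩ := hp R
  refine ⟨_, hQ.image (f := fun q => ((1 * F.n₀⁻¹ * q : G) : G ⧸ H))
    (QuotientGroup.continuous_mk.comp (continuous_const_mul _)), ?_, fun w hw hR => ?_⟩
  · rintro _ ⟨q, hq, rfl⟩
    exact (h.dd_base e hι F.Up.one_mem (hs hq)).1
  · obtain ⟨u, hu, z, hz, rfl⟩ := h.op_base e.le e.le (fun _ => h.up_Ht e) hw
    rw [(h.dd_base e hι hu hz).2] at hR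
    obtain ⟨q, hq, h2⟩ := h1 z hz hR
    refine ⟨u, hu, _, ⟨q, hq, rfl⟩, ?_⟩
    rw [mk_smul, one_mul, ← mul_assoc]
    exact h.mk_eq e _ (h.z_mem_P hz _) (h.z_mem_P (hs hq) _) h2.symm

theorem pos_inj (ht : Function.Injective t) : F.Pos t := fun R => by
  obtain ⟨C, -, hC⟩ := LinearMap.exists_antilipschitzWith t (LinearMap.ker_eq_bot.2 ht)
  obtain ⟨A, hA, h1⟩ := F.ω_bound
  refine ⟨A * (C * R), fun x _ hR j => (le_abs_self _).trans ((norm_le_pi_norm (F.ω x) j).trans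
    ((h1 x).trans (mul_le_mul_of_nonneg_left ?_ (by linarith))))⟩
  exact (ZeroHomClass.bound_of_antilipschitz t hC _).trans (mul_le_mul_of_nonneg_left hR C.2)

theorem fix_of_ht {z : ℕ → G} (hz : ∀ n, F.Dom (z n)) {j : Fin r}
    (hl : Tendsto (fun n => F.ℓ (z n) j) atTop atTop) {g : G} {R : ℝ}
    (hg : ∀ n, F.ht ((z n)⁻¹ * g * z n) j ≤ R) : F.V j g (F.v j) = F.Δ j g • F.v j := by
  obtain ⟨C, hC1, hC⟩ := h.con'
  have h1 : Tendsto (fun n => C * Real.exp R * Real.exp (-F.ℓ (z n) j)) atTop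
      (𝓝 (C * Real.exp R * 0)) := (Real.tendsto_exp_neg_atTop_nhds_zero.comp hl).const_mul _
  rw [mul_zero] at h1
  refine sub_eq_zero.1 (norm_le_zero_iff.1 (ge_of_tendsto' h1 fun n => ?_))
  have hn := hz n
  have h2 : F.V j g (F.v j) - F.Δ j g • F.v j = F.Δ j (z n)⁻¹ •
      (F.V j (z n) - F.Δ j (z n) • F.pr j) (F.V j ((z n)⁻¹ * g * z n) (F.v j)) := by
    rw [ContinuousLinearMap.sub_apply, ContinuousLinearMap.smul_apply, pr_apply, ← V_mul,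
      show z n * ((z n)⁻¹ * g * z n) = g * z n by group, V_mul, h.zv _ hn.1, map_smul, ← smul_sub,
      smul_smul, mul_comm, h.Δ_zinv hn.1, one_smul, ← h.Δ_conj hn.1 j g]
    rfl
  have h3 : ‖F.Δ j (z n)⁻¹‖ * ‖F.Δ j (z n)‖ = 1 := by
    rw [← norm_mul, mul_comm, h.Δ_zinv hn.1, norm_one]
  rw [h2, norm_smul]
  calc _ ≤ ‖F.Δ j (z n)⁻¹‖ * (C * (‖F.Δ j (z n)‖ * Real.exp (-F.ℓ (z n) j)) * Real.exp R) :=
        mul_le_mul_of_nonneg_left ((ContinuousLinearMap.le_opNorm _ _).trans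
          (mul_le_mul (hC _ hn j) (h.exp_ht _ j ▸ Real.exp_le_exp.2 (hg n)) (norm_nonneg _)
            (by positivity))) (norm_nonneg _)
    _ = (‖F.Δ j (z n)⁻¹‖ * ‖F.Δ j (z n)‖) * (C * Real.exp R * Real.exp (-F.ℓ (z n) j)) := by ring
    _ = _ := by rw [h3, one_mul]

theorem ht_mul_le (s g : G) (j : Fin r) : F.ht (s * g) j ≤ F.lam s j + F.ht g j := by
  rw [← Real.exp_le_exp, Real.exp_add, h.exp_ht, h.exp_ht, h.exp_lam, V_mul]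
  exact ContinuousLinearMap.le_opNorm _ _

variable [LocallyCompactSpace G]

theorem sep_aux (hp : F.Pos t) {g : G}
    (hg : ∀ x ∈ F.Ω, x * g ∈ F.Ω → t (F.ℓ (x * g)) = t (F.ℓ x)) :
    g ∈ F.P Finset.univ ∧ t (F.ℓ g) = 0 := by
  suffices h1 : g ∈ F.P Finset.univ from ⟨h1, by
    have := hg 1 h.one_mem (by rw [one_mul]; exact h.P_Ω h1)
    rwa [one_mul, h.ℓ_one, map_zero] at this⟩
  obtain ⟨C, hC, h1⟩ := h.iwa
  obtain ⟨S, Q, hS, hQ, hs, h2⟩ := cover_left h.isOpen_Ω h.dense h.isOpen_Ω ⟨1, h.one_mem⟩ hC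
  have tc := t.continuous_of_finiteDimensional
  obtain ⟨A, hA, h3⟩ := cpt_up (S.finite_toSet.isCompact.union hQ) (fun (_ : Unit) x => ‖t (F.ℓ x)‖)
    fun _ => (tc.comp_continuousOn (h.contOn_ℓ.mono (union_subset hS hs))).norm
  obtain ⟨B, hB, h4⟩ := cpt_up (hC.union (isCompact_singleton (x := g))) (fun j x => |F.ht x j|)
    fun j => ((continuous_apply j).comp h.cont_ht).abs.continuousOn
  obtain ⟨D, hD, h5⟩ := h.lam_dom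
  obtain ⟨R, hR⟩ := hp (2 * A + 2 * B + D)
  have ha := fun n => h.dom_pow (h.cb_dom Finset.univ) n
  refine h.P_iff.2 fun j _ => h.fix_of_ht ha (h.tendsto_pow (h.cb_mem _)
    (h.ℓ_cb_pos (Finset.mem_univ j))) (R := B + R) fun n => ?_
  obtain ⟨a, e⟩ : ∃ a, a = F.cb Finset.univ ^ n := ⟨_, rfl⟩
  have h6 := ha n
  rw [← e] at h6 ⊢
  obtain ⟨c, hc, z, hz, u, hu, e'⟩ := h1 (a⁻¹ * g * a)
  obtain ⟨y, hy, h7⟩ := h2 c hc
  have h8 := h.z_mem_P (F.Z.inv_mem h6.1) Finset.univ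
  have h9 := (F.P _).mul_mem ((F.P _).mul_mem (h.z_mem_P hz _) (h.up_mem_P hu _)) h8
  have h10 : y * a⁻¹ * g = y * c * (z * u * a⁻¹) := by
    rw [show g = a * (c * z * u) * a⁻¹ by rw [← e']; group]; group
  have h11 := hg _ ((h.Ω_mul_P h8).2 (hS hy)) (h10 ▸ (h.Ω_mul_P h9).2 (hs h7))
  rw [h10, h.ℓ_P (hs h7) h9, h.ℓ_P (hS hy) h8, h.ℓ_P (h.P_Ω ((F.P _).mul_mem (h.z_mem_P hz _)
    (h.up_mem_P hu _))) h8, h.ℓ_up hu, map_add, map_add, map_add, ← add_assoc,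
    _root_.add_left_inj] at h11
  have h12 : ∀ i, F.ht (a⁻¹ * g * a) i = F.ht c i + F.ω (F.ℓ z) i := fun i => by
    rw [e', h.ht_up hu, h.ht_z hz, Pi.add_apply]
  have h13 := hR (F.ℓ z) (fun i => ?_) ?_ j
  · linarith [h12 j, le_abs_self (F.ht c j), h4 j c (Or.inl hc)]
  · have h14 := h.ht_mul_le a (a⁻¹ * g) i
    have h15 := congrFun (h.ht_z h6.1 (a⁻¹ * g)) i
    rw [mul_inv_cancel_left] at h14
    rw [Pi.add_apply] at h15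
    linarith [h12 i, (abs_le.1 (h5 a h6 i)).2, (abs_le.1 (h4 i c (Or.inl hc))).2,
      (abs_le.1 (h4 i g (Or.inr rfl))).1]
  · rw [eq_sub_of_add_eq' h11]
    linarith [norm_sub_le (t (F.ℓ y)) (t (F.ℓ (y * c))), h3 () y (Or.inl hy), h3 () _ (Or.inr h7)]

/-- **SEP**: the pairing separates the points of the cone -/
theorem sep (e : F.Ht H t) (hι : ∀ x, t x = 0 → t (x ∘ F.ι) = 0) (hp : F.Pos t) {w w' : G ⧸ H}
    (hw : ∀ z, (z, w) ∈ F.Op H H → (z, w') ∈ F.Op H H → F.dd H t (z, w) = F.dd H t (z, w')) :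
    w = w' := by
  obtain ⟨g, rfl⟩ := QuotientGroup.mk_surjective w
  obtain ⟨g', rfl⟩ := QuotientGroup.mk_surjective w'
  refine QuotientGroup.eq.2 ((e _).2 (h.sep_aux hp fun x hx hx' => ?_))
  have h1 : F.n₀ * (g * x⁻¹ * F.n₀)⁻¹ * g = x := by group
  have h2 : F.n₀ * (g * x⁻¹ * F.n₀)⁻¹ * g' = x * (g⁻¹ * g') := by group
  have h3 := hw ((g * x⁻¹ * F.n₀ : G) : G ⧸ H) ((h.op_mk e.le e.le _ _).2 (h1.symm ▸ hx))
    ((h.op_mk e.le e.le _ _).2 (h2.symm ▸ hx'))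
  rw [h.dd_mk e hι (h1.symm ▸ hx), h.dd_mk e hι (h2.symm ▸ hx'), h1, h2] at h3
  exact h3.symm

variable [SecondCountableTopology G]

/-- compact sets of opposite pairs (flag, point of a cone) come from compact sets of the group -/
theorem lift_opp (e : F.Ht H t) {T : Set (F.Y Finset.univ × (G ⧸ H))} (hT : IsCompact T)
    (hs : T ⊆ F.Op _ _) : ∃ Q : Set G, IsCompact Q ∧
      ∀ p ∈ T, ∃ q ∈ Q, p.1 = ((q * F.n₀ : G) : F.Y _) ∧ p.2 = (q : G ⧸ H) := by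
  haveI := h.isClosed_P Finset.univ
  haveI := h.Ht_cl e
  obtain ⟨A, hA, h1⟩ := exists_lift' (F.P Finset.univ) (hT.image continuous_fst)
  obtain ⟨L, hL, h2⟩ := exists_lift' H (hT.image continuous_snd)
  have h3 := (hA.prod hL).inter_right (hT.isClosed.preimage
    (f := fun q : G × G => ((q.1 : F.Y Finset.univ), (q.2 : G ⧸ H)))
    ((QuotientGroup.continuous_mk.comp continuous_fst).prodMk
      (QuotientGroup.continuous_mk.comp continuous_snd)))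
  refine ⟨_, h3.image_of_continuousOn (f := fun q => q.2 * (F.up (F.n₀ * q.1⁻¹ * q.2))⁻¹)
    (continuousOn_snd.mul (h.up_cont.comp (f := fun q : G × G => F.n₀ * q.1⁻¹ * q.2) (by fun_prop)
      fun q hq => (h.op_mk le_rfl e.le _ _).1 (hs hq.2)).inv), fun p hp => ?_⟩
  obtain ⟨a, ha, h4⟩ := h1 ⟨p, hp, rfl⟩
  obtain ⟨l, hl, h5⟩ := h2 ⟨p, hp, rfl⟩
  have h6 : ((a : F.Y Finset.univ), (l : G ⧸ H)) ∈ T := (Prod.ext h4 h5 : (_, _) = p) ▸ hp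
  have h7 := (h.op_mk le_rfl e.le _ _).1 (hs h6)
  refine ⟨_, ⟨(a, l), ⟨⟨ha, hl⟩, h6⟩, rfl⟩, h4.symm.trans (QuotientGroup.eq.2 ?_), h5.symm.trans
    (QuotientGroup.mk_mul_of_mem _ (H.inv_mem (h.up_Ht e (h.up_mem _ h7)))).symm⟩
  have h8 := h.n₀_Bm ((F.Pm _).mul_mem ((F.Pm _).mul_mem ((F.Pm _).inv_mem (h.z_mem_Pm h.n₀_sq
    Finset.univ)) (h.Pm_univ.2 ⟨_, h.lo_mem _ h7, _, h.md_mem h7, rfl⟩)) (h.z_mem_Pm h.n₀_sq _))
  rwa [show F.n₀ * ((F.n₀ * F.n₀)⁻¹ * (F.lo (F.n₀ * a⁻¹ * l) * F.md (F.n₀ * a⁻¹ * l)) *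
    (F.n₀ * F.n₀)) * F.n₀⁻¹ = a⁻¹ * (l * (F.up (F.n₀ * a⁻¹ * l))⁻¹ * F.n₀) by
      unfold FlD.md; group] at h8

omit [LocallyCompactSpace G] [SecondCountableTopology G] in
/-- the stabiliser of an opposite pair -/
theorem stab_opp (e : F.Ht H t) {g : G} (h1 : ((g * F.n₀ : G) : F.Y Finset.univ) = F.n₀)
    (h2 : (g : G ⧸ H) = (1 : G)) : g ∈ F.Z ∧ t (F.ℓ g) = 0 := by
  have h3 := QuotientGroup.eq.1 h2.symm
  rw [inv_one, one_mul] at h3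
  have h4 := h.n₀_B (QuotientGroup.eq.1 h1.symm)
  rw [show F.n₀ * (F.n₀⁻¹ * (g * F.n₀)) * F.n₀⁻¹ = g by group] at h4
  exact ⟨h.P_inf_Pm (e.le h3) h4, ((e g).1 h3).2⟩

variable [MeasurableSpace G] [BorelSpace G] [ProperSpace k]
  (μ : Measure G) [μ.IsHaarMeasure] [μ.IsMulRightInvariant]

include μ in
theorem pos_ρ : F.Pos F.ρ := fun R => by
  obtain ⟨C, hC, h1⟩ := h.le_ρ_co μ
  refine ⟨C * (|R| + |R|), fun x h2 h3 j => (h1 (F.ω x) |R| (abs_nonneg R)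
    (fun i => (neg_le_neg (le_abs_self R)).trans (h2 i)) j).trans ?_⟩
  rw [h.co_ω]
  exact mul_le_mul_of_nonneg_left (add_le_add le_rfl (h3.trans (le_abs_self R))) (by linarith)

include μ in
theorem ρ_ι0 (x : Fin r → ℝ) (hx : F.ρ x = 0) : F.ρ (x ∘ F.ι) = 0 := (h.ρ_ι μ x).trans hx

omit [μ.IsMulRightInvariant] in
theorem ae_op (e : H ≤ F.P Finset.univ) (e' : H' ≤ F.P Finset.univ) (z : G ⧸ H) (w : G ⧸ H') :
    ∀ᵐ g ∂μ, (z, g • w) ∈ F.Op H H' := by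
  obtain ⟨x, rfl⟩ := QuotientGroup.mk_surjective z
  obtain ⟨y, rfl⟩ := QuotientGroup.mk_surjective w
  filter_upwards [h.ae_Ω μ (F.n₀ * x⁻¹) y] with g hg
  rwa [mk_smul, h.op_mk e e', ← mul_assoc]

omit [μ.IsMulRightInvariant] in
theorem ae_op' (e : H ≤ F.P Finset.univ) (e' : H' ≤ F.P Finset.univ) (z : G ⧸ H) (w : G ⧸ H') :
    ∀ᵐ g ∂μ, (g • z, w) ∈ F.Op H H' :=
  (h.ae_op μ e' e w z).mono fun _ hg => h.op_swap e' e hg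

omit [ProperSpace k] in
/-- **PR**: the action on the opposite pairs (flag, point of the full cone) is proper -/
theorem pr_opp (e : F.Ht H t) (ht : Function.Injective t) {T : Set (F.Y Finset.univ × (G ⧸ H))}
    (hT : IsCompact T) (hs : T ⊆ F.Op _ _) : ∃ c : ℝ≥0∞, c ≠ ∞ ∧
      ∀ (y : F.Y Finset.univ) (z : G ⧸ H), μ {g | (g • y, g • z) ∈ T} ≤ c := by
  obtain ⟨Q, hQ, h1⟩ := h.lift_opp e hT hs
  refine ⟨_, ((hQ.mul h.cpt_M).mul hQ.inv).measure_ne_top (μ := μ), fun y z => ?_⟩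
  rcases eq_empty_or_nonempty {g : G | (g • y, g • z) ∈ T} with e' | ⟨g₀, h2⟩
  · rw [e', measure_empty]; exact bot_le
  obtain ⟨q₀, h3, h4, h5⟩ := h1 _ h2
  refine le_trans (measure_mono fun g hg => ?_) (measure_preimage_mul_right μ g₀⁻¹ _).le
  obtain ⟨q, h6, h7, h8⟩ := h1 _ hg
  have h9 := h.stab_opp e (g := q⁻¹ * (g * g₀⁻¹) * q₀) (by
    rw [mul_assoc, ← mk_smul, ← h4, mul_smul, mul_smul, inv_smul_smul, show g • y = _ from h7,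
      mk_smul, inv_mul_cancel_left]) (by
    rw [← mk_smul, ← h5, mul_smul, mul_smul, inv_smul_smul, show g • z = _ from h8,
      mk_smul, inv_mul_cancel])
  exact ⟨_, mul_mem_mul h6 (h.mem_M.2 ⟨h9.1, ht (h9.2.trans (map_zero t).symm)⟩), _,
    Set.inv_mem_inv.2 h3, by simp only; group⟩

variable {μ}

/-- almost every point of the cone is opposite to a given point -/
theorem ae_op_qm [MeasurableSpace (G ⧸ H')] [BorelSpace (G ⧸ H')] {η : Measure G}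
    {ν : Measure (G ⧸ H')} (hν : Qm μ H' η (fun g => (g : G ⧸ H')) ν) (e : H ≤ F.P Finset.univ)
    (e' : H' ≤ F.P Finset.univ) (z : G ⧸ H) :
    ∀ᵐ w ∂ν, (z, w) ∈ F.Op H H' ∧ (w, z) ∈ F.Op H' H := by
  refine ((hν.ae_iff (S := {w | (z, w) ∈ F.Op H H'}) ((h.isOpen_Op e e').preimage
    (Continuous.prodMk_right z)).measurableSet).2 ?_).mono fun w hw => ⟨hw, h.op_swap e e' hw⟩
  filter_upwards [h.ae_op μ e e' z ((1 : G) : G ⧸ H')] with g hg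
  rwa [mk_smul, mul_one] at hg

end Fl

end Vale.Agent.P092GK
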