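import Vale.Agent.P092GK.Pair
import Vale.Agent.P092GK.PanD
import Mathlib.MeasureTheory.Group.Prod
import Mathlib.MeasureTheory.Measure.Haar.Unique

/-!
P092, group package (helper83): the big cell has full Haar measure; elements of `U⁻` which are
moved by a coweight; the kernel of the action on the flag space.
-/

set_option linter.all false

open Matrix Filter Topology MeasureTheory Set
open scoped Pointwise

namespace Vale.Agent.P092GK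

open FlD

variable {k : Type} [NontriviallyNormedField k] {G : Type} [Group G] {r : ℕ} {F : FlD k G r}
  [TopologicalSpace G] [IsTopologicalGroup G] [T2Space G]

namespace Fl

variable (h : Fl F)
include h

theorem lo_P {g : G} (hg : g ∈ F.Ω) : (F.lo g)⁻¹ * g ∈ F.P Finset.univ :=
  h.P_univ.2 ⟨_, h.md_mem hg, _, h.up_mem g hg, by
    conv_lhs => rw [← F.lo_md_up g, h.cell_eq (h.lo_mem g hg) (h.md_mem hg) (h.up_mem g hg) |>.1]
    group⟩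

theorem lo_mul {u p : G} (hu : u ∈ F.Um) (hp : p ∈ F.P Finset.univ) : F.lo (u * p) = u := by
  obtain ⟨z, hz, w, hw, rfl⟩ := h.P_univ.1 hp
  rw [← mul_assoc]
  exact (h.cell_eq hu hz hw).1

theorem Ω_iff {g : G} : g ∈ F.Ω ↔ ∃ u ∈ F.Um, ∃ p ∈ F.P Finset.univ, g = u * p :=
  ⟨fun hg => ⟨_, h.lo_mem g hg, _, h.lo_P hg, (mul_inv_cancel_left _ _).symm⟩, by
    rintro ⟨u, hu, p, hp, rfl⟩
    exact (h.Ω_mul_P hp).2 ((mul_one u ▸ h.Pm_mul_Ω (h.um_mem_Pm hu _)).2 h.one_mem)⟩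

theorem P_Ω {p : G} (hp : p ∈ F.P Finset.univ) : p ∈ F.Ω :=
  h.Ω_iff.2 ⟨1, F.Um.one_mem, p, hp, (one_mul p).symm⟩

theorem Pm_Ω {p : G} (hp : p ∈ F.Pm Finset.univ) : p ∈ F.Ω :=
  (mul_one p ▸ h.Pm_mul_Ω hp).2 h.one_mem

theorem um_inf_P {u : G} (hu : u ∈ F.Um) (hp : u ∈ F.P Finset.univ) : u = 1 := by
  obtain ⟨z, hz, w, hw, e⟩ := h.P_univ.1 hp
  exact h.cell_one hu hz hw e

theorem ℓ_P {g p : G} (hg : g ∈ F.Ω) (hp : p ∈ F.P Finset.univ) : F.ℓ (g * p) = F.ℓ g + F.ℓ p := by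
  obtain ⟨z, hz, w, hw, rfl⟩ := h.P_univ.1 hp
  rw [← mul_assoc, h.ℓ_up hw, h.ℓ_up hw, h.ℓ_zr hz hg]

theorem ℓ_Pm {g p : G} (hg : g ∈ F.Ω) (hp : p ∈ F.Pm Finset.univ) :
    F.ℓ (p * g) = F.ℓ p + F.ℓ g := by
  obtain ⟨w, hw, z, hz, rfl⟩ := h.Pm_univ.1 hp
  rw [mul_assoc, h.ℓ_um hw, h.ℓ_um hw, h.ℓ_zl hz hg]

theorem ℓ_invP {p : G} (hp : p ∈ F.P Finset.univ) : F.ℓ p⁻¹ = -F.ℓ p := by
  have := h.ℓ_P (h.P_Ω ((F.P _).inv_mem hp)) hp
  rw [inv_mul_cancel, h.ℓ_one] at this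
  exact eq_neg_of_add_eq_zero_left this.symm

theorem ℓ_invPm {p : G} (hp : p ∈ F.Pm Finset.univ) : F.ℓ p⁻¹ = -F.ℓ p := by
  have := h.ℓ_Pm (h.Pm_Ω hp) ((F.Pm _).inv_mem hp)
  rw [inv_mul_cancel, h.ℓ_one] at this
  exact eq_neg_of_add_eq_zero_left this.symm

theorem ht_P' {p : G} (hp : p ∈ F.P Finset.univ) (g : G) : F.ht (g * p) = F.ht g + F.ω (F.ℓ p) := by
  funext j
  rw [h.ht_P hp (Finset.mem_univ j), Pi.add_apply, h.ω_ℓ]

/-- an element of `U⁻` which is moved by a coweight escapes -/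
theorem esc {j : Fin r} {u : G} (hu : u ∈ F.Um) (hn : u ∉ F.L {j}) {Q : Set G} (hQ : IsCompact Q) :
    ∀ᶠ n : ℕ in atTop, (F.b j ^ n)⁻¹ * u * F.b j ^ n ∉ Q := by
  by_contra h1
  have h2 : ∃ᶠ n : ℕ in atTop, (F.b j ^ n)⁻¹ * u * F.b j ^ n ∈ Q := by
    simpa only [not_eventually, not_not] using h1
  haveI := frequently_iff_neBot.1 h2
  refine hn (h.um_P_L hu (h.P_iff.2 fun i hi => ?_))
  rw [Finset.mem_singleton.1 hi]
  exact h.fix_of_bdd (l := atTop ⊓ 𝓟 {n : ℕ | (F.b j ^ n)⁻¹ * u * F.b j ^ n ∈ Q})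
    (Eventually.of_forall fun n => h.dom_pow (h.b_dom j) n)
    ((h.tendsto_pow (h.bZ j) (by rw [h.bℓ, Pi.single_eq_same]; exact h.β_pos)).mono_left
      inf_le_left) hQ (mem_inf_of_right (mem_principal_self _))

variable [ProperSpace k]

/-- finitely many right translates of the big cell cover the group, uniformly -/
theorem test_Ω {O : Set G} (hO : IsOpen O) (hne : O.Nonempty) : ∃ S : Finset G, (↑S : Set G) ⊆ O ∧
    ∃ c : ℝ, 0 < c ∧ ∀ g, ∃ f ∈ S, ∀ j, c * Real.exp (F.ht' g j) ≤ ‖F.Δ j (g * f)‖ := by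
  obtain ⟨S, hS, c, hc, h1⟩ := h.test hO hne
  refine ⟨S, hS, c, hc, fun g => ?_⟩
  obtain ⟨f, hf, h2⟩ := h1 fun j => ((F.φ j).comp (F.V j g)).smulRight (F.v j)
  refine ⟨f, hf, fun j => ?_⟩
  have h3 := h2 j
  rw [ContinuousLinearMap.norm_smulRight_apply, ContinuousLinearMap.smulRight_apply, norm_smul,
    ← mul_assoc, mul_le_mul_iff_left₀ (norm_pos_iff.2 (h.v_ne j))] at h3
  rw [h.exp_ht', FlD.Δ, V_mul]
  exact h3

theorem low_um : ∃ S : Finset G, (↑S : Set G) ⊆ F.Um ∧ ∃ C : ℝ, 0 < C ∧ ∀ z ∈ F.Z, ∃ u ∈ S, ∀ j,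
    Real.exp (-F.ℓ z j) ≤ C * ‖F.V j (z * u * z⁻¹) (F.v j)‖ := by
  classical
  obtain ⟨S, hS, c, hc, h1⟩ := h.test h.isOpen_Ω ⟨1, h.one_mem⟩
  obtain ⟨C, hC, h2⟩ := h.low'
  obtain ⟨B, hB, h3⟩ := cpt_up S.finite_toSet.isCompact (fun j x => ‖F.Δ j x‖)
    fun j => (h.contΔ j).norm.continuousOn
  refine ⟨S.image F.lo, fun u hu => ?_, C * B / c, by positivity, fun z hz => ?_⟩
  · obtain ⟨f, hf, rfl⟩ := Finset.mem_image.1 hu
    exact h.lo_mem f (hS hf)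
  · obtain ⟨f, hf, h4⟩ := h1 fun j => F.V j z
    refine ⟨_, Finset.mem_image_of_mem _ hf, fun j => ?_⟩
    have h5 := h4 j
    have h6 : F.V j z (F.V j (F.lo f) (F.v j)) = F.Δ j z • F.V j (z * F.lo f * z⁻¹) (F.v j) := by
      rw [← map_smul, ← h.zv z hz, ← V_mul, ← V_mul, inv_mul_cancel_right]
    rw [h.Vv_cell (hS hf), map_smul, h6, norm_smul, norm_smul] at h5
    have h7 := norm_pos_iff.2 (h.Δ_ne hz j)
    have h8 := h2 z hz j
    have h9 := h3 j f hf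
    rw [div_mul_eq_mul_div, le_div_iff₀ hc]
    refine le_of_mul_le_mul_left ?_ h7
    calc _ = c * (‖F.Δ j z‖ * Real.exp (-F.ℓ z j)) := by ring
      _ ≤ C * (c * ‖F.V j z‖) := by nlinarith
      _ ≤ C * (B * (‖F.Δ j z‖ * ‖F.V j (z * F.lo f * z⁻¹) (F.v j)‖)) := by
        refine mul_le_mul_of_nonneg_left (h5.trans ?_) (by linarith)
        exact mul_le_mul_of_nonneg_right h9 (by positivity)
      _ = _ := by ring

/-- an element of `Z` which centralises `U⁻` is in `M` -/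
theorem comm_um {z : G} (hz : z ∈ F.Z) (hc : ∀ u ∈ F.Um, z * u = u * z) : z ∈ F.M := by
  obtain ⟨S, hS, C, hC, h1⟩ := h.low_um
  obtain ⟨B, hB, h2⟩ := cpt_up S.finite_toSet.isCompact (fun j x => ‖F.V j x (F.v j)‖)
    fun j => (h.contVv j).norm.continuousOn
  have h3 : ∀ w ∈ F.Z, (∀ u ∈ F.Um, Commute w u) → ∀ j, 0 ≤ F.ℓ w j := fun w hw hc j => by
    by_contra h4
    obtain ⟨n, hn⟩ := exists_nat_gt (C * B / -F.ℓ w j)
    obtain ⟨u, hu, h5⟩ := h1 _ (F.Z.pow_mem hw n)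
    have h6 := h5 j
    rw [((hc u (hS hu)).pow_left n).eq, mul_inv_cancel_right, h.ℓ_pow hw, Pi.smul_apply,
      smul_eq_mul] at h6
    rw [div_lt_iff₀ (by linarith)] at hn
    nlinarith [Real.add_one_le_exp (-(n * F.ℓ w j)), h2 j u hu]
  refine h.mem_M.2 ⟨hz, funext fun j => le_antisymm ?_ (h3 z hz hc j)⟩
  have := h3 _ (F.Z.inv_mem hz) (fun u hu => Commute.inv_left (hc u hu)) j
  rw [h.ℓ_inv hz, Pi.neg_apply] at this
  exact neg_nonneg.1 this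

theorem exists_um_moved (j : Fin r) : ∃ u ∈ F.Um, u ∉ F.L {j} := by
  by_contra h1
  push Not at h1
  have := congrFun (h.mem_M.1 (h.comm_um (h.bZ j) fun u hu =>
    mem_L.1 (h1 u hu) j (Finset.mem_singleton_self j))).2 j
  rw [h.bℓ, Pi.single_eq_same] at this
  exact h.β_pos.ne' this

/-- the root groups of the simple roots are not trivial -/
theorem exists_um_L₁ (j : Fin r) : ∃ u ∈ F.Um, u ∈ F.L₁ j ∧ u ≠ 1 := by
  by_contra h0
  push Not at h0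
  obtain ⟨S, hS, C, hC, h1⟩ := h.low_um
  obtain ⟨m, hm⟩ := exists_nat_gt (C * (‖F.v j‖ + 1) / F.β)
  obtain ⟨c, hc⟩ : ∃ c, c = F.cb (Finset.univ.erase j) := ⟨_, rfl⟩
  have h2 : ∀ᶠ n : ℕ in atTop, ∀ u ∈ S, ‖F.V j ((F.b j ^ m)⁻¹ * c ^ n * u *
      ((F.b j ^ m)⁻¹ * c ^ n)⁻¹) (F.v j)‖ < ‖F.v j‖ + 1 := by
    refine (Finset.eventually_all S).2 fun u hu => ?_
    obtain ⟨h3, -, h4⟩ := h.lp'_spec (h.um_mem_Pm (hS hu) (Finset.univ.erase j))
    rw [h0 _ (h.lp'_um (hS hu)) h3, ← hc] at h4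
    have h5 := ((h.contVv j).norm.tendsto _).comp ((h4.const_mul (F.b j ^ m)⁻¹).mul_const (F.b j ^ m))
    rw [mul_one, inv_mul_cancel, V_one] at h5
    filter_upwards [h5.eventually (gt_mem_nhds (lt_add_one _))] with n hn
    rwa [show (F.b j ^ m)⁻¹ * c ^ n * u * ((F.b j ^ m)⁻¹ * c ^ n)⁻¹ =
      (F.b j ^ m)⁻¹ * (c ^ n * u * (c ^ n)⁻¹) * F.b j ^ m by group]
  obtain ⟨n, hn⟩ := h2.exists
  have h3 := F.Z.pow_mem (h.bZ j) m
  have h4 : c ∈ F.Z := hc ▸ h.cb_mem _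
  obtain ⟨u, hu, h5⟩ := h1 _ (F.Z.mul_mem (F.Z.inv_mem h3) (F.Z.pow_mem h4 n))
  have h6 := h5 j
  rw [h.ℓ_mul (F.Z.inv_mem h3) (F.Z.pow_mem h4 n), h.ℓ_inv h3, h.ℓ_pow (h.bZ j), h.ℓ_pow h4,
    h.bℓ] at h6
  simp only [Pi.add_apply, Pi.neg_apply, Pi.smul_apply, Pi.single_eq_same, smul_eq_mul, hc, h.ℓ_cb,
    Finset.notMem_erase, if_false, mul_zero, add_zero, neg_neg] at h6
  rw [← hc] at h6
  rw [div_lt_iff₀ h.β_pos] at hm
  nlinarith [Real.add_one_le_exp (m * F.β), hn u hu]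

theorem um_L₁_moved {j : Fin r} {u : G} (hu : u ∈ F.Um) (h1 : u ∈ F.L₁ j) (h2 : u ≠ 1) :
    u ∉ F.L {j} := fun h3 => h2 (h.um_inf_P hu (h.L_le_P _ (mem_L.2 fun i _ => by
  by_cases e : i = j
  · exact mem_L.1 h3 i (Finset.mem_singleton.2 e)
  · exact mem_L.1 h1 i (Finset.mem_erase.2 ⟨e, Finset.mem_univ i⟩))))

/-- the kernel of the action on the flag space lies in `M` -/
theorem ker_Y {g : G} (hg : ∀ y : F.Y Finset.univ, g • y = y) : g ∈ F.M := by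
  have h1 : ∀ x : G, x⁻¹ * g * x ∈ F.P Finset.univ := fun x => by
    have := QuotientGroup.eq.1 ((smul_mk g x).symm.trans (hg x)).symm
    rwa [← mul_assoc] at this
  have h2 : g ∈ F.Z := by
    refine h.P_inf_Pm (by simpa using h1 1) ?_
    have := h.n₀_P (h1 F.n₀)
    rwa [Finset.image_univ_equiv, show F.n₀ * (F.n₀⁻¹ * g * F.n₀) * F.n₀⁻¹ = g by group] at this
  refine h.comm_um h2 fun u hu => ?_
  have h3 := h.um_inf_P (F.Um.mul_mem (F.Um.inv_mem hu) (h.zum g h2 u hu)) (by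
    have := (F.P _).mul_mem (h1 u) ((F.P _).inv_mem (h.z_mem_P h2 Finset.univ))
    rwa [show u⁻¹ * g * u * g⁻¹ = u⁻¹ * (g * u * g⁻¹) by group] at this)
  rw [inv_mul_eq_one] at h3
  conv_rhs => rw [h3]
  group

theorem attract {a g : G} (ha : a ∈ F.Z) (hp : ∀ i, 0 < F.ℓ a i) (hg : g ∈ F.Ω)
    (θ : Finset (Fin r)) :
    Tendsto (fun n : ℕ => a ^ n • (g : F.Y θ)) atTop (𝓝 ((1 : G) : F.Y θ)) := by
  have h1 : Tendsto (fun n : ℕ => a ^ n * F.lo g * (a ^ n)⁻¹) atTop (𝓝 1) := fun N hN => by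
    obtain ⟨T, -, hT⟩ := h.um_contr (isCompact_singleton (x := F.lo g)) hN
    rw [mem_map]
    filter_upwards [eventually_all.2 fun i => (h.tendsto_pow ha (hp i)).eventually_ge_atTop T]
      with n hn using hT _ (F.Z.pow_mem ha n) hn _ rfl (h.lo_mem g hg)
  refine ((QuotientGroup.continuous_mk.tendsto _).comp h1).congr fun n => ?_
  refine QuotientGroup.eq.2 (P_anti (Finset.subset_univ θ) ?_)
  have := (F.P _).mul_mem (h.z_mem_P (F.Z.pow_mem ha n) Finset.univ) (h.lo_P hg)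
  rwa [show a ^ n * ((F.lo g)⁻¹ * g) = (a ^ n * F.lo g * (a ^ n)⁻¹)⁻¹ * (a ^ n * g) by group] at this

variable [SecondCountableTopology G] [LocallyCompactSpace G] [MeasurableSpace G] [BorelSpace G]
  (μ : Measure G) [μ.IsHaarMeasure]

theorem null_Ω : μ F.Ωᶜ = 0 := by
  obtain ⟨S, hS, c, hc, h1⟩ := h.test_Ω h.isOpen_Ω ⟨1, h.one_mem⟩
  have h2 : ∀ E : Set G, IsCompact E → E ⊆ F.Ωᶜ⁻¹ → μ E = 0 := fun E hE hs => by
    refine le_antisymm (ENNReal.le_of_forall_pos_le_add fun ε hε _ => ?_) bot_le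
    have h3 : (ε : ENNReal) / S.card ≠ 0 := ENNReal.div_ne_zero.2
      ⟨ENNReal.coe_ne_zero.2 hε.ne', ENNReal.natCast_ne_top _⟩
    have h4 := eventually_nhds_one_measure_smul_sdiff_lt (μ := μ) hE hE.isClosed h3
    have h5 : ∀ᶠ u in 𝓝 (1 : G), μ (u⁻¹ • E \ E) < ε / S.card :=
      (continuous_inv.tendsto' 1 1 inv_one).eventually h4
    obtain ⟨T, -, hT⟩ := h.um_contr (S.finite_toSet.image F.lo).isCompact h5
    obtain ⟨z, hz, h6⟩ := h.exists_big T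
    have h7 : E ⊆ ⋃ f ∈ S, (z * F.lo f * z⁻¹) • ((z * F.lo f * z⁻¹)⁻¹ • E \ E) := fun g hg => by
      obtain ⟨f, hf, h8⟩ := h1 (g⁻¹ * z)
      refine mem_iUnion₂.2 ⟨f, hf, mem_smul_set_iff_inv_smul_mem.2 ⟨smul_mem_smul_set hg, fun e => ?_⟩⟩
      refine hs e ?_
      have h9 : g⁻¹ * z * f ∈ F.Ω := fun j => norm_pos_iff.1 (lt_of_lt_of_le (by positivity) (h8 j))
      have h10 := (F.P _).mul_mem (h.z_mem_P hz Finset.univ) (h.lo_P (hS hf))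
      rw [← h.Ω_mul_P h10]
      rwa [show ((z * F.lo f * z⁻¹)⁻¹ • g)⁻¹ * (z * ((F.lo f)⁻¹ * f)) = g⁻¹ * z * f by
        rw [smul_eq_mul]; group]
    refine (measure_mono h7).trans ((measure_biUnion_finset_le _ _).trans ?_)
    refine (Finset.sum_le_card_nsmul _ _ ((ε : ENNReal) / S.card) fun f hf => ?_).trans ?_
    · rw [measure_smul]
      exact (hT z hz h6 _ ⟨f, hf, rfl⟩ (h.lo_mem f (hS hf))).le
    · rw [nsmul_eq_mul, zero_add]
      exact ENNReal.mul_div_le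
  rw [← measure_inv_null, ← inter_univ F.Ωᶜ⁻¹, ← iUnion_compactCovering, inter_iUnion]
  exact measure_iUnion_null fun n => h2 _ ((isCompact_compactCovering G n).inter_left
    h.isOpen_Ω.isClosed_compl.inv) inter_subset_left

/-- **The big cell has full measure.** -/
theorem ae_Ω (x y : G) : ∀ᵐ g ∂μ, x * g * y ∈ F.Ω :=
  ((quasiMeasurePreserving_mul_right μ y).comp
    (measurePreserving_mul_left μ x).quasiMeasurePreserving).ae (h.null_Ω μ)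

theorem ae_Ω_inv (x y : G) : ∀ᵐ g ∂μ, x * g⁻¹ * y ∈ F.Ω :=
  (quasiMeasurePreserving_inv μ).ae (h.ae_Ω μ x y)

theorem restrict_Ω : μ.restrict F.Ω = μ := Measure.restrict_eq_self_of_ae_mem (h.null_Ω μ)

end Fl

end Vale.Agent.P092GK
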