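import Vale.Agent.P092GK.Vol
import Mathlib.Topology.Maps.Proper.CompactlyGenerated

/-!
P092, group package (helper83): the cones `G / H`, `H = {p ∈ P | t (ℓ p) = 0}` for a linear map `t`
on `𝔞`: right translations, heights, invariant measure, contraction and volume bounds.
-/

set_option linter.all false

open Matrix Filter Topology MeasureTheory Measure Set
open scoped Pointwise ENNReal

namespace Vale.Agent.P092GK

open FlD

section rt

variable {G : Type} [Group G] {H : Subgroup G} {q q' : G}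

/-- the right translation on `G / H` by an element of the normaliser -/
noncomputable def rt (H : Subgroup G) (q : G) (y : G ⧸ H) : G ⧸ H := ((y.out * q : G) : G ⧸ H)

theorem out_mem (H : Subgroup G) (g : G) : ∃ x ∈ H, (g : G ⧸ H).out = g * x :=
  (QuotientGroup.mk_out_eq_mul H g).elim fun x hx => ⟨x, x.2, hx⟩

theorem rt_mk (hq : q ∈ Subgroup.normalizer (H : Set G)) (g : G) :
    rt H q (g : G ⧸ H) = ((g * q : G) : G ⧸ H) := by
  obtain ⟨x, hx, e⟩ := out_mem H g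
  rw [rt, e]
  refine QuotientGroup.eq.2 ((hq _).2 ?_)
  rw [show q * ((g * x * q)⁻¹ * (g * q)) * q⁻¹ = x⁻¹ by group]
  exact H.inv_mem hx

theorem mk_smul (s g : G) : s • (g : G ⧸ H) = ((s * g : G) : G ⧸ H) := rfl

theorem rt_smul (hq : q ∈ Subgroup.normalizer (H : Set G)) (s : G) (y : G ⧸ H) :
    rt H q (s • y) = s • rt H q y := by
  obtain ⟨g, rfl⟩ := QuotientGroup.mk_surjective y
  rw [mk_smul, rt_mk hq, rt_mk hq, mk_smul, mul_assoc]

theorem rt_mul (hq : q ∈ Subgroup.normalizer (H : Set G)) (hq' : q' ∈ Subgroup.normalizer (H : Set G))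
    (y : G ⧸ H) : rt H (q * q') y = rt H q' (rt H q y) := by
  obtain ⟨g, rfl⟩ := QuotientGroup.mk_surjective y
  rw [rt_mk (Subgroup.mul_mem _ hq hq'), rt_mk hq, rt_mk hq', mul_assoc]

theorem rt_of_mem (hq : q ∈ H) (y : G ⧸ H) : rt H q y = y := by
  rw [rt, QuotientGroup.mk_mul_of_mem _ hq, QuotientGroup.out_eq']

theorem rt_iter (hq : q ∈ Subgroup.normalizer (H : Set G)) (n : ℕ) (g : G) :
    (fun y => q⁻¹ • rt H q y)^[n] (g : G ⧸ H) = (((q ^ n)⁻¹ * g * q ^ n : G) : G ⧸ H) := by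
  induction n with
  | zero => simp
  | succ n ih =>
    rw [Function.iterate_succ_apply', ih, rt_mk hq, mk_smul]
    congr 1
    group

variable [TopologicalSpace G] [IsTopologicalGroup G]

theorem cont_quo {X : Type*} [TopologicalSpace X] {f : G ⧸ H → X}
    (hf : Continuous fun g : G => f g) : Continuous f :=
  (QuotientGroup.isQuotientMap_mk H).continuous_iff.2 hf

theorem cont_rt (hq : q ∈ Subgroup.normalizer (H : Set G)) : Continuous (rt H q) := cont_quo (by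
  simp only [rt_mk hq]
  exact QuotientGroup.continuous_mk.comp (continuous_mul_const q))

/-- the right translation as a homeomorphism -/
noncomputable def rtH (hq : q ∈ Subgroup.normalizer (H : Set G)) : G ⧸ H ≃ₜ G ⧸ H where
  toFun := rt H q
  invFun := rt H q⁻¹
  left_inv y := by rw [← rt_mul hq (Subgroup.inv_mem _ hq), mul_inv_cancel, rt_of_mem H.one_mem]
  right_inv y := by rw [← rt_mul (Subgroup.inv_mem _ hq) hq, inv_mul_cancel, rt_of_mem H.one_mem]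
  continuous_toFun := cont_rt hq
  continuous_invFun := cont_rt (Subgroup.inv_mem _ hq)

theorem mk_nhds {S : Set G} {g : G} (hS : S ∈ 𝓝 g) : (fun g : G => (g : G ⧸ H)) '' S ∈ 𝓝 (g : G ⧸ H) :=
  QuotientGroup.isOpenMap_coe.image_mem_nhds hS

end rt

variable {k : Type} [NontriviallyNormedField k] {G : Type} [Group G] {r : ℕ} {F : FlD k G r}
  {X : Type} [NormedAddCommGroup X] [NormedSpace ℝ X]

/-- `H` is the kernel of `t ∘ ℓ` in the minimal parabolic subgroup -/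
def FlD.Ht (F : FlD k G r) (H : Subgroup G) (t : (Fin r → ℝ) →ₗ[ℝ] X) : Prop :=
  ∀ p, p ∈ H ↔ p ∈ F.P Finset.univ ∧ t (F.ℓ p) = 0

/-- the height on the cone -/
noncomputable def FlD.hq (F : FlD k G r) (H : Subgroup G) (t : (Fin r → ℝ) →ₗ[ℝ] X) (y : G ⧸ H) : X :=
  t (F.co (F.ht y.out))

/-- the direction on the cone -/
noncomputable def FlD.dir (F : FlD k G r) (H : Subgroup G) (θ : Finset (Fin r)) (y : G ⧸ H) : F.Y θ :=
  (y.out : F.Y θ)

variable [TopologicalSpace G] [IsTopologicalGroup G] [T2Space G]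

/-- the fibres of the cone over the flag space are properly embedded by `t` -/
def FlD.Prp (F : FlD k G r) (t : (Fin r → ℝ) →ₗ[ℝ] X) : Prop :=
  ∀ R : ℝ, ∃ Q : Set G, IsCompact Q ∧ Q ⊆ F.Z ∧
    ∀ z ∈ F.Z, ‖t (F.ℓ z)‖ ≤ R → ∃ q ∈ Q, t (F.ℓ q) = t (F.ℓ z)

namespace Fl

variable (h : Fl F) {H : Subgroup G} {t : (Fin r → ℝ) →ₗ[ℝ] X}
include h

theorem ht_Hw (t : (Fin r → ℝ) →ₗ[ℝ] X) : F.Ht (h.Hw (LinearMap.ker t)) t := fun _ => Iff.rfl

theorem Ht_eq (e : F.Ht H t) : H = h.Hw (LinearMap.ker t) := Subgroup.ext e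

theorem Ht_N : F.Ht (F.N Finset.univ) LinearMap.id := fun p => by rw [← h.Hw_bot]; rfl

theorem Ht_cl (e : F.Ht H t) : IsClosed (H : Set G) := h.Ht_eq e ▸ h.isClosed_Hw _

theorem Ht_nrm (e : F.Ht H t) : F.P Finset.univ ≤ Subgroup.normalizer (H : Set G) :=
  h.Ht_eq e ▸ h.nrm_Hw _

theorem N_le_Ht (e : F.Ht H t) : F.N Finset.univ ≤ H :=
  h.Ht_eq e ▸ h.Hw_bot ▸ h.Hw_mono bot_le

theorem up_Ht (e : F.Ht H t) {u : G} (hu : u ∈ F.Up) : u ∈ H := h.N_le_Ht e (h.up_mem_N hu _)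

theorem mk_eq (e : F.Ht H t) (g : G) {p p' : G} (hp : p ∈ F.P Finset.univ)
    (hp' : p' ∈ F.P Finset.univ) (e' : t (F.ℓ p) = t (F.ℓ p')) :
    ((g * p : G) : G ⧸ H) = ((g * p' : G) : G ⧸ H) := by
  refine QuotientGroup.eq.2 ?_
  rw [show (g * p)⁻¹ * (g * p') = p⁻¹ * p' by group]
  refine (e _).2 ⟨(F.P _).mul_mem ((F.P _).inv_mem hp) hp', ?_⟩
  rw [h.ℓ_P (h.P_Ω ((F.P _).inv_mem hp)) hp', h.ℓ_invP hp, map_add, map_neg, e', neg_add_cancel]

theorem rt_congr (e : F.Ht H t) {p p' : G} (hp : p ∈ F.P Finset.univ) (hp' : p' ∈ F.P Finset.univ)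
    (e' : t (F.ℓ p) = t (F.ℓ p')) : rt H p = rt H p' := funext fun y => h.mk_eq e _ hp hp' e'

theorem prp_inj (ht : Function.Injective t) : F.Prp t := fun R => by
  obtain ⟨C, -, hC⟩ := LinearMap.exists_antilipschitzWith t (LinearMap.ker_eq_bot.2 ht)
  refine ⟨_, h.zprop (C * R), fun x hx => hx.1, fun z hz hR => ⟨z, ⟨hz, fun i => ?_⟩, rfl⟩⟩
  exact (norm_le_pi_norm (F.ℓ z) i).trans ((ZeroHomClass.bound_of_antilipschitz t hC _).trans
    (mul_le_mul_of_nonneg_left hR C.2))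

theorem prp_surj (hs : ∀ x, ∃ z ∈ F.Z, F.ℓ z = x) (t : (Fin r → ℝ) →ₗ[ℝ] X) : F.Prp t := fun R => by
  obtain ⟨s, hs'⟩ := t.rangeRestrict.exists_rightInverse_of_surjective t.range_rangeRestrict
  obtain ⟨C, hC⟩ : ∃ C : ℝ, 0 ≤ C ∧ ∀ x, ‖s x‖ ≤ C * ‖x‖ :=
    ⟨_, norm_nonneg _, (LinearMap.toContinuousLinearMap s).le_opNorm⟩
  refine ⟨_, h.zprop (C * R), fun x hx => hx.1, fun z hz hR => ?_⟩
  obtain ⟨q, hq, e⟩ := hs (s (t.rangeRestrict (F.ℓ z)))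
  refine ⟨q, ⟨hq, fun i => ?_⟩, ?_⟩
  · rw [e]
    exact (norm_le_pi_norm _ i).trans ((hC.2 _).trans (mul_le_mul_of_nonneg_left hR hC.1))
  · rw [e]
    exact congrArg Subtype.val (LinearMap.congr_fun hs' (t.rangeRestrict (F.ℓ z)))

theorem dir_mk (e : F.Ht H t) (θ : Finset (Fin r)) (g : G) : F.dir H θ (g : G ⧸ H) = (g : F.Y θ) := by
  obtain ⟨x, hx, e'⟩ := out_mem H g
  rw [FlD.dir, e', QuotientGroup.mk_mul_of_mem _ (P_anti (Finset.subset_univ θ) ((e x).1 hx).1)]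

theorem cont_dir (e : F.Ht H t) (θ : Finset (Fin r)) : Continuous (F.dir H θ) := cont_quo (by
  simp only [h.dir_mk e]
  exact QuotientGroup.continuous_mk)

theorem dir_smul (e : F.Ht H t) (θ : Finset (Fin r)) (s : G) (y : G ⧸ H) :
    F.dir H θ (s • y) = s • F.dir H θ y := by
  obtain ⟨g, rfl⟩ := QuotientGroup.mk_surjective y
  rw [mk_smul, h.dir_mk e, h.dir_mk e, mk_smul]

theorem dir_rt (e : F.Ht H t) (θ : Finset (Fin r)) {p : G} (hp : p ∈ F.P Finset.univ) (y : G ⧸ H) :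
    F.dir H θ (rt H p y) = F.dir H θ y := by
  rw [rt, h.dir_mk e, QuotientGroup.mk_mul_of_mem _ (P_anti (Finset.subset_univ θ) hp)]
  rfl

theorem hq_mk (e : F.Ht H t) (g : G) : F.hq H t (g : G ⧸ H) = t (F.co (F.ht g)) := by
  obtain ⟨x, hx, e'⟩ := out_mem H g
  rw [FlD.hq, e', h.co_ht_P ((e x).1 hx).1, map_add, ((e x).1 hx).2, add_zero]

theorem cont_hq (e : F.Ht H t) : Continuous (F.hq H t) := cont_quo (by
  simp only [h.hq_mk e]
  exact t.continuous_of_finiteDimensional.comp ((cont_co (F := F)).comp h.cont_ht))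

theorem hq_rt (e : F.Ht H t) {p : G} (hp : p ∈ F.P Finset.univ) (y : G ⧸ H) :
    F.hq H t (rt H p y) = F.hq H t y + t (F.ℓ p) := by
  rw [rt, h.hq_mk e, h.co_ht_P hp, map_add]
  rfl

theorem cone_ext (e : F.Ht H t) {y y' : G ⧸ H} (e₁ : F.dir H Finset.univ y = F.dir H Finset.univ y')
    (e₂ : F.hq H t y = F.hq H t y') : y = y' := by
  obtain ⟨g, rfl⟩ := QuotientGroup.mk_surjective y
  obtain ⟨g', rfl⟩ := QuotientGroup.mk_surjective y'
  rw [h.dir_mk e, h.dir_mk e, QuotientGroup.eq] at e₁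
  rw [h.hq_mk e, h.hq_mk e, ← mul_inv_cancel_left g g', h.co_ht_P e₁, map_add, left_eq_add] at e₂
  exact QuotientGroup.eq.2 ((e _).2 ⟨e₁, e₂⟩)

/-- the height cocycle only depends on the direction -/
theorem hq_smul_sub (e : F.Ht H t) (s : G) {y y' : G ⧸ H}
    (e₁ : F.dir H Finset.univ y = F.dir H Finset.univ y') :
    F.hq H t (s • y) - F.hq H t y = F.hq H t (s • y') - F.hq H t y' := by
  obtain ⟨g, rfl⟩ := QuotientGroup.mk_surjective y
  obtain ⟨g', rfl⟩ := QuotientGroup.mk_surjective y'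
  rw [h.dir_mk e, h.dir_mk e, QuotientGroup.eq] at e₁
  rw [mk_smul, mk_smul, h.hq_mk e, h.hq_mk e, h.hq_mk e, h.hq_mk e, ← mul_inv_cancel_left g g',
    ← mul_assoc, h.co_ht_P e₁, h.co_ht_P e₁, map_add, map_add, add_sub_add_right_eq_sub]

theorem hq_lip (e : F.Ht H t) : ∃ C : ℝ, 1 ≤ C ∧ ∀ (s : G) (y : G ⧸ H),
    ‖F.hq H t (s • y) - F.hq H t y‖ ≤ C * F.len s := by
  obtain ⟨A, hA, h1⟩ := F.co_bound
  refine ⟨max 1 (‖LinearMap.toContinuousLinearMap t‖ * A), le_max_left _ _, fun s y => ?_⟩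
  obtain ⟨g, rfl⟩ := QuotientGroup.mk_surjective y
  rw [mk_smul, h.hq_mk e, h.hq_mk e, ← map_sub, ← co_sub]
  refine ((LinearMap.toContinuousLinearMap t).le_opNorm _).trans ((mul_le_mul_of_nonneg_left
    ((h1 _).trans (mul_le_mul_of_nonneg_left ((pi_norm_le_iff_of_nonneg (len_nonneg s)).2 fun j =>
      h.ht_lip s g j) (by linarith))) (norm_nonneg _)).trans ?_)
  rw [← mul_assoc]
  exact mul_le_mul_of_nonneg_right (le_max_right _ _) (len_nonneg s)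

/-- the height is proper -/
theorem cpt_hq (e : F.Ht H t) (hp : F.Prp t) (R : ℝ) : IsCompact {y : G ⧸ H | ‖F.hq H t y‖ ≤ R} := by
  obtain ⟨C, hC, h1⟩ := h.iwa
  obtain ⟨B, -, h2⟩ := cpt_up hC (fun (_ : Unit) x => ‖t (F.co (F.ht x))‖) fun _ =>
    (t.continuous_of_finiteDimensional.comp ((cont_co (F := F)).comp h.cont_ht)).norm.continuousOn
  obtain ⟨Q, hQ, hs, h3⟩ := hp (R + B)
  refine ((hC.mul hQ).image QuotientGroup.continuous_mk).of_isClosed_subset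
    (isClosed_le (h.cont_hq e).norm continuous_const) fun y hy => ?_
  obtain ⟨g, rfl⟩ := QuotientGroup.mk_surjective y
  obtain ⟨x, hx, z, hz, u, hu, rfl⟩ := h1 g
  rw [mem_setOf_eq, h.hq_mk e, h.ht_up hu, h.co_ht_P (h.z_mem_P hz _), map_add] at hy
  obtain ⟨q, hq, h4⟩ := h3 z hz (by
    have := norm_sub_le (t (F.co (F.ht x)) + t (F.ℓ z)) (t (F.co (F.ht x)))
    rw [add_sub_cancel_left] at this
    linarith [h2 () x hx])
  refine ⟨_, mul_mem_mul hx hq, ?_⟩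
  rw [QuotientGroup.mk_mul_of_mem _ (h.up_Ht e hu)]
  exact h.mk_eq e x (h.z_mem_P (hs hq) _) (h.z_mem_P hz _) h4

/-- polar coordinates on the cone -/
theorem polar [ProperSpace X] [CompleteSpace k] (e : F.Ht H t) (hp : F.Prp t)
    (hs : ∀ x, ∃ z ∈ F.Z, t (F.ℓ z) = x) :
    IsHomeomorph fun y : G ⧸ H => (F.dir H Finset.univ y, F.hq H t y) := by
  haveI := h.isClosed_P Finset.univ
  haveI := h.compactY Finset.univ
  have hc := (h.cont_dir e Finset.univ).prodMk (h.cont_hq e)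
  refine isHomeomorph_iff_continuous_isClosedMap_bijective.2 ⟨hc, ?_,
    fun y y' e' => h.cone_ext e (congrArg Prod.fst e') (congrArg Prod.snd e'), fun q => ?_⟩
  · refine (isProperMap_iff_isCompact_preimage.2 ⟨hc, fun K hK => ?_⟩).isClosedMap
    obtain ⟨R, hR⟩ := (hK.image continuous_snd).isBounded.exists_norm_le
    exact (h.cpt_hq e hp R).of_isClosed_subset (hK.isClosed.preimage hc) fun y hy => hR _ ⟨_, hy, rfl⟩
  · obtain ⟨g, hg⟩ := QuotientGroup.mk_surjective q.1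
    obtain ⟨z, hz, h1⟩ := hs (q.2 - t (F.co (F.ht g)))
    refine ⟨((g * z : G) : G ⧸ H), Prod.ext ?_ ?_⟩
    · show F.dir H _ _ = _
      rw [h.dir_mk e, QuotientGroup.mk_mul_of_mem _ (h.z_mem_P hz _), hg]
    · show F.hq H t _ = _
      rw [h.hq_mk e, h.co_ht_P (h.z_mem_P hz _), map_add, h1, add_sub_cancel]

theorem back (e : F.Ht H t) {b g s : G} (hb : b ∈ F.Z) (hs : s ∈ F.Ω)
    (e' : ((b⁻¹ * g * b : G) : G ⧸ H) = (s : G ⧸ H)) :
    (g : G ⧸ H) = ((b * F.lo s * b⁻¹ * F.md s : G) : G ⧸ H) := by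
  have h1 := h.z_mem_P hb Finset.univ
  have h2 := congrArg (fun y => b • rt H b⁻¹ y) e'
  have h3 := (F.P _).inv_mem h1
  have h4 := (F.P _).mul_mem h1 (h.lo_P hs)
  simp only [rt_mk (h.Ht_nrm e h3), mk_smul] at h2
  rw [show b * (b⁻¹ * g * b * b⁻¹) = g by group, show b * (s * b⁻¹) =
    b * F.lo s * b⁻¹ * (b * ((F.lo s)⁻¹ * s) * b⁻¹) by group] at h2
  rw [h2]
  refine h.mk_eq e _ ((F.P _).mul_mem h4 h3) (h.z_mem_P (h.md_mem hs) _) (congrArg t ?_)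
  rw [h.ℓ_conj hb, h.ℓ_um (F.Um.inv_mem (h.lo_mem s hs)), h.ℓ_md hs]

/-- **CTR**: the inverse of `b⁻¹ · b` is stable at the base point of the cone -/
theorem ctr_stab (e : F.Ht H t) {b : G} (hb : F.Dom b) : ∀ V ∈ 𝓝 ((1 : G) : G ⧸ H),
    ∃ S ∈ 𝓝 ((1 : G) : G ⧸ H), ∀ n, (fun y => b⁻¹ • rt H b y)^[n] ⁻¹' S ⊆ V := fun V hV => by
  obtain ⟨N, hN, h1⟩ := exists_nhds_one_split (QuotientGroup.continuous_mk.continuousAt hV)
  obtain ⟨N', hN', h2⟩ := h.um_small hN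
  refine ⟨_, mk_nhds (inter_mem (h.isOpen_Ω.mem_nhds h.one_mem)
    (inter_mem (h.cell_at_one.1 hN') (h.cell_at_one.2.1 hN))), fun n y hy => ?_⟩
  obtain ⟨g, rfl⟩ := QuotientGroup.mk_surjective y
  obtain ⟨s, hs, h3⟩ := hy
  rw [rt_iter (h.Ht_nrm e (h.z_mem_P hb.1 _))] at h3
  rw [h.back e (F.Z.pow_mem hb.1 n) hs.1 h3.symm]
  exact h1 _ (h2 _ (h.dom_pow hb n) _ hs.2.1 (h.lo_mem s hs.1)) _ hs.2.2

variable [SecondCountableTopology G] [LocallyCompactSpace G] [MeasurableSpace G] [BorelSpace G]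

theorem mdl_Ht (e : F.Ht H t) {p : G} (hp : p ∈ F.P Finset.univ) : mdl H p = F.ρ (F.ℓ p) :=
  h.Ht_eq e ▸ h.mdl_Hw _ hp

theorem uni_Ht (e : F.Ht H t) (hρ : ∀ x, t x = 0 → F.ρ x = 0) {p : G} (hp : p ∈ H) : mdl H p = 0 :=
  (h.mdl_Ht e ((e p).1 hp).1).trans (hρ _ ((e p).1 hp).2)

variable (μ : Measure G) [μ.IsHaarMeasure] [μ.IsMulRightInvariant]

/-- **The invariant measure of the cone** and its scaling under right translations -/
theorem exists_cone [MeasurableSpace (G ⧸ H)] [BorelSpace (G ⧸ H)] (e : F.Ht H t)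
    (hρ : ∀ x, t x = 0 → F.ρ x = 0) : ∃ (η : Measure G) (ν : Measure (G ⧸ H)),
      Qm μ H η (fun g => (g : G ⧸ H)) ν ∧ ν.IsOpenPosMeasure ∧ IsFiniteMeasureOnCompacts ν ∧
      SMulInvariantMeasure G (G ⧸ H) ν ∧ ν ≠ 0 ∧
      ∀ p ∈ F.P Finset.univ, eo (F.ρ (F.ℓ p)) • ν.map (rt H p) = ν := by
  obtain ⟨η, hη⟩ := exists_hm (h.Ht_cl e)
  obtain ⟨ν, h1, h2, h3, h4⟩ := exists_quo μ hη fun p hp => h.uni_Ht e hρ hp
  refine ⟨η, ν, h1, h2, h3, h4, fun h0 => isOpen_univ.measure_ne_zero ν ⟨((1 : G) : G ⧸ H), trivial⟩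
    (by rw [h0]; rfl), fun p hp => ?_⟩
  rw [h1.right (cont_rt (h.Ht_nrm e hp)).measurable (h.Ht_nrm e hp) (rt_mk (h.Ht_nrm e hp)),
    h.mdl_Ht e hp, smul_smul, eo_mul_neg, one_smul]

variable [ProperSpace k]

/-- **HB0**: the volume of the contracted neighbourhoods of the base point -/
theorem ctr_vol (e : F.Ht H t) {b : G} (hb : F.Dom b) {κ : ℝ≥0∞} (hκ : κ ≤ eo (F.ρ (F.ℓ b))) :
    ∃ S ∈ 𝓝 ((1 : G) : G ⧸ H), ∀ L, IsCompact L → ∃ c : ℝ≥0∞, c ≠ ∞ ∧ ∀ n, μ {g | g ∈ L ∧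
      g • ((1 : G) : G ⧸ H) ∈ (fun y => b⁻¹ • rt H b y)^[n] ⁻¹' S} * κ ^ n ≤ c := by
  obtain ⟨η, hη⟩ := exists_hm h.clUm
  obtain ⟨π, hπ⟩ := exists_hm (h.isClosed_P Finset.univ)
  obtain ⟨c, hc⟩ := h.box μ hη hπ
  obtain ⟨Q, hQ, hs, h1⟩ := local_compact_nhds (h.isOpen_Ω.mem_nhds h.one_mem)
  have lQ := h1.image_of_continuousOn (h.lo_cont.mono hs)
  obtain ⟨A, hA, -, h2⟩ := h.um_bdd lQ
  refine ⟨_, mk_nhds hQ, fun L hL => ⟨eo c * (η (F.lo '' Q) * π (L⁻¹ * A)), ENNReal.mul_ne_top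
    (eo_ne_top c) (ENNReal.mul_ne_top (hη.fin _ lQ).ne (hπ.fin _ (hL.inv.mul hA)).ne), fun n => ?_⟩⟩
  have h3 := F.Z.pow_mem hb.1 n
  have h4 := hc {u | (b ^ n)⁻¹ * u * b ^ n ∈ F.lo '' Q} _
    (lQ.isClosed.preimage (by fun_prop)).measurableSet (hL.inv.mul hA).measurableSet
  rw [h.um_conj μ hη h3, h.ℓ_pow hb.1, map_smul, smul_eq_mul] at h4
  refine (mul_le_mul' ((measure_mono fun g hg => ?_).trans h4.le) (pow_le_pow_left' hκ n)).trans
    (le_of_eq ?_)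
  · obtain ⟨s, h5, h6⟩ := hg.2
    rw [mk_smul, mul_one, rt_iter (h.Ht_nrm e (h.z_mem_P hb.1 _))] at h6
    have h7 := ((e _).1 (QuotientGroup.eq.1 (h.back e h3 (hs h5) h6.symm).symm)).1
    have h8 := h.zum _ h3 _ (h.lo_mem s (hs h5))
    have h9 := (F.P _).mul_mem (h.z_mem_P (h.md_mem (hs h5)) Finset.univ) h7
    have h10 : g = b ^ n * F.lo s * (b ^ n)⁻¹ *
      (F.md s * ((b ^ n * F.lo s * (b ^ n)⁻¹ * F.md s)⁻¹ * g)) := by group
    have h11 : F.lo g = b ^ n * F.lo s * (b ^ n)⁻¹ := by rw [h10, h.lo_mul h8 h9]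
    refine ⟨h.Ω_iff.2 ⟨_, h8, _, h9, h10⟩, ⟨s, h5, by rw [h11]; group⟩, ?_⟩
    rw [h11]
    exact mul_mem_mul (Set.inv_mem_inv.2 hg.1)
      (h2 _ (h.dom_pow hb n) _ ⟨s, h5, rfl⟩ (h.lo_mem s (hs h5)))
  · rw [eo_pow, mul_assoc (eo (-_)), mul_left_comm, mul_right_comm, eo_neg_mul, one_mul]

end Fl

end Vale.Agent.P092GK
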