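import Vale.Agent.P092HR.Defs
import Vale.Agent.P092BL.Erg

/-!
P092, higher rank (helper83): the lift to a cone with one height, over an archimedean field.
-/

set_option linter.all false

open scoped InnerProductSpace ENNReal NNReal
open MeasureTheory Filter Topology ContinuousLinearMap Set

namespace Vale.Agent.P092HR

open Vale.Agent.P092CP Vale.Agent.P092RD Vale.Agent.P092GK Vale.Agent.P092TH
open Vale.Agent.P092.RC (Cm Moore)
open Vale.Agent.P092RD.POM (ex bd_ex map_f)

variable {k : Type} [NontriviallyNormedField k] [ProperSpace k] {G K : Type} [Group G]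
  [TopologicalSpace G] [IsTopologicalGroup G] [LocallyCompactSpace G] [SecondCountableTopology G]
  [T2Space G] [MeasurableSpace G] [BorelSpace G] [NormedAddCommGroup K] [InnerProductSpace ℂ K]
  [CompleteSpace K] {μ : Measure G} [μ.IsHaarMeasure] {W : Set (K →L[ℂ] K)} {r : ℕ}
  {X : Type} [NormedAddCommGroup X] [NormedSpace ℝ X] {F : FlD k G r} {C : Cpl μ μ W} {z : ℕ → G}
  {L : Aa r →ₗ[ℝ] Aa r} {E : POM (YY F) K} {θ₀ : POM (ZZ F) K} {H' : Subgroup G} {A : Aa r → G}

section gr

omit [LocallyCompactSpace G] [SecondCountableTopology G] [MeasurableSpace G] [BorelSpace G]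

theorem Gr.hmg (g : Gr F) : P092.H15.HMG G := by
  obtain ⟨s, N, τ, w, hp⟩ := g.pan
  exact P092GH.hmg g.fl hp (by rw [g.gen]; exact dense_univ)

theorem Gr.moore_up (g : Gr F) : Moore (F.Up : Set G) := by
  obtain ⟨s, N, τ, w, hp⟩ := g.pan
  have := P092BL.moore_U g.hmg g.fl hp (θ := Finset.univ) ⟨⟨0, by have := g.two; omega⟩, by simp⟩
  rwa [show F.U Finset.univ = F.Up from Subgroup.ext fun _ => g.fl.U_univ] at this

end gr

omit [T2Space G] [MeasurableSpace G] [BorelSpace G] [LocallyCompactSpace G] in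
theorem stdY (h : Fl F) : StandardBorelSpace (YY F) := by
  letI := h.metricY Finset.univ
  haveI := h.compactY Finset.univ
  infer_instance

/-- the projection between two cones -/
noncomputable def pj (H H' : Subgroup G) (y : G ⧸ H) : G ⧸ H' := (y.out : G ⧸ H')

omit [TopologicalSpace G] [IsTopologicalGroup G] [LocallyCompactSpace G] [SecondCountableTopology G]
  [T2Space G] [MeasurableSpace G] [BorelSpace G] in
theorem pj_mk {H H' : Subgroup G} (e : H ≤ H') (g : G) : pj H H' (g : G ⧸ H) = (g : G ⧸ H') := by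
  obtain ⟨p, hp, e'⟩ := out_mem H g
  rw [pj, e', QuotientGroup.mk_mul_of_mem _ (e hp)]

omit [LocallyCompactSpace G] [SecondCountableTopology G] [T2Space G] [MeasurableSpace G]
  [BorelSpace G] in
theorem cont_pj {H H' : Subgroup G} (e : H ≤ H') : Continuous (pj H H') := cont_quo (by
  simp only [pj_mk e]
  exact QuotientGroup.continuous_mk)

omit [TopologicalSpace G] [IsTopologicalGroup G] [LocallyCompactSpace G] [SecondCountableTopology G]
  [T2Space G] [MeasurableSpace G] [BorelSpace G] in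
theorem pj_smul {H H' : Subgroup G} (e : H ≤ H') (s : G) (y : G ⧸ H) :
    pj H H' (s • y) = s • pj H H' y := by
  obtain ⟨g, rfl⟩ := QuotientGroup.mk_surjective y
  rw [mk_smul, pj_mk e, pj_mk e, mk_smul]

theorem Xt_smul (τ : Aa r →ₗ[ℝ] ℝ) (c s : ℝ) : Xt F C E (c • τ) s = Xt F C E τ (s * c) := by
  unfold Xt
  congr 1
  funext g y
  simp [ex, mul_assoc]

/-- **The lift over an archimedean field** -/
theorem lift_r (g : Gr F) (hA : Tor F A) (e : Eb F C E) (T : T0 F C z L E θ₀)
    {t : Aa r →ₗ[ℝ] ℝ} (h : F.Ht H' t) (h0 : t ≠ 0) : ∃ θ, Tx F C L E H' t θ := by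
  have hF := g.fl
  haveI := stdY hF
  have hs := hA.surj_t (LinearMap.surjective_of_ne_zero h0)
  have hp := hF.prp_surj hA.surj t
  have le := hF.N_le_Ht h
  have m := (cont_pj le).measurable
  obtain ⟨θ, hθ⟩ := (hF.cn h hp hs).exists_pv g.moore_up e.isP
    ⟨e.inv.cm, e.inv.cov, fun s a => e.inv.inv s (hF.up_mem_P a _)⟩ (T.inv.map m (pj_smul le))
    (fun φ f hφ hf => by
      rw [map_f, map_f, ← T.mod φ (f ∘ _) hφ (hf.comp m)]
      refine congrArg _ (funext fun y => ?_)
      obtain ⟨x, rfl⟩ := QuotientGroup.mk_surjective y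
      show φ (F.dir H' _ (pj _ _ _)) * _ = φ (F.dir _ _ _) * f (pj _ _ _)
      rw [pj_mk le, hF.dir_mk h, hF.dir_mk hF.Ht_N]) T.ne
  refine ⟨θ, hθ.isP, hθ.inv, hθ.dir, fun τ s => ?_, fun p a q b e' => ?_⟩
  · have h3 : ∀ x, τ x = τ 1 * x := fun x => by
      simpa [mul_comm] using τ.map_smul x 1
    have h1 : τ ∘ₗ t = τ 1 • t := LinearMap.ext fun x => h3 _
    have h2 : (ex s fun ζ => τ (F.hq H' t ζ)) = ex (s * τ 1) (F.hq H' t) := funext fun ζ => by
      rw [ex, ex, h3]
      push_cast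
      ring_nf
    rw [h1, h2, Xt_smul]
    exact hθ.mem _
  · have mr := (cont_rt (hF.Ht_nrm h b)).measurable
    refine (hF.cn h hp hs).ext (isP_tr C.s p hθ.isP) (hθ.isP.map mr) (fun φ hφ => ?_) fun s => ?_
    · rw [tr_f, hθ.dir φ hφ, e.inv.inv p a φ hφ, ← hθ.dir φ hφ, map_f]
      exact congrArg _ (funext fun y => congrArg φ (hF.dir_rt h _ b y).symm)
    · rw [tr_f, T.spd t s p a _ (hθ.mem s), map_f, ← θ.smul _ (bd_ex s (hF.cn h hp hs).mht)]
      refine congrArg _ (funext fun y => ?_)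
      show _ * ex s (F.hq H' t) y = ex s (F.hq H' t) (rt H' q y)
      rw [ex, ex, hF.hq_rt h b, e', ← Complex.exp_add]
      push_cast
      ring_nf

end Vale.Agent.P092HR
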