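import Vale.Agent.P092RG.Uniq

/-!
P092, group package (helper83): Haar measures of closed subgroups as measures on the group, the
modulus of conjugation, semidirect products, and invariant measures on homogeneous spaces.
-/

set_option linter.all false

open MeasureTheory Measure Filter Topology Set
open scoped ENNReal NNReal Pointwise

namespace Vale.Agent.P092GK

/-- the exponential with values in `ℝ≥0∞` -/
noncomputable def eo (x : ℝ) : ℝ≥0∞ := ENNReal.ofReal (Real.exp x)

theorem eo_add (x y : ℝ) : eo (x + y) = eo x * eo y := by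
  unfold eo; rw [Real.exp_add, ENNReal.ofReal_mul (Real.exp_pos x).le]

theorem eo_zero : eo 0 = 1 := by unfold eo; rw [Real.exp_zero, ENNReal.ofReal_one]

theorem eo_ne_top (x : ℝ) : eo x ≠ ⊤ := ENNReal.ofReal_ne_top

theorem eo_ne_zero (x : ℝ) : eo x ≠ 0 := (ENNReal.ofReal_pos.2 (Real.exp_pos x)).ne'

theorem eo_le {x y : ℝ} : eo x ≤ eo y ↔ x ≤ y := by
  unfold eo; rw [ENNReal.ofReal_le_ofReal_iff (Real.exp_pos _).le, Real.exp_le_exp]

theorem eo_inj {x y : ℝ} (h : eo x = eo y) : x = y := le_antisymm (eo_le.1 h.le) (eo_le.1 h.ge)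

theorem continuous_eo : Continuous eo := ENNReal.continuous_ofReal.comp Real.continuous_exp

theorem measurable_eo : Measurable eo := continuous_eo.measurable

theorem eo_mul_neg (x : ℝ) : eo x * eo (-x) = 1 := by rw [← eo_add, add_neg_cancel, eo_zero]

theorem eo_neg_mul (x : ℝ) : eo (-x) * eo x = 1 := by rw [mul_comm, eo_mul_neg]

theorem exists_eo {a : ℝ≥0∞} (h0 : a ≠ 0) (h1 : a ≠ ⊤) : ∃ x, a = eo x :=
  ⟨Real.log a.toReal, by
    unfold eo; rw [Real.exp_log (ENNReal.toReal_pos h0 h1), ENNReal.ofReal_toReal h1]⟩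

theorem exists_le_eo {a : ℝ≥0∞} (ha : a ≠ ⊤) : ∃ x, 0 ≤ x ∧ a ≤ eo x := by
  refine ⟨a.toReal, ENNReal.toReal_nonneg, ?_⟩
  unfold eo
  conv_lhs => rw [← ENNReal.ofReal_toReal ha]
  exact ENNReal.ofReal_le_ofReal (by linarith [Real.add_one_le_exp a.toReal])

theorem exists_eo_le {a : ℝ≥0∞} (ha : a ≠ 0) : ∃ x, 0 ≤ x ∧ eo (-x) ≤ a := by
  rcases eq_or_ne a ⊤ with rfl | h1
  · exact ⟨0, le_rfl, le_top⟩
  · obtain ⟨x, rfl⟩ := exists_eo ha h1
    exact ⟨|x|, abs_nonneg x, eo_le.2 (neg_abs_le x)⟩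

theorem nrm_iff {G : Type} [Group G] {H : Subgroup G} {q : G} :
    q ∈ Subgroup.normalizer (H : Set G) ↔ ∀ x, x ∈ H ↔ q * x * q⁻¹ ∈ H := Iff.rfl

theorem nrm_of {G : Type} [Group G] {H S : Subgroup G}
    (h : ∀ q ∈ S, ∀ x ∈ H, q * x * q⁻¹ ∈ H) :
    S ≤ Subgroup.normalizer (H : Set G) := fun q hq x => ⟨h q hq x, fun e => by
  have := h _ (S.inv_mem hq) _ e
  rwa [show q⁻¹ * (q * x * q⁻¹) * q⁻¹⁻¹ = x by group] at this⟩

variable {G : Type} [Group G] [TopologicalSpace G] [IsTopologicalGroup G]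
  [SecondCountableTopology G] [MeasurableSpace G] [BorelSpace G] [LocallyCompactSpace G] [T2Space G]

/-- `η` is a left Haar measure of the closed subgroup `H`, as a measure on `G` -/
structure Hm (H : Subgroup G) (η : Measure G) : Prop where
  cl : IsClosed (H : Set G)
  ae : ∀ᵐ g ∂η, g ∈ H
  left : ∀ x ∈ H, map (fun g => x * g) η = η
  fin : ∀ C, IsCompact C → η C < ⊤
  pos : ∀ U, IsOpen U → (U ∩ H).Nonempty → η U ≠ 0

theorem exists_hm {H : Subgroup G} (hH : IsClosed (H : Set G)) : ∃ η, Hm H η := by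
  haveI : BorelSpace H := Subtype.borelSpace (H : Set G)
  haveI : LocallyCompactSpace H := hH.locallyCompactSpace
  have hv : Measurable (Subtype.val : H → G) := measurable_subtype_coe
  refine ⟨map Subtype.val (haar : Measure H), hH, (ae_map_iff hv.aemeasurable hH.measurableSet).2
    (Eventually.of_forall fun x => x.2), fun x hx => ?_, fun C hC => ?_, fun U hU ⟨x, hx, hx'⟩ => ?_⟩
  · rw [map_map (measurable_const_mul x) hv]
    conv_rhs => rw [← map_mul_left_eq_self (haar : Measure H) ⟨x, hx⟩,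
      map_map hv (measurable_const_mul _)]
    rfl
  · rw [map_apply hv hC.measurableSet]
    exact (hH.isClosedEmbedding_subtypeVal.isCompact_preimage hC).measure_lt_top
  · rw [map_apply hv hU.measurableSet]
    exact (hU.preimage continuous_subtype_val).measure_ne_zero _ ⟨⟨x, hx'⟩, hx⟩

theorem hm_top (μ : Measure G) [μ.IsHaarMeasure] : Hm ⊤ μ :=
  ⟨isClosed_univ, Eventually.of_forall fun _ => trivial, fun x _ => map_mul_left_eq_self μ x,
    fun _ hC => hC.measure_lt_top, fun U hU ⟨x, hx, _⟩ => hU.measure_ne_zero μ ⟨x, hx⟩⟩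

namespace Hm

variable {H H' A U : Subgroup G} {η η' α : Measure G}

theorem sfin (h : Hm H η) : SigmaFinite η := by
  haveI : IsFiniteMeasureOnCompacts η := ⟨h.fin⟩
  infer_instance

theorem mp_left (h : Hm H η) {x : G} (hx : x ∈ H) : MeasurePreserving (fun g => x * g) η η :=
  ⟨measurable_const_mul x, h.left x hx⟩

theorem lint_left (h : Hm H η) {x : G} (hx : x ∈ H) (f : G → ℝ≥0∞) :
    ∫⁻ g, f (x * g) ∂η = ∫⁻ g, f g ∂η :=
  (h.mp_left hx).lintegral_comp_emb (MeasurableEquiv.mulLeft x).measurableEmbedding f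

theorem inter (h : Hm H η) (S : Set G) : η (S ∩ H) = η S :=
  measure_congr (by filter_upwards [h.ae] with x hx using propext ⟨fun e => e.1, fun e => ⟨e, hx⟩⟩)

theorem mono (h : Hm H η) {S T : Set G} (e : ∀ x ∈ H, x ∈ S → x ∈ T) : η S ≤ η T :=
  measure_mono_ae (by filter_upwards [h.ae] with x hx using e x hx)

theorem pos' (h : Hm H η) {S : Set G} (hS : S ∈ 𝓝 (1 : G)) : η S ≠ 0 := fun h0 =>
  h.pos _ isOpen_interior ⟨1, mem_interior_iff_mem_nhds.2 hS, H.one_mem⟩
    (measure_mono_null interior_subset h0)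

theorem smul (h : Hm H η) {c : ℝ≥0∞} (h0 : c ≠ 0) (h1 : c ≠ ⊤) : Hm H (c • η) :=
  ⟨h.cl, Measure.ae_smul_measure h.ae c, fun x hx => by rw [Measure.map_smul, h.left x hx],
    fun C hC => ENNReal.mul_lt_top h1.lt_top (h.fin C hC),
    fun U hU hne => mul_ne_zero h0 (h.pos U hU hne)⟩

theorem uniq' (h : Hm H η) (a : ∀ᵐ g ∂η', g ∈ H) (l : ∀ x ∈ H, map (fun g => x * g) η' = η')
    (f : ∀ C, IsCompact C → η' C < ⊤) : ∃ c : ℝ≥0, η' = c • η := by
  haveI : BorelSpace H := Subtype.borelSpace (H : Set G)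
  haveI : SecondCountableTopology H := TopologicalSpace.Subtype.secondCountableTopology _
  haveI : LocallyCompactSpace H := h.cl.locallyCompactSpace
  have hm : MeasurableEmbedding (Subtype.val : H → G) :=
    MeasurableEmbedding.subtype_coe h.cl.measurableSet
  have h1 : ∀ m : Measure G, (∀ x ∈ H, map (fun g => x * g) m = m) →
      (comap (Subtype.val : H → G) m).IsMulLeftInvariant := by
    intro m hl
    refine ⟨fun q => ?_⟩
    ext s hs
    rw [map_apply (measurable_const_mul q) hs, hm.comap_apply, hm.comap_apply]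
    conv_rhs => rw [← hl _ q.2, map_apply (measurable_const_mul _) (hm.measurableSet_image.2 hs)]
    congr 1
    ext g
    constructor
    · rintro ⟨x, hx, rfl⟩
      exact ⟨q * x, hx, rfl⟩
    · rintro ⟨y, hy, hg⟩
      refine ⟨q⁻¹ * y, by simpa using hy, ?_⟩
      have hg' : (y : G) = q * g := hg
      rw [Subgroup.coe_mul, Subgroup.coe_inv, hg', inv_mul_cancel_left]
  have h2 : ∀ m : Measure G, (∀ C, IsCompact C → m C < ⊤) →
      IsFiniteMeasureOnCompacts (comap (Subtype.val : H → G) m) := fun m f => ⟨fun C hC => by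
    rw [hm.comap_apply]
    exact f _ (hC.image continuous_subtype_val)⟩
  have h3 : ∀ m : Measure G, (∀ᵐ g ∂m, g ∈ H) →
      map Subtype.val (comap (Subtype.val : H → G) m) = m := fun m a => by
    rw [hm.map_comap, Subtype.range_coe_subtype]
    exact restrict_eq_self_of_ae_mem a
  haveI := h1 η h.left
  haveI := h1 η' l
  haveI := h2 η h.fin
  haveI := h2 η' f
  haveI : IsOpenPosMeasure (comap (Subtype.val : H → G) η) := ⟨fun U hU ⟨x, hx⟩ => by
    obtain ⟨V, hV, rfl⟩ := isOpen_induced_iff.1 hU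
    rw [hm.comap_apply]
    exact fun e => h.pos V hV ⟨x, hx, x.2⟩
      (le_zero_iff.1 (e ▸ h.mono fun y hy hv => ⟨⟨y, hy⟩, hv, rfl⟩))⟩
  haveI : IsHaarMeasure (comap (Subtype.val : H → G) η) := {}
  have h4 := congrArg (Measure.map (Subtype.val : H → G))
    (isMulLeftInvariant_eq_smul (comap (Subtype.val : H → G) η') (comap Subtype.val η))
  rw [Measure.map_smul, h3 η' a, h3 η h.ae] at h4
  exact ⟨_, h4⟩

theorem cancel (h : Hm H η) {a b : ℝ≥0∞} (e : a • η = b • η) : a = b := by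
  obtain ⟨K, hK, h1⟩ := exists_compact_mem_nhds (1 : G)
  have := congrArg (fun m : Measure G => m K) e
  simp only [Measure.smul_apply, smul_eq_mul] at this
  exact (ENNReal.mul_left_inj (h.pos' h1) (h.fin K hK).ne).1 this

theorem uniq (h : Hm H η) (h' : Hm H η') : ∃ c : ℝ, η' = eo c • η := by
  obtain ⟨c, hc⟩ := h.uniq' h'.ae h'.left h'.fin
  have h0 : (c : ℝ≥0∞) ≠ 0 := fun e => h'.pos' univ_mem (by
    rw [hc, Measure.coe_nnreal_smul_apply, e, zero_mul])
  obtain ⟨x, hx⟩ := exists_eo h0 ENNReal.coe_ne_top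
  exact ⟨x, by rw [hc, ← hx]; rfl⟩

theorem conj (h : Hm H η) (q : G) (hq : ∀ x, x ∈ H' ↔ q * x * q⁻¹ ∈ H) :
    Hm H' (map (fun u => q⁻¹ * u * q) η) := by
  have hc : Continuous fun u : G => q⁻¹ * u * q := by fun_prop
  have hc' : Continuous fun u : G => q * u * q⁻¹ := by fun_prop
  have cl : IsClosed (H' : Set G) := by
    have : (H' : Set G) = (fun u => q * u * q⁻¹) ⁻¹' H := Set.ext hq
    rw [this]
    exact h.cl.preimage hc'
  refine ⟨cl, (ae_map_iff hc.aemeasurable cl.measurableSet).2 ?_, fun x hx => ?_, fun C hC => ?_,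
    fun U hU ⟨x, hx, hx'⟩ => ?_⟩
  · filter_upwards [h.ae] with x hx
    refine (hq _).2 ?_
    rwa [show q * (q⁻¹ * x * q) * q⁻¹ = x by group]
  · rw [map_map (measurable_const_mul x) hc.measurable]
    conv_rhs => rw [← h.left _ ((hq x).1 hx), map_map hc.measurable (measurable_const_mul _)]
    congr 1
    funext u
    show x * (q⁻¹ * u * q) = q⁻¹ * (q * x * q⁻¹ * u) * q
    group
  · rw [map_apply hc.measurable hC.measurableSet]
    refine lt_of_le_of_lt (measure_mono fun u hu => ?_) (h.fin _ (hC.image hc'))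
    exact ⟨_, hu, by group⟩
  · rw [map_apply hc.measurable hU.measurableSet]
    refine h.pos _ (hU.preimage hc) ⟨q * x * q⁻¹, ?_, (hq x).1 hx'⟩
    show q⁻¹ * (q * x * q⁻¹) * q ∈ U
    rwa [show q⁻¹ * (q * x * q⁻¹) * q = x by group]

end Hm

/-- the logarithm of the modulus of the conjugation by `q` on `H` -/
noncomputable def mdl (H : Subgroup G) (q : G) : ℝ :=
  Classical.epsilon fun c => ∀ η, Hm H η → map (fun u => q⁻¹ * u * q) η = eo c • η

namespace Hm

variable {H H' A U : Subgroup G} {η η' α : Measure G}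

theorem mdl_spec (h : Hm H η) {q : G} (hq : q ∈ Subgroup.normalizer (H : Set G)) :
    map (fun u => q⁻¹ * u * q) η = eo (mdl H q) • η := by
  refine Classical.epsilon_spec (p := fun c => ∀ η, Hm H η →
    map (fun u => q⁻¹ * u * q) η = eo c • η) ?_ η h
  obtain ⟨c, hc⟩ := h.uniq (h.conj q hq)
  refine ⟨c, fun η' h' => ?_⟩
  obtain ⟨d, rfl⟩ := h.uniq h'
  rw [Measure.map_smul, hc, smul_comm]

theorem mdl_eq (h : Hm H η) {q : G} (hq : q ∈ Subgroup.normalizer (H : Set G)) {c : ℝ}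
    (e : map (fun u => q⁻¹ * u * q) η = eo c • η) : mdl H q = c :=
  eo_inj (h.cancel ((h.mdl_spec hq).symm.trans e))

theorem lint_conj (h : Hm H η) {q : G} (hq : q ∈ Subgroup.normalizer (H : Set G))
    (f : G → ℝ≥0∞) : ∫⁻ u, f (q⁻¹ * u * q) ∂η = eo (mdl H q) * ∫⁻ u, f u ∂η := by
  have := lintegral_map_equiv (μ := η) f
    ((MeasurableEquiv.mulLeft q⁻¹).trans (MeasurableEquiv.mulRight q))
  refine this.symm.trans ?_
  rw [← smul_eq_mul, ← lintegral_smul_measure, ← h.mdl_spec hq]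
  rfl

/-- the measure of `q S q⁻¹` -/
theorem conj_apply (h : Hm H η) {q : G} (hq : q ∈ Subgroup.normalizer (H : Set G)) (S : Set G) :
    η {u | q⁻¹ * u * q ∈ S} = eo (mdl H q) * η S := by
  have := ((MeasurableEquiv.mulLeft q⁻¹).trans (MeasurableEquiv.mulRight q)).map_apply (μ := η) S
  refine this.symm.trans ?_
  rw [← smul_eq_mul, ← Measure.smul_apply, ← h.mdl_spec hq]
  rfl

theorem right (h : Hm H η) {x : G} (hx : x ∈ H) : map (fun g => g * x) η = eo (mdl H x) • η := by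
  rw [← h.mdl_spec (H.le_normalizer hx)]
  conv_lhs => rw [← h.left _ (H.inv_mem hx),
    map_map (measurable_mul_const x) (measurable_const_mul _)]
  rfl

theorem lint_right (h : Hm H η) {x : G} (hx : x ∈ H) (f : G → ℝ≥0∞) :
    ∫⁻ g, f (g * x) ∂η = eo (mdl H x) * ∫⁻ g, f g ∂η := by
  refine (lintegral_map_equiv (μ := η) f (MeasurableEquiv.mulRight x)).symm.trans ?_
  rw [← smul_eq_mul, ← lintegral_smul_measure, ← h.right hx]
  rfl

end Hm

theorem mdl_mul {H : Subgroup G} (hH : IsClosed (H : Set G)) {q q' : G}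
    (hq : q ∈ Subgroup.normalizer (H : Set G)) (hq' : q' ∈ Subgroup.normalizer (H : Set G)) :
    mdl H (q * q') = mdl H q + mdl H q' := by
  obtain ⟨η, h⟩ := exists_hm hH
  refine h.mdl_eq (Subgroup.mul_mem _ hq hq') ?_
  rw [eo_add, mul_smul, ← h.mdl_spec hq', ← Measure.map_smul, ← h.mdl_spec hq,
    map_map (by fun_prop) (by fun_prop)]
  congr 1
  funext u
  show (q * q')⁻¹ * u * (q * q') = q'⁻¹ * (q⁻¹ * u * q) * q'
  group

theorem mdl_comm {H : Subgroup G} (hH : IsClosed (H : Set G)) {q : G}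
    (hq : ∀ x ∈ H, q * x = x * q) : mdl H q = 0 := by
  obtain ⟨η, h⟩ := exists_hm hH
  refine h.mdl_eq (nrm_of (S := Subgroup.centralizer H) (fun p hp x hx => ?_)
    fun x hx => (hq x hx).symm) ?_
  · rwa [← hp x hx, mul_inv_cancel_right]
  · rw [eo_zero, one_smul, Measure.map_congr (g := id), Measure.map_id]
    filter_upwards [h.ae] with x hx
    rw [mul_assoc, ← hq x hx, inv_mul_cancel_left, id]

theorem mdl_one {H : Subgroup G} (hH : IsClosed (H : Set G)) : mdl H 1 = 0 :=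
  mdl_comm hH fun x _ => by rw [one_mul, mul_one]

theorem mdl_inv {H : Subgroup G} (hH : IsClosed (H : Set G)) {q : G}
    (hq : q ∈ Subgroup.normalizer (H : Set G)) : mdl H q⁻¹ = -mdl H q := by
  have := mdl_mul hH hq (Subgroup.inv_mem _ hq)
  rw [mul_inv_cancel, mdl_one hH] at this
  linarith

theorem mdl_pow {H : Subgroup G} (hH : IsClosed (H : Set G)) {q : G}
    (hq : q ∈ Subgroup.normalizer (H : Set G)) (n : ℕ) : mdl H (q ^ n) = n * mdl H q := by
  induction n with
  | zero => rw [pow_zero, mdl_one hH, Nat.cast_zero, zero_mul]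
  | succ n ih => rw [pow_succ, mdl_mul hH (Subgroup.pow_mem _ hq n) hq, ih]; push_cast; ring

theorem mdl_bdd {H : Subgroup G} (hH : IsClosed (H : Set G)) {Q : Set G} (hQ : IsCompact Q) :
    ∃ B, ∀ q ∈ Q, q ∈ Subgroup.normalizer (H : Set G) → |mdl H q| ≤ B := by
  obtain ⟨η, h⟩ := exists_hm hH
  obtain ⟨K, hK, h1⟩ := exists_compact_mem_nhds (1 : G)
  have hQ' := hQ.union hQ.inv
  obtain ⟨x, hx, h2⟩ := exists_le_eo (h.fin _ ((hQ'.prod hK).image
    (f := fun p : G × G => p.1 * p.2 * p.1⁻¹) (by fun_prop))).ne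
  obtain ⟨y, hy, h3⟩ := exists_eo_le (h.pos' h1)
  have h4 : ∀ q ∈ Q ∪ Q⁻¹, q ∈ Subgroup.normalizer (H : Set G) → mdl H q ≤ x + y := by
    intro q hq hn
    have h5 : eo (mdl H q + -y) ≤ eo x := by
      rw [eo_add]
      refine (mul_le_mul_right h3 _).trans ?_
      rw [← h.conj_apply hn]
      refine le_trans (measure_mono fun u hu => ?_) h2
      exact ⟨(q, q⁻¹ * u * q), ⟨hq, hu⟩, by simp only; group⟩
    linarith [eo_le.1 h5]
  refine ⟨x + y, fun q hq hn => abs_le.2 ⟨?_, h4 q (Or.inl hq) hn⟩⟩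
  have := h4 q⁻¹ (Or.inr (by simpa using hq)) (Subgroup.inv_mem _ hn)
  rw [mdl_inv hH hn] at this
  linarith

namespace Hm

variable {H H' A U : Subgroup G} {η η' α : Measure G}

/-- a right invariant Haar measure is invariant under inversion -/
theorem inv (h : Hm H η) (hu : ∀ x ∈ H, mdl H x = 0) : map (fun g => g⁻¹) η = η := by
  have h1 : Hm H (map (fun g => g⁻¹) η) := by
    refine ⟨h.cl, (ae_map_iff measurable_inv.aemeasurable h.cl.measurableSet).2 ?_, fun x hx => ?_,
      fun C hC => ?_, fun U hU ⟨x, hx, hx'⟩ => ?_⟩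
    · filter_upwards [h.ae] with x hx using H.inv_mem hx
    · have h2 := h.right (H.inv_mem hx)
      rw [hu _ (H.inv_mem hx), eo_zero, one_smul] at h2
      rw [map_map (measurable_const_mul x) measurable_inv]
      conv_rhs => rw [← h2, map_map measurable_inv (measurable_mul_const _)]
      congr 1
      funext g
      simp
    · rw [map_apply measurable_inv hC.measurableSet]
      exact h.fin _ hC.inv
    · rw [map_apply measurable_inv hU.measurableSet]
      exact h.pos _ hU.inv ⟨x⁻¹, by simpa using hx, H.inv_mem hx'⟩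
  obtain ⟨c, hc⟩ := h.uniq h1
  have h2 : eo (c + c) • η = eo 0 • η := by
    rw [eo_add, mul_smul, ← hc, ← Measure.map_smul, ← hc, map_map measurable_inv measurable_inv,
      eo_zero, one_smul]
    conv_rhs => rw [← Measure.map_id (μ := η)]
    congr 1
    funext g
    exact inv_inv g
  have h3 := eo_inj (h.cancel h2)
  rw [hc, show c = 0 by linarith, eo_zero, one_smul]

/-- the Haar measure of a semidirect product -/
theorem sd (ha : Hm A α) (hu : Hm U η) (hn : A ≤ Subgroup.normalizer (U : Set G))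
    (cl : IsClosed (H : Set G)) (e : ∀ g, g ∈ H ↔ ∃ a ∈ A, ∃ u ∈ U, g = a * u) {p : G → G}
    (hp : ContinuousOn p H) (ep : ∀ a ∈ A, ∀ u ∈ U, p (a * u) = a) :
    Hm H (map (fun q : G × G => q.1 * q.2) (α.prod η)) := by
  haveI := ha.sfin
  haveI := hu.sfin
  have h0 : ∀ᵐ q ∂α.prod η, q.1 ∈ A ∧ q.2 ∈ U :=
    (quasiMeasurePreserving_fst.ae ha.ae).and (quasiMeasurePreserving_snd.ae hu.ae)
  refine ⟨cl, (ae_map_iff measurable_mul.aemeasurable cl.measurableSet).2 ?_, fun x hx => ?_,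
    fun C hC => ?_, fun V hV ⟨x, hx, hx'⟩ => ?_⟩
  · filter_upwards [h0] with q hq using (e _).2 ⟨_, hq.1, _, hq.2, rfl⟩
  · obtain ⟨a, h1, u, h2, rfl⟩ := (e x).1 hx
    have h3 := (MeasurePreserving.id α).skew_product (μc := η) (μd := η)
      (g := fun b w => b⁻¹ * u * b * w) (by fun_prop) (by
        filter_upwards [ha.ae] with b hb
        refine hu.left _ ((hn hb _).2 ?_)
        rwa [show b * (b⁻¹ * u * b) * b⁻¹ = u by group])
    have h4 := ((ha.mp_left h1).prod (MeasurePreserving.id η)).comp h3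
    rw [map_map (measurable_const_mul _) measurable_mul]
    conv_rhs => rw [← h4.map_eq, map_map measurable_mul h4.measurable]
    congr 1
    funext q
    show a * u * (q.1 * q.2) = a * q.1 * (q.1⁻¹ * u * q.1 * q.2)
    group
  · have h1 := hC.inter_right cl
    have h2 := h1.image_of_continuousOn (hp.mono inter_subset_right)
    have h3 := h2.inv.mul h1
    rw [map_apply measurable_mul hC.measurableSet]
    refine lt_of_le_of_lt (measure_mono_ae (t := (p '' (C ∩ H)) ×ˢ ((p '' (C ∩ H))⁻¹ * (C ∩ H))) ?_) ?_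
    · filter_upwards [h0] with q hq hq'
      have h4 : q.1 * q.2 ∈ C ∩ H := ⟨hq', (e _).2 ⟨_, hq.1, _, hq.2, rfl⟩⟩
      have h5 : q.1 ∈ p '' (C ∩ H) := ⟨_, h4, ep _ hq.1 _ hq.2⟩
      exact ⟨h5, _, Set.inv_mem_inv.2 h5, _, h4, inv_mul_cancel_left _ _⟩
    · rw [prod_prod]
      exact ENNReal.mul_lt_top (ha.fin _ h2) (hu.fin _ h3)
  · obtain ⟨a, h1, u, h2, rfl⟩ := (e x).1 hx'
    obtain ⟨S, T, hS, hT, h3, h4, h5⟩ := isOpen_prod_iff.1 (hV.preimage continuous_mul) a u hx
    rw [map_apply measurable_mul hV.measurableSet]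
    intro h6
    have h7 := measure_mono_null h5 h6
    rw [prod_prod] at h7
    exact mul_ne_zero (ha.pos S hS ⟨a, h3, h1⟩) (hu.pos T hT ⟨u, h4, h2⟩) h7

end Hm

theorem mdl_sd {H A U : Subgroup G} (ca : IsClosed (A : Set G)) (cu : IsClosed (U : Set G))
    (hn : A ≤ Subgroup.normalizer (U : Set G)) (cl : IsClosed (H : Set G))
    (e : ∀ g, g ∈ H ↔ ∃ a ∈ A, ∃ u ∈ U, g = a * u) {p : G → G} (hp : ContinuousOn p H)
    (ep : ∀ a ∈ A, ∀ u ∈ U, p (a * u) = a) {q : G} (q1 : q ∈ Subgroup.normalizer (A : Set G))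
    (q2 : q ∈ Subgroup.normalizer (U : Set G)) (q3 : q ∈ Subgroup.normalizer (H : Set G)) :
    mdl H q = mdl A q + mdl U q := by
  obtain ⟨α, ha⟩ := exists_hm ca
  obtain ⟨η, hu⟩ := exists_hm cu
  haveI := ha.sfin
  haveI := hu.sfin
  have hc : Measurable fun u : G => q⁻¹ * u * q := by fun_prop
  refine (ha.sd hu hn cl e hp ep).mdl_eq q3 ?_
  rw [eo_add, ← Measure.map_smul, mul_smul, ← prod_smul_right, ← prod_smul_left, ← ha.mdl_spec q1,
    ← hu.mdl_spec q2, map_prod_map _ _ hc hc, map_map hc measurable_mul,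
    map_map measurable_mul (hc.prodMap hc)]
  congr 1
  funext u
  show q⁻¹ * (u.1 * u.2) * q = q⁻¹ * u.1 * q * (q⁻¹ * u.2 * q)
  group

end Vale.Agent.P092GK
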