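import Vale.Agent.P092GK.Opp

/-!
P092, group package (helper83): the longest element, the pairing of opposite cones, properness,
Levi projections and the big cells of the parabolic subgroups.
-/

set_option linter.all false

open Matrix Filter Topology

namespace Vale.Agent.P092GK

open FlD

variable {k : Type} [NontriviallyNormedField k] {G : Type} [Group G] {r : ℕ} {F : FlD k G r}

/-- the opposite horospherical subgroup; for `θ = univ` it is `M U⁻` -/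
def FlD.Nm (F : FlD k G r) (θ : Finset (Fin r)) : Subgroup G where
  carrier := {g | ∀ j ∈ θ, ∃ d : k, ‖d‖ = 1 ∧ ∀ x, F.φ j (F.V j g x) = d * F.φ j x}
  one_mem' j _ := ⟨1, norm_one, fun x => by rw [V_one, one_mul]⟩
  mul_mem' {g g'} hg hg' j hj := by
    obtain ⟨d, h1, hd⟩ := hg j hj
    obtain ⟨d', h2, hd'⟩ := hg' j hj
    exact ⟨d * d', by rw [norm_mul, h1, h2, one_mul], fun x => by rw [V_mul, hd, hd', mul_assoc]⟩
  inv_mem' {g} hg j hj := by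
    obtain ⟨d, h1, hd⟩ := hg j hj
    exact ⟨d⁻¹, by rw [norm_inv, h1, inv_one], inv_φ hd⟩

theorem FlD.Nm_le_Pm (θ : Finset (Fin r)) : F.Nm θ ≤ F.Pm θ := fun _ hg j hj =>
  (hg j hj).imp fun _ h => h.2

variable [TopologicalSpace G] [IsTopologicalGroup G]

/-- the Levi projection of `P θ` -/
noncomputable def FlD.lp (F : FlD k G r) (θ : Finset (Fin r)) (g : G) : G :=
  haveI : Nonempty G := ⟨1⟩
  limUnder atTop fun n : ℕ => (F.cb θ ^ n)⁻¹ * g * F.cb θ ^ n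

/-- the Levi projection of `Pm θ` -/
noncomputable def FlD.lp' (F : FlD k G r) (θ : Finset (Fin r)) (g : G) : G :=
  haveI : Nonempty G := ⟨1⟩
  limUnder atTop fun n : ℕ => F.cb θ ^ n * g * (F.cb θ ^ n)⁻¹

/-- the big cell of type `θ` -/
def FlD.Ωt (F : FlD k G r) (θ : Finset (Fin r)) : Set G :=
  {g | ∃ u ∈ F.U' θ, ∃ l ∈ F.L θ, ∃ w ∈ F.U θ, g = u * l * w}

theorem contOn_of_hom {H : Subgroup G} {f : G → G} (hm : ∀ x ∈ H, ∀ y ∈ H, f (x * y) = f x * f y)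
    (h1 : Tendsto f (𝓝[H] 1) (𝓝 1)) : ContinuousOn f H := fun x hx => by
  have h2 : Tendsto (fun y => x⁻¹ * y) (𝓝[H] x) (𝓝[H] 1) := by
    refine tendsto_nhdsWithin_iff.2 ⟨?_, eventually_nhdsWithin_of_forall fun y hy =>
      H.mul_mem (H.inv_mem hx) hy⟩
    rw [← inv_mul_cancel x]
    exact ((continuous_const.mul continuous_id).tendsto x).mono_left nhdsWithin_le_nhds
  have h3 := (tendsto_const_nhds (x := f x)).mul (h1.comp h2)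
  rw [mul_one] at h3
  refine h3.congr' (eventually_nhdsWithin_of_forall fun y hy => ?_)
  show f x * f (x⁻¹ * y) = f y
  rw [← hm x hx _ (H.mul_mem (H.inv_mem hx) hy), mul_inv_cancel_left]

namespace Fl

variable (h : Fl F)
include h

theorem Nm_iff {θ : Finset (Fin r)} {g : G} : g ∈ F.Nm θ ↔ g ∈ F.Pm θ ∧ ∀ j ∈ θ, ‖F.Δ j g‖ = 1 :=
  ⟨fun hg => ⟨Nm_le_Pm θ hg, fun j hj => by
    obtain ⟨d, h1, hd⟩ := hg j hj
    rw [FlD.Δ, hd, h.φv, mul_one, h1]⟩,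
    fun hg j hj => ⟨_, hg.2 j hj, h.Pm_iff.1 hg.1 j hj⟩⟩

theorem um_mem_Nm {u : G} (hu : u ∈ F.Um) (θ : Finset (Fin r)) : u ∈ F.Nm θ :=
  fun j _ => ⟨1, norm_one, fun x => by rw [h.umφ u hu, one_mul]⟩

theorem M_le_Nm (θ : Finset (Fin r)) : F.M ≤ F.Nm θ := fun z hz =>
  h.Nm_iff.2 ⟨h.z_mem_Pm hz.1 θ, fun j _ => (h.N_iff.1 hz.2).2 j (Finset.mem_univ j)⟩

theorem M_le_N (θ : Finset (Fin r)) : F.M ≤ F.N θ := fun z hz => N_anti (Finset.subset_univ θ) hz.2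

theorem Nm_univ {g : G} : g ∈ F.Nm Finset.univ ↔ ∃ z ∈ F.M, ∃ u ∈ F.Um, g = z * u := by
  refine ⟨fun hg => ?_, ?_⟩
  · obtain ⟨u, hu, z, hz, e⟩ := h.Pm_univ.1 (Nm_le_Pm _ hg)
    refine ⟨z, ⟨hz, h.N_iff.2 ⟨h.z_mem_P hz _, fun j hj => ?_⟩⟩, z⁻¹ * u * z⁻¹⁻¹,
      h.zum _ (F.Z.inv_mem hz) u hu, by rw [e]; group⟩
    rw [← h.Δ_um hu, ← e]
    exact (h.Nm_iff.1 hg).2 j hj
  · rintro ⟨z, hz, u, hu, rfl⟩
    exact (F.Nm _).mul_mem (h.M_le_Nm _ hz) (h.um_mem_Nm hu _)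

theorem isClosed_Nm (θ : Finset (Fin r)) : IsClosed (F.Nm θ : Set G) := by
  have : (F.Nm θ : Set G) = (F.Pm θ : Set G) ∩ ⋂ j ∈ θ, {g | ‖F.Δ j g‖ = 1} := by
    ext g; simp only [SetLike.mem_coe, h.Nm_iff, Set.mem_inter_iff, Set.mem_iInter, Set.mem_setOf_eq]
  rw [this]
  exact (h.isClosed_Pm θ).inter
    (isClosed_biInter fun j _ => isClosed_eq (h.contΔ j).norm continuous_const)

theorem Ω_mul_P {g p : G} (hp : p ∈ F.P Finset.univ) : g * p ∈ F.Ω ↔ g ∈ F.Ω :=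
  forall_congr' fun j => by
    rw [h.Δ_P hp (Finset.mem_univ j), mul_ne_zero_iff_right (h.Δ_ne_P hp (Finset.mem_univ j))]

theorem Pm_mul_Ω {g p : G} (hp : p ∈ F.Pm Finset.univ) : p * g ∈ F.Ω ↔ g ∈ F.Ω :=
  forall_congr' fun j => by
    rw [h.Δ_Pm hp (Finset.mem_univ j), mul_ne_zero_iff_left (h.Δ_ne_Pm hp (Finset.mem_univ j))]

theorem ℓ_N {p : G} (hp : p ∈ F.N Finset.univ) (g : G) : F.ℓ (g * p) = F.ℓ g := by
  rw [FlD.ℓ, FlD.ℓ]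
  congr 1
  funext j
  rw [h.Δ_P (N_le_P _ hp) (Finset.mem_univ j), norm_mul, (h.N_iff.1 hp).2 j (Finset.mem_univ j),
    mul_one]

theorem ℓ_Nm {p : G} (hp : p ∈ F.Nm Finset.univ) (g : G) : F.ℓ (p * g) = F.ℓ g := by
  rw [FlD.ℓ, FlD.ℓ]
  congr 1
  funext j
  rw [h.Δ_Pm (Nm_le_Pm _ hp) (Finset.mem_univ j), norm_mul, (h.Nm_iff.1 hp).2 j (Finset.mem_univ j),
    one_mul]

theorem ht'_Nm {θ : Finset (Fin r)} {p : G} (hp : p ∈ F.Nm θ) {j : Fin r} (hj : j ∈ θ) (g : G) :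
    F.ht' (p * g) j = F.ht' g j := by
  obtain ⟨d, h1, hd⟩ := hp j hj
  have h2 : (F.φ j).comp (F.V j (p * g)) = d • (F.φ j).comp (F.V j g) := by
    ext y
    rw [ContinuousLinearMap.comp_apply, V_mul, hd]; rfl
  rw [FlD.ht', h2, norm_smul, h1, one_mul]; rfl

/-- the pairing is bounded by the heights -/
theorem norm_Δ_le (j : Fin r) (y x : G) : ‖F.Δ j (y * x)‖ ≤ Real.exp (F.ht' y j + F.ht x j) := by
  rw [Real.exp_add, h.exp_ht, h.exp_ht', FlD.Δ, V_mul]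
  exact ((F.φ j).comp (F.V j y)).le_opNorm _

theorem ℓ_bdd {Q : Set G} (hQ : IsCompact Q) (hΩ : Q ⊆ F.Ω) :
    ∃ B : ℝ, 1 ≤ B ∧ ∀ z ∈ Q, ‖F.ℓ z‖ ≤ B := by
  obtain ⟨B, hB, hB'⟩ := cpt_up hQ (fun (_ : Unit) z => ‖F.ℓ z‖)
    fun _ => (h.contOn_ℓ.mono hΩ).norm
  exact ⟨B, hB, hB' ()⟩

theorem ℓ_zero_of_bdd {z : G} (hz : z ∈ F.Z) {Q : Set G} (hQ : IsCompact Q) (hn : ∀ n : ℕ, z ^ n ∈ Q) :
    F.ℓ z = 0 := by
  obtain ⟨B, -, hB⟩ := h.ℓ_bdd (hQ.inter_right h.clZ) fun x hx => h.z_mem hx.2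
  by_contra hne
  have h0 := norm_pos_iff.2 hne
  obtain ⟨n, hn'⟩ := exists_nat_gt (B / ‖F.ℓ z‖)
  have h1 := hB _ ⟨hn n, F.Z.pow_mem hz n⟩
  rw [h.ℓ_pow hz, norm_smul, Real.norm_natCast] at h1
  exact absurd ((div_lt_iff₀ h0).1 hn') (not_lt.2 h1)

theorem M_conj {q : G} (hq : ∀ z ∈ F.Z, q * z * q⁻¹ ∈ F.Z) {m : G} (hm : m ∈ F.M) :
    q * m * q⁻¹ ∈ F.M :=
  h.mem_M.2 ⟨hq m hm.1, h.ℓ_zero_of_bdd (hq m hm.1)
    (h.cpt_M.image (f := fun x => q * x * q⁻¹) (by fun_prop)) fun n =>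
      ⟨m ^ n, F.M.pow_mem hm n, conj_pow.symm⟩⟩

theorem M_normal {z m : G} (hz : z ∈ F.Z) (hm : m ∈ F.M) : z * m * z⁻¹ ∈ F.M :=
  h.M_conj (fun w hw => F.Z.mul_mem (F.Z.mul_mem hz hw) (F.Z.inv_mem hz)) hm

theorem z_conj_N {z p : G} (hz : z ∈ F.Z) (hp : p ∈ F.N Finset.univ) :
    z * p * z⁻¹ ∈ F.N Finset.univ := by
  obtain ⟨m, hm, u, hu, rfl⟩ := h.N_univ.1 hp
  exact h.N_univ.2 ⟨_, h.M_normal hz hm, _, h.zup z hz u hu, by group⟩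

theorem mem_M_of_ℓ {z z' : G} (hz : z ∈ F.Z) (hz' : z' ∈ F.Z) (e : F.ℓ z = F.ℓ z') :
    z⁻¹ * z' ∈ F.M :=
  h.mem_M.2 ⟨F.Z.mul_mem (F.Z.inv_mem hz) hz', by
    rw [h.ℓ_mul (F.Z.inv_mem hz) hz', h.ℓ_inv hz, e, neg_add_cancel]⟩

/-- an additive function on `Z`, bounded on compact sets, which vanishes on the coweights is zero -/
theorem add_ext {f : G → ℝ} (hf : ∀ a ∈ F.Z, ∀ b ∈ F.Z, f (a * b) = f a + f b)
    (hb : ∀ Q : Set G, IsCompact Q → Q ⊆ F.Z → ∃ B, ∀ z ∈ Q, |f z| ≤ B) (h0 : ∀ i, f (F.b i) = 0)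
    {z : G} (hz : z ∈ F.Z) : f z = 0 := by
  let φ : F.Z →* Multiplicative ℝ := MonoidHom.mk' (fun z => Multiplicative.ofAdd (f z))
    fun a b => by rw [Subgroup.coe_mul, hf a a.2 b b.2]; rfl
  have h1 : ∀ t, f (F.a t) = 0 := fun t => by
    have h2 : ∀ s : Finset (Fin r), f (F.a (∑ i ∈ s, Pi.single i (t i))) = 0 := fun s => by
      induction s using Finset.induction_on with
      | empty =>
        rw [Finset.sum_empty, h.a_zero]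
        exact congrArg Multiplicative.toAdd (map_one φ)
      | insert i s hi ih =>
        rw [Finset.sum_insert hi, h.a_add, hf _ (h.a_mem _) _ (h.a_mem _), ih, add_zero, h.a_single]
        have h3 := congrArg Multiplicative.toAdd (map_zpow φ ⟨_, h.bZ i⟩ (t i))
        rw [toAdd_zpow] at h3
        exact h3.trans (by show t i • f (F.b i) = 0; rw [h0, smul_zero])
    have h3 := h2 Finset.univ
    rwa [Finset.univ_sum_single] at h3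
  obtain ⟨B, hB⟩ := hb _ (h.zprop F.β) fun x hx => hx.1
  have h2 : ∀ w ∈ F.Z, |f w| ≤ B := fun w hw => by
    have h3 := hB _ (h.z_dec hw)
    rwa [← h.a_neg, hf _ (h.a_mem _) w hw, h1, zero_add] at h3
  by_contra hne
  have h3 := abs_pos.2 hne
  obtain ⟨n, hn⟩ := exists_nat_gt (B / |f z|)
  have h4 := congrArg Multiplicative.toAdd (map_pow φ ⟨z, hz⟩ n)
  rw [toAdd_pow] at h4
  have h5 : f (z ^ n) = n • f z := h4
  have h6 := h2 _ (F.Z.pow_mem hz n)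
  rw [h5, nsmul_eq_mul, abs_mul, Nat.abs_cast] at h6
  exact absurd ((div_lt_iff₀ h3).1 hn) (not_lt.2 h6)

/-- an element of the normaliser of `Z` which preserves a regular direction is in `Z` -/
theorem Z_of_norm {q z : G} (hz : z ∈ F.Z) (hq : q * z * q⁻¹ ∈ F.Z)
    (hc : ∀ w ∈ F.Z, z * w = w * z) (hp : ∀ i, 0 < F.ℓ z i) (e : F.ℓ (q * z * q⁻¹) = F.ℓ z) :
    q ∈ F.Z := by
  have hd : F.Dom z := ⟨hz, fun i => (hp i).le⟩
  have h1 := h.mem_M_of_ℓ hz hq e.symm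
  set m := z⁻¹ * (q * z * q⁻¹) with hm
  have h2 : ∀ n : ℕ, q * z ^ n * q⁻¹ = z ^ n * m ^ n := fun n => by
    rw [← conj_pow, ← Commute.mul_pow (hc m h1.1), hm, mul_inv_cancel_left]
  have hQ := h.cpt_M.image (f := fun x => x * q) (by fun_prop)
  refine h.P_inf_Pm (fun j _ => ⟨_, h.fix_of_bdd (Eventually.of_forall (h.dom_pow hd))
    (h.tendsto_pow hz (hp j)) hQ (Eventually.of_forall fun n => ⟨m ^ n, F.M.pow_mem h1 n, ?_⟩)⟩)
    fun j _ => ⟨_, h.fix_of_bdd' (Eventually.of_forall (h.dom_pow hd)) (h.tendsto_pow hz (hp j)) hQ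
      (Eventually.of_forall fun n => ⟨(m ^ n)⁻¹, F.M.inv_mem (F.M.pow_mem h1 n), ?_⟩)⟩
  · show m ^ n * q = _
    rw [← inv_mul_cancel_left (z ^ n) (m ^ n), ← h2]; group
  · show (m ^ n)⁻¹ * q = _
    have h3 : z ^ n * m ^ n = m ^ n * z ^ n := ((Commute.pow_pow (hc m h1.1) n n)).eq
    rw [← mul_inv_cancel_right (m ^ n) (z ^ n), ← h3, ← h2]; group

theorem n₀_sq : F.n₀ * F.n₀ ∈ F.Z := by
  have hz := h.cb_mem Finset.univ
  have e : F.n₀ * F.n₀ * F.cb Finset.univ * (F.n₀ * F.n₀)⁻¹ =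
      F.n₀ * (F.n₀ * F.cb Finset.univ * F.n₀⁻¹) * F.n₀⁻¹ := by group
  refine h.Z_of_norm hz (e ▸ (h.n₀Z _).1 ((h.n₀Z _).1 hz)) (fun w hw => h.a_comm _ hw)
    (fun i => h.ℓ_cb_pos (Finset.mem_univ i)) ?_
  funext i
  rw [e, ← F.ι.apply_symm_apply i, h.n₀ℓ _ ((h.n₀Z _).1 hz), ← F.ι.apply_symm_apply (F.ι.symm i),
    h.n₀ℓ _ hz, neg_neg, h.ℓ_cb, h.ℓ_cb, if_pos (Finset.mem_univ _), if_pos (Finset.mem_univ _)]

theorem ℓ_conj {z g : G} (hz : z ∈ F.Z) : F.ℓ (z * g * z⁻¹) = F.ℓ g := by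
  simp only [FlD.ℓ, h.Δ_conj' hz]

theorem ι_ι (i : Fin r) : F.ι (F.ι i) = i := by
  have h1 := h.n₀ℓ _ ((h.n₀Z _).1 (h.bZ i)) (F.ι i)
  rw [h.n₀ℓ _ (h.bZ i), neg_neg, show F.n₀ * (F.n₀ * F.b i * F.n₀⁻¹) * F.n₀⁻¹ =
    F.n₀ * F.n₀ * F.b i * (F.n₀ * F.n₀)⁻¹ by group, h.ℓ_conj h.n₀_sq, h.bℓ, Pi.single_eq_same] at h1
  by_contra hne
  rw [Pi.single_eq_of_ne hne] at h1
  exact h.β_pos.ne h1

/-- properness of `g ↦ (g M U⁺, g M U⁻)` -/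
theorem cpt_ht [T2Space G] (R : ℝ) : IsCompact {g | ∀ j, F.ht g j ≤ R ∧ F.ht' g⁻¹ j ≤ R} := by
  obtain ⟨C, hC, hg⟩ := h.iwa
  obtain ⟨D, hD, hD'⟩ := h.len_cpt hC
  obtain ⟨B, hB, hB'⟩ := h.ht_bound
  obtain ⟨A, hA, hA'⟩ := F.co_bound
  let T := |R| + D + B
  have hT : 0 ≤ T := by positivity
  refine ((hC.prod ((h.up_proper (Real.exp (2 * T))).prod (h.zprop (A * T)))).image
    (f := fun q : G × G × G => q.1 * q.2.1⁻¹ * q.2.2) (by fun_prop)).of_isClosed_subset ?_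
    fun g hR => ?_
  · rw [Set.setOf_forall]
    exact isClosed_iInter fun j => (isClosed_le ((continuous_apply j).comp h.cont_ht)
      continuous_const).inter (isClosed_le ((continuous_apply j).comp
        (h.cont_ht'.comp continuous_inv)) continuous_const)
  obtain ⟨x, hx, z, hz, u, hu, rfl⟩ := hg g
  have hw := h.zup z hz _ (F.Up.inv_mem hu)
  have h1 : ∀ j, F.ω (F.ℓ z) j ≤ T := fun j => by
    have h2 := (hR j).1
    rw [h.ht_up hu, h.ht_z hz, Pi.add_apply] at h2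
    linarith [(abs_le.1 (hB' x j).1).1, hD' x hx, le_abs_self R]
  have h2 : ∀ j, -F.ω (F.ℓ z) j + F.ht' (z * u⁻¹ * z⁻¹) j ≤ |R| + D := fun j => by
    have h3 := (abs_le.1 (h.ht'_lip (x * z * u)⁻¹ x j)).2
    rw [show (x * z * u)⁻¹ * x = z⁻¹ * (z * u⁻¹ * z⁻¹) by group, h.ht'_z (F.Z.inv_mem hz),
      h.ℓ_inv hz, ω_neg, Pi.add_apply, Pi.neg_apply] at h3
    linarith [(hR j).2, hD' x hx, le_abs_self R]
  have h3 : ∀ j, -B ≤ F.ht' (z * u⁻¹ * z⁻¹) j := fun j => by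
    have h4 := h.norm_Δ_le j (z * u⁻¹ * z⁻¹) 1
    rw [mul_one, h.Δ_of_up hw, norm_one, Real.one_le_exp_iff] at h4
    have h5 := (abs_le.1 (hB' 1 j).1).2
    rw [h.len_one] at h5
    linarith
  refine ⟨(x, z * u⁻¹ * z⁻¹, z), ⟨hx, ⟨hw, fun j => ?_⟩, hz, fun i => ?_⟩, by group⟩
  · rw [← h.exp_ht', Real.exp_le_exp]
    linarith [h1 j, h2 j]
  · refine le_trans (norm_le_pi_norm (F.ℓ z) i) ?_
    rw [← h.co_ω (F.ℓ z)]
    refine (hA' _).trans (mul_le_mul_of_nonneg_left ?_ (by linarith))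
    refine (pi_norm_le_iff_of_nonneg hT).2 fun j => abs_le.2 ⟨?_, h1 j⟩
    linarith [h2 j, h3 j]

variable [T2Space G]

theorem n₀_P {θ : Finset (Fin r)} {g : G} (hg : g ∈ F.P θ) :
    F.n₀ * g * F.n₀⁻¹ ∈ F.Pm (θ.image F.ι) := fun j hj => by
  obtain ⟨i, hi, rfl⟩ := Finset.mem_image.1 hj
  obtain ⟨l, hl, u, hu, rfl⟩ := h.levi hg
  refine ⟨_, h.fix_of_bdd' (l := atTop)
    (Eventually.of_forall fun n => h.n₀_dom (h.dom_pow (h.cb_dom θ) n)) ?_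
    ((h.levi_lim hl hu).isCompact_insert_range.image (f := fun x => F.n₀ * x * F.n₀⁻¹) (by fun_prop))
    (Eventually.of_forall fun n => ⟨_, Set.mem_insert_of_mem _ ⟨n, rfl⟩, by group⟩)⟩
  simp only [h.ℓ_n₀ (F.Z.pow_mem (h.cb_mem θ) _)]
  exact h.tendsto_pow (h.cb_mem θ) (h.ℓ_cb_pos hi)

theorem n₀_Pm {θ : Finset (Fin r)} {g : G} (hg : g ∈ F.Pm θ) :
    F.n₀ * g * F.n₀⁻¹ ∈ F.P (θ.image F.ι) := fun j hj => by
  obtain ⟨i, hi, rfl⟩ := Finset.mem_image.1 hj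
  obtain ⟨l, hl, u, hu, rfl⟩ := h.levi' hg
  refine ⟨_, h.fix_of_bdd (l := atTop)
    (Eventually.of_forall fun n => h.n₀_dom (h.dom_pow (h.cb_dom θ) n)) ?_
    ((h.levi_lim' hl hu).isCompact_insert_range.image (f := fun x => F.n₀ * x * F.n₀⁻¹) (by fun_prop))
    (Eventually.of_forall fun n => ⟨_, Set.mem_insert_of_mem _ ⟨n, rfl⟩, by group⟩)⟩
  simp only [h.ℓ_n₀ (F.Z.pow_mem (h.cb_mem θ) _)]
  exact h.tendsto_pow (h.cb_mem θ) (h.ℓ_cb_pos hi)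

theorem n₀_L {θ : Finset (Fin r)} {g : G} (hg : g ∈ F.L θ) :
    F.n₀ * g * F.n₀⁻¹ ∈ F.L (θ.image F.ι) :=
  h.L_iff.2 ⟨h.n₀_Pm (h.L_le_Pm θ hg), h.n₀_P (h.L_le_P θ hg)⟩

theorem lp_eq {θ : Finset (Fin r)} {l u : G} (hl : l ∈ F.L θ) (hu : u ∈ F.U θ) :
    F.lp θ (l * u) = l := (h.levi_lim hl hu).limUnder_eq

theorem lp'_eq {θ : Finset (Fin r)} {l u : G} (hl : l ∈ F.L θ) (hu : u ∈ F.U' θ) :
    F.lp' θ (l * u) = l := (h.levi_lim' hl hu).limUnder_eq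

theorem lp_spec {θ : Finset (Fin r)} {g : G} (hg : g ∈ F.P θ) :
    F.lp θ g ∈ F.L θ ∧ (F.lp θ g)⁻¹ * g ∈ F.U θ ∧
      Tendsto (fun n : ℕ => (F.cb θ ^ n)⁻¹ * g * F.cb θ ^ n) atTop (𝓝 (F.lp θ g)) := by
  obtain ⟨l, hl, u, hu, rfl⟩ := h.levi hg
  rw [h.lp_eq hl hu, inv_mul_cancel_left]
  exact ⟨hl, hu, h.levi_lim hl hu⟩

theorem lp'_spec {θ : Finset (Fin r)} {g : G} (hg : g ∈ F.Pm θ) :
    F.lp' θ g ∈ F.L θ ∧ (F.lp' θ g)⁻¹ * g ∈ F.U' θ ∧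
      Tendsto (fun n : ℕ => F.cb θ ^ n * g * (F.cb θ ^ n)⁻¹) atTop (𝓝 (F.lp' θ g)) := by
  obtain ⟨l, hl, u, hu, rfl⟩ := h.levi' hg
  rw [h.lp'_eq hl hu, inv_mul_cancel_left]
  exact ⟨hl, hu, h.levi_lim' hl hu⟩

theorem lp_L {θ : Finset (Fin r)} {l : G} (hl : l ∈ F.L θ) : F.lp θ l = l := by
  simpa using h.lp_eq hl (F.U θ).one_mem

theorem lp'_L {θ : Finset (Fin r)} {l : G} (hl : l ∈ F.L θ) : F.lp' θ l = l := by
  simpa using h.lp'_eq hl (F.U' θ).one_mem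

theorem lp_mul {θ : Finset (Fin r)} {g g' : G} (hg : g ∈ F.P θ) (hg' : g' ∈ F.P θ) :
    F.lp θ (g * g') = F.lp θ g * F.lp θ g' :=
  (((h.lp_spec hg).2.2.mul (h.lp_spec hg').2.2).congr fun n => by group).limUnder_eq

theorem lp'_mul {θ : Finset (Fin r)} {g g' : G} (hg : g ∈ F.Pm θ) (hg' : g' ∈ F.Pm θ) :
    F.lp' θ (g * g') = F.lp' θ g * F.lp' θ g' :=
  (((h.lp'_spec hg).2.2.mul (h.lp'_spec hg').2.2).congr fun n => by group).limUnder_eq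

theorem lp_up {θ : Finset (Fin r)} {u : G} (hu : u ∈ F.Up) : F.lp θ u ∈ F.Up :=
  h.clUp.mem_of_tendsto (h.lp_spec (h.up_mem_P hu θ)).2.2 (Eventually.of_forall fun n => by
    simpa using h.zup _ (F.Z.inv_mem (F.Z.pow_mem (h.cb_mem θ) n)) u hu)

theorem lp'_um {θ : Finset (Fin r)} {u : G} (hu : u ∈ F.Um) : F.lp' θ u ∈ F.Um :=
  h.clUm.mem_of_tendsto (h.lp'_spec (h.um_mem_Pm hu θ)).2.2 (Eventually.of_forall fun n =>
    h.zum _ (F.Z.pow_mem (h.cb_mem θ) n) u hu)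

theorem um_P_L {θ : Finset (Fin r)} {u : G} (hu : u ∈ F.Um) (hp : u ∈ F.P θ) : u ∈ F.L θ :=
  h.L_iff.2 ⟨hp, h.um_mem_Pm hu θ⟩

theorem up_Pm_L {θ : Finset (Fin r)} {u : G} (hu : u ∈ F.Up) (hp : u ∈ F.Pm θ) : u ∈ F.L θ :=
  h.L_iff.2 ⟨h.up_mem_P hu θ, hp⟩

theorem lp_cont_up (θ : Finset (Fin r)) : ContinuousOn (F.lp θ) F.Up := by
  refine contOn_of_hom (fun x hx y hy => h.lp_mul (h.up_mem_P hx θ) (h.up_mem_P hy θ)) ?_
  refine ((closed_nhds_basis (1 : G)).tendsto_right_iff).2 fun N hN => ?_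
  obtain ⟨N', hN', hh⟩ := h.up_small hN.1
  filter_upwards [nhdsWithin_le_nhds hN', self_mem_nhdsWithin] with u hu hu'
  exact hN.2.mem_of_tendsto (h.lp_spec (h.up_mem_P hu' θ)).2.2
    (Eventually.of_forall fun n => hh _ (h.dom_pow (h.cb_dom θ) n) u hu hu')

theorem lp'_cont_um (θ : Finset (Fin r)) : ContinuousOn (F.lp' θ) F.Um := by
  refine contOn_of_hom (fun x hx y hy => h.lp'_mul (h.um_mem_Pm hx θ) (h.um_mem_Pm hy θ)) ?_
  refine ((closed_nhds_basis (1 : G)).tendsto_right_iff).2 fun N hN => ?_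
  obtain ⟨N', hN', hh⟩ := h.um_small hN.1
  filter_upwards [nhdsWithin_le_nhds hN', self_mem_nhdsWithin] with u hu hu'
  exact hN.2.mem_of_tendsto (h.lp'_spec (h.um_mem_Pm hu' θ)).2.2
    (Eventually.of_forall fun n => hh _ (h.dom_pow (h.cb_dom θ) n) u hu hu')

theorem lo_mem_P {θ : Finset (Fin r)} {g : G} (hg : g ∈ F.Ω) (hp : g ∈ F.P θ) : F.lo g ∈ F.L θ := by
  refine h.um_P_L (h.lo_mem g hg) ?_
  rw [show F.lo g = g * (F.up g)⁻¹ * (F.md g)⁻¹ by rw [FlD.md]; group]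
  exact (F.P θ).mul_mem ((F.P θ).mul_mem hp ((F.P θ).inv_mem (h.up_mem_P (h.up_mem g hg) θ)))
    ((F.P θ).inv_mem (h.z_mem_P (h.md_mem hg) θ))

theorem up_mem_Pm {θ : Finset (Fin r)} {g : G} (hg : g ∈ F.Ω) (hp : g ∈ F.Pm θ) :
    F.up g ∈ F.L θ := by
  refine h.up_Pm_L (h.up_mem g hg) ?_
  rw [show F.up g = (F.md g)⁻¹ * (F.lo g)⁻¹ * g by rw [FlD.md]; group]
  exact (F.Pm θ).mul_mem ((F.Pm θ).mul_mem ((F.Pm θ).inv_mem (h.z_mem_Pm (h.md_mem hg) θ))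
    ((F.Pm θ).inv_mem (h.um_mem_Pm (h.lo_mem g hg) θ))) hp

theorem cell_at_one : Tendsto F.lo (𝓝 1) (𝓝 1) ∧ Tendsto F.md (𝓝 1) (𝓝 1) ∧
    Tendsto F.up (𝓝 1) (𝓝 1) := by
  have h0 := h.isOpen_Ω.mem_nhds h.one_mem
  have h1 := (h.lo_cont.continuousAt h0).tendsto
  have h2 := (h.md_cont.continuousAt h0).tendsto
  have h3 := (h.up_cont.continuousAt h0).tendsto
  rw [h.cell_of_one.1] at h1
  rw [h.cell_of_one.2.1] at h2
  rw [h.cell_of_one.2.2] at h3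
  exact ⟨h1, h2, h3⟩

theorem lp_cont (θ : Finset (Fin r)) : ContinuousOn (F.lp θ) (F.P θ) := by
  refine contOn_of_hom (fun x hx y hy => h.lp_mul hx hy) ?_
  have h0 := h.isOpen_Ω.mem_nhds h.one_mem
  have h1 : Tendsto (fun g => F.lp θ (F.up g)) (𝓝 1) (𝓝 1) := by
    have h2 := (h.lp_cont_up θ 1 F.Up.one_mem).tendsto
    rw [h.lp_L (F.L θ).one_mem] at h2
    exact h2.comp (tendsto_nhdsWithin_iff.2 ⟨h.cell_at_one.2.2,
      mem_of_superset h0 fun g hg => h.up_mem g hg⟩)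
  have h2 := (h.cell_at_one.1.mul h.cell_at_one.2.1).mul h1
  rw [mul_one, mul_one] at h2
  refine (h2.mono_left nhdsWithin_le_nhds).congr' ?_
  filter_upwards [nhdsWithin_le_nhds h0, self_mem_nhdsWithin] with g hg hp
  have h3 := (F.L θ).mul_mem (h.lo_mem_P hg hp) (h.z_mem_L (h.md_mem hg) θ)
  conv_rhs => rw [← F.lo_md_up g, h.lp_mul (h.L_le_P θ h3) (h.up_mem_P (h.up_mem g hg) θ), h.lp_L h3]

theorem lp'_cont (θ : Finset (Fin r)) : ContinuousOn (F.lp' θ) (F.Pm θ) := by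
  refine contOn_of_hom (fun x hx y hy => h.lp'_mul hx hy) ?_
  have h0 := h.isOpen_Ω.mem_nhds h.one_mem
  have h1 : Tendsto (fun g => F.lp' θ (F.lo g)) (𝓝 1) (𝓝 1) := by
    have h2 := (h.lp'_cont_um θ 1 F.Um.one_mem).tendsto
    rw [h.lp'_L (F.L θ).one_mem] at h2
    exact h2.comp (tendsto_nhdsWithin_iff.2 ⟨h.cell_at_one.1,
      mem_of_superset h0 fun g hg => h.lo_mem g hg⟩)
  have h2 := h1.mul (h.cell_at_one.2.1.mul h.cell_at_one.2.2)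
  rw [mul_one, mul_one] at h2
  refine (h2.mono_left nhdsWithin_le_nhds).congr' ?_
  filter_upwards [nhdsWithin_le_nhds h0, self_mem_nhdsWithin] with g hg hp
  have h3 := (F.L θ).mul_mem (h.z_mem_L (h.md_mem hg) θ) (h.up_mem_Pm hg hp)
  conv_rhs => rw [← F.lo_md_up g, mul_assoc,
    h.lp'_mul (h.um_mem_Pm (h.lo_mem g hg) θ) (h.L_le_Pm θ h3), h.lp'_L h3]

theorem isClosed_L (θ : Finset (Fin r)) : IsClosed (F.L θ : Set G) :=
  by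
  have e : (F.L θ : Set G) = (F.P θ : Set G) ∩ F.Pm θ := Set.ext fun _ => h.L_iff
  rw [e]
  exact (h.isClosed_P θ).inter (h.isClosed_Pm θ)

theorem isClosed_U (θ : Finset (Fin r)) : IsClosed (F.U θ : Set G) := by
  have e : (F.U θ : Set G) = (F.P θ : Set G) ∩ F.lp θ ⁻¹' {1} := by
    ext u
    refine ⟨fun hu => ⟨h.up_mem_P (h.U_le_Up θ hu) θ, ?_⟩, fun hu => ?_⟩
    · simpa using h.lp_eq (F.L θ).one_mem hu
    · have h1 := (h.lp_spec hu.1).2.1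
      rwa [show F.lp θ u = 1 from hu.2, inv_one, one_mul] at h1
  rw [e]
  exact (h.lp_cont θ).preimage_isClosed_of_isClosed (h.isClosed_P θ) isClosed_singleton

theorem isClosed_U' (θ : Finset (Fin r)) : IsClosed (F.U' θ : Set G) := by
  have e : (F.U' θ : Set G) = (F.Pm θ : Set G) ∩ F.lp' θ ⁻¹' {1} := by
    ext u
    refine ⟨fun hu => ⟨h.um_mem_Pm (h.U'_le_Um θ hu) θ, ?_⟩, fun hu => ?_⟩
    · simpa using h.lp'_eq (F.L θ).one_mem hu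
    · have h1 := (h.lp'_spec hu.1).2.1
      rwa [show F.lp' θ u = 1 from hu.2, inv_one, one_mul] at h1
  rw [e]
  exact (h.lp'_cont θ).preimage_isClosed_of_isClosed (h.isClosed_Pm θ) isClosed_singleton

end Fl

end Vale.Agent.P092GK
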