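import Vale.Agent.P092GK.Vc
import Vale.Agent.P092HR.Defs

/-!
P092, higher rank (helper83): block VOL.
-/

set_option linter.all false

open scoped InnerProductSpace ENNReal NNReal Pointwise
open MeasureTheory Filter Topology ContinuousLinearMap Set

namespace Vale.Agent.P092GK

open Vale.Agent.P092CP Vale.Agent.P092RD Vale.Agent.P092HR FlD

variable {k : Type} [NontriviallyNormedField k] [ProperSpace k] {G K : Type} [Group G]
  [TopologicalSpace G] [IsTopologicalGroup G] [LocallyCompactSpace G] [SecondCountableTopology G]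
  [T2Space G] [MeasurableSpace G] [BorelSpace G] [NormedAddCommGroup K] [InnerProductSpace ℂ K]
  [CompleteSpace K] {μ : Measure G} [μ.IsHaarMeasure] {W : Set (K →L[ℂ] K)} {r : ℕ}
  {F : FlD k G r} {C : Cpl μ μ W} {z : ℕ → G} {L : Aa r →ₗ[ℝ] Aa r} {kl : G → G}
  {E : POM (YY F) K}

theorem good_P (h : Fl F) (x : Aa r) (R : ℝ) {ξ : K} (h1 : ‖ξ‖ = 1) {ε : ℝ}
    (h2 : ‖C.t.P {g | R < ‖F.κ g - x‖} ξ‖ ≤ ε) : 1 - ε ≤ ‖C.t.P {g | ‖F.κ g - x‖ ≤ R} ξ‖ := by
  have c : Continuous fun g => ‖F.κ g - x‖ := (h.cont_κ.sub continuous_const).norm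
  have := one_le_P C.t (isOpen_lt (continuous_const (y := R)) c).measurableSet
    (isClosed_le c (continuous_const (y := R))).measurableSet (fun g hg => show ‖F.κ g - x‖ ≤ R from not_lt.1 hg) ξ
  rw [h1] at this
  exact le_trans (sub_le_sub_left h2 1) (sub_le_iff_le_add'.2 this)

theorem far_p1 (h : Fl F) (p : P1 F C z L kl E) (i : Fin r) :
    Tendsto (fun n => L (F.ℓ (z n)) i) atTop atTop := by
  obtain ⟨R, h1⟩ := p.tight {1} isCompact_singleton _ (by norm_num : (0 : ℝ) < 1 / 4)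
  refine tendsto_atTop.2 fun b => ?_
  filter_upwards [h1 1 F.Z.one_mem, p.wall (b + R) {1} isCompact_singleton (C.s.π F.n₀ C.t.Ω) _
    (by norm_num : (0 : ℝ) < 1 / 4)] with n h2 h3
  by_contra h4
  have h5 := h2 1 rfl
  have h6 := h3 1 rfl
  rw [zero_apply, map_zero, sub_zero, ← mul_ap (C.s.π _), ← map_mul] at h6
  simp only [one_mul] at h5 h6
  have m : MeasurableSet (P092BF.Far F.κ (b + R)) := by
    rw [P092BF.Far, setOf_forall]
    exact .iInter fun j => (isClosed_le continuous_const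
      ((continuous_apply j).comp h.cont_κ)).measurableSet
  have h7 := one_le_P C.t (isOpen_lt (continuous_const (y := R)) (h.cont_κ.sub
    (continuous_const (y := L (F.ℓ (z n))))).norm).measurableSet m.compl (fun x hx e => h4 (by
      have h8 := (abs_le.1 ((norm_le_pi_norm (F.κ x - L (F.ℓ (z n))) i).trans (not_lt.1 hx))).2
      rw [Pi.sub_apply] at h8
      linarith [e i])) (C.s.π ((z n)⁻¹ * F.n₀) C.t.Ω)
  rw [C.s.norm_π, C.t.nΩ] at h7
  exact absurd (h7.trans (add_le_add h5 h6)) (by norm_num)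

/-- the volume defect is bounded below on all the translates of the path -/
theorem def_p1 (h : Fl F) (p : P1 F C z L kl E) : ∃ D : ℝ, ∀ a ∈ F.Z, ∀ᶠ n in atTop,
    F.ρ (F.ℓ (a * z n)) ≤ F.ρ (L (F.ℓ (a * z n))) + D := by
  haveI := C.s.right
  obtain ⟨V, h1, h2⟩ := exists_compact_mem_nhds (1 : G)
  obtain ⟨R, h3⟩ := p.tight _ (h1.image (continuous_mul_const F.n₀⁻¹)) _ one_half_pos
  obtain ⟨D, h4⟩ := vol_ineq C h h h2 one_half_pos R
  refine ⟨D, fun a ha => (h3 a ha).mono fun n hn => ?_⟩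
  have h5 : F.n₀ * (F.n₀⁻¹ * (a * z n)⁻¹ * F.n₀) * F.n₀⁻¹ = (a * z n)⁻¹ := by group
  have h6 := F.Z.mul_mem ha (p.dom n).1
  have h7 := (h.n₀Z _).2 (h5.symm ▸ F.Z.inv_mem h6)
  have h8 := h.ℓ_n₀B (h.z_mem_P h7 _)
  rw [h5, h.ℓ_inv h6, neg_inj] at h8
  refine le_trans (le_of_eq ?_) (h4 _ h7 _ fun q hq => le_trans (by norm_num) (good_P h _ R
    ((C.s.norm_π _ _).trans C.t.nΩ) (ε := 1 / 2) ?_))
  · rw [h8, h.ρ_ι μ]
  · have := hn _ ⟨q, hq, rfl⟩
    rwa [show q * F.n₀⁻¹ * (a * z n)⁻¹ * F.n₀ = q * (F.n₀⁻¹ * (a * z n)⁻¹ * F.n₀) by group] at this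

theorem vol_ev (h : Fl F) (p : P1 F C z L kl E) :
    ∀ᶠ n in atTop, F.ρ (F.ℓ (z n)) ≤ F.ρ (L (F.ℓ (z n))) := by
  obtain ⟨D, h1⟩ := def_p1 h p
  rcases h.lin_ev (l := atTop) (x := fun n => F.ℓ (z n)) (F.ρ ∘ₗ L - F.ρ) (D := D) (fun a ha =>
    (h1 a ha).mono fun n hn => by
      rw [← h.ℓ_mul ha (p.dom n).1, LinearMap.sub_apply, LinearMap.comp_apply]
      linarith) with e | e
  · exact .of_forall fun n => (sub_eq_zero.1 (LinearMap.congr_fun e (F.ℓ (z n)))).ge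
  · exact (e.eventually_ge_atTop 0).mono fun n hn => sub_nonneg.1 hn

end Vale.Agent.P092GK

namespace Vale.Agent.P092HR

open Vale.Agent.P092CP Vale.Agent.P092RD Vale.Agent.P092GK

variable {k : Type} [NontriviallyNormedField k] [ProperSpace k] {G K : Type} [Group G]
  [TopologicalSpace G] [IsTopologicalGroup G] [LocallyCompactSpace G] [SecondCountableTopology G]
  [T2Space G] [MeasurableSpace G] [BorelSpace G] [NormedAddCommGroup K] [InnerProductSpace ℂ K]
  [CompleteSpace K] {μ : Measure G} [μ.IsHaarMeasure] {W : Set (K →L[ℂ] K)} {r : ℕ}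
  {F : FlD k G r} {C : Cpl μ μ W} {z : ℕ → G} {L : Aa r →ₗ[ℝ] Aa r} {kl : G → G}
  {E : POM (YY F) K}

/-- **VOL** -/
theorem vol (g : Gr F) (p : P1 F C z L kl E) : Vol F z L :=
  ⟨far_p1 g.fl p, ((eventually_all.2 fun i => (far_p1 g.fl p i).eventually_gt_atTop 0).and
    (vol_ev g.fl p)).exists⟩

end Vale.Agent.P092HR
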