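import Vale.Agent.P092GK.Null
import Vale.Agent.P092EN.Leg

/-!
P092, group package (helper83): north-south dynamics on the flag space.
-/

set_option linter.all false

open Filter Topology MeasureTheory

namespace Vale.Agent.P092GK

variable {k : Type} [NontriviallyNormedField k] {G : Type} [Group G] {r : ℕ} {F : FlD k G r}
  [TopologicalSpace G] [IsTopologicalGroup G] [T2Space G] [ProperSpace k]
  [SecondCountableTopology G] [LocallyCompactSpace G] [MeasurableSpace G] [BorelSpace G]

theorem Fl.ns (h : Fl F) : P092EN.NS G (F.Y Finset.univ) := by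
  refine ⟨fun y y' => MulAction.exists_smul_eq G y y', ⟨F.cb Finset.univ, ((1 : G) : F.Y _),
    fun y => ?_⟩, _, h.cpt_M, fun g hg => h.ker_Y hg⟩
  obtain ⟨x, rfl⟩ := QuotientGroup.mk_surjective y
  filter_upwards [h.ae_Ω Measure.haar 1 x] with g hg
  rw [one_mul] at hg
  exact h.attract (h.cb_mem _) (fun i => h.ℓ_cb_pos (Finset.mem_univ i)) hg _

end Vale.Agent.P092GK
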