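import Vale.Agent.P092GK.Dd
import Vale.Agent.P092GP.Flag

/-!
P092, group package (helper83): the connected split torus over an archimedean field.
-/

set_option linter.all false

open Matrix Filter Topology Set

namespace Vale.Agent.P092GK

open FlD

variable {k : Type} [NontriviallyNormedField k] {G : Type} [Group G] {r : ℕ} {F : FlD k G r}
  [TopologicalSpace G]

/-- a continuous central section of `ℓ` -/
structure Tor (F : FlD k G r) (A : (Fin r → ℝ) → G) : Prop where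
  cont : Continuous A
  add : ∀ x y, A (x + y) = A x * A y
  mem : ∀ x, A x ∈ F.Z
  comm : ∀ x, ∀ z ∈ F.Z, A x * z = z * A x
  ℓ : ∀ x, F.ℓ (A x) = x
  n₀ : ∀ x, F.n₀ * A x * F.n₀⁻¹ = A (-(x ∘ F.ι))

namespace Tor

variable {A : (Fin r → ℝ) → G} (h : Tor F A)
include h

theorem zero : A 0 = 1 := by
  have := h.add 0 0
  rw [add_zero] at this
  exact left_eq_mul.1 this

theorem neg (x : Fin r → ℝ) : A (-x) = (A x)⁻¹ :=
  eq_inv_of_mul_eq_one_left (by rw [← h.add, neg_add_cancel, h.zero])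

theorem sub (x y : Fin r → ℝ) : A (x - y) = A x * (A y)⁻¹ := by
  rw [sub_eq_add_neg, h.add, h.neg]

theorem nsmul (x : Fin r → ℝ) (n : ℕ) : A (n • x) = A x ^ n := by
  induction n with
  | zero => rw [zero_nsmul, h.zero, pow_zero]
  | succ n ih => rw [succ_nsmul, h.add, ih, pow_succ]

theorem surj (x : Fin r → ℝ) : ∃ z ∈ F.Z, F.ℓ z = x := ⟨A x, h.mem x, h.ℓ x⟩

theorem inj : Function.Injective A := fun x y e => by rw [← h.ℓ x, e, h.ℓ]

theorem dom {x : Fin r → ℝ} (hx : 0 ≤ x) : F.Dom (A x) := ⟨h.mem x, fun i => by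
  rw [h.ℓ]; exact hx i⟩

/-- the torus as a homomorphism -/
def hom : Multiplicative (Fin r → ℝ) →* G := MonoidHom.mk' (fun x => A x.toAdd) fun x y => h.add _ _

/-- `Z = A × M` -/
theorem dec (hF : Fl F) {z : G} (hz : z ∈ F.Z) : (A (F.ℓ z))⁻¹ * z ∈ F.M :=
  hF.mem_M.2 ⟨F.Z.mul_mem (F.Z.inv_mem (h.mem _)) hz, by
    rw [hF.ℓ_mul (F.Z.inv_mem (h.mem _)) hz, hF.ℓ_inv (h.mem _), h.ℓ, neg_add_cancel]⟩

theorem isClosedEmbedding [T2Space G] (hF : Fl F) : IsClosedEmbedding A := by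
  refine IsClosedEmbedding.of_continuous_injective_isClosedMap h.cont h.inj fun S hS => ?_
  have e : A '' S = (F.Z : Set G) ∩ (fun z => (F.ℓ z, A (F.ℓ z), z)) ⁻¹' (S ×ˢ Set.diagonal G) := by
    ext z
    refine ⟨?_, fun hz => ⟨_, hz.2.1, hz.2.2⟩⟩
    rintro ⟨x, hx, rfl⟩
    refine ⟨h.mem x, ?_, ?_⟩ <;> simp [h.ℓ, hx]
  have h1 : ContinuousOn F.ℓ F.Z := hF.contOn_ℓ.mono fun z hz => hF.z_mem hz
  rw [e]
  exact (h1.prodMk ((h.cont.comp_continuousOn h1).prodMk continuousOn_id)).preimage_isClosed_of_isClosed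
    hF.clZ (hS.prod isClosed_diagonal)

theorem surj_t {X : Type} [AddCommGroup X] [Module ℝ X] {t : (Fin r → ℝ) →ₗ[ℝ] X}
    (ht : Function.Surjective t) (x : X) : ∃ z ∈ F.Z, t (F.ℓ z) = x := by
  obtain ⟨y, rfl⟩ := ht x
  exact ⟨A y, h.mem y, by rw [h.ℓ]⟩

end Tor

theorem exists_exp (h : P092.UN.LocK k) (hu : ¬ IsUltrametricDist k) :
    ∃ e : ℝ → kˣ, Continuous e ∧ (∀ s t, e (s + t) = e s * e t) ∧
      ∀ t, ‖(e t : k)‖ = Real.exp t := by
  have key : ∀ f : ℝ →+* k, (∀ x, ‖f x‖ = ‖x‖) → ∃ e : ℝ → kˣ, Continuous e ∧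
      (∀ s t, e (s + t) = e s * e t) ∧ ∀ t, ‖(e t : k)‖ = Real.exp t := fun f hf => by
    have h1 : Continuous f := (AddMonoidHomClass.isometry_of_norm f hf).continuous
    refine ⟨fun t => ⟨f (Real.exp t), f (Real.exp (-t)), ?_, ?_⟩, Units.continuous_iff.2 ⟨?_, ?_⟩,
      fun s t => Units.ext ?_, fun t => ?_⟩
    · rw [← map_mul, ← Real.exp_add, add_neg_cancel, Real.exp_zero, map_one]
    · rw [← map_mul, ← Real.exp_add, neg_add_cancel, Real.exp_zero, map_one]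
    · exact h1.comp Real.continuous_exp
    · exact h1.comp (Real.continuous_exp.comp continuous_neg)
    · show f _ = f _ * f _
      rw [← map_mul, Real.exp_add]
    · exact (hf _).trans (Real.norm_of_nonneg (Real.exp_pos t).le)
  rcases h with ⟨φ, h⟩ | ⟨φ, h⟩ | h
  · exact key φ.symm fun x => (h _).symm.trans (congrArg _ (φ.apply_symm_apply x))
  · exact key (φ.symm.toRingHom.comp Complex.ofRealHom) fun x =>
      (h _).symm.trans ((congrArg _ (φ.apply_symm_apply _)).trans (Complex.norm_real x))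
  · exact absurd h hu

open P092GP P092GP.LD P183CH in
/-- **the connected torus** of a linear package over `ℝ` or `ℂ` -/
theorem exists_tor {L : LD k G} (H : L.LP) (hu : ¬ IsUltrametricDist k) : ∃ A, Tor L.fl A := by
  obtain ⟨e, h1, h2, h3⟩ := exists_exp H.loc hu
  haveI := H.top
  have h0 : e 0 = 1 := left_eq_mul.1 ((congrArg e (add_zero 0).symm).trans (h2 0 0))
  have hn : ∀ t, e (-t) = (e t)⁻¹ := fun t =>
    eq_inv_of_mul_eq_one_left (by rw [← h2, neg_add_cancel, h0])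
  have ha : ∀ x y : Fin L.R.r → ℝ, L.σ (fun i => e ((x + y) i)) =
      L.σ (fun i => e (x i)) * L.σ fun i => e (y i) := fun x y => by
    rw [← H.ok.σ_mul]
    exact congrArg _ (funext fun i => h2 _ _)
  have hs : ∀ (i : Fin L.R.r) (s : ℝ), L.σ (fun j => e ((Pi.single i s : Fin L.R.r → ℝ) j)) =
      L.τ (L.R.α i) (e s) := fun i s => by
    rw [H.ok.τ_eq_σ]
    refine congrArg _ (funext fun j => ?_)
    rw [RS.α_apply, Pi.single_apply]
    split_ifs <;> simp [h0]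
  refine ⟨fun x => L.σ fun i => e (x i), H.cont_σ.comp (by fun_prop), ha,
    fun x => H.ok.σ_mem_Z0 _, fun x z hz => H.ok.S_comm (H.ok.mem_S.2 ⟨_, rfl⟩) hz,
    fun x => (H.ok.ℓ_σ _).trans (funext fun i => by rw [h3, Real.log_exp]), fun x => ?_⟩
  obtain ⟨-, -, h4, h5⟩ := H.ok.lng_spec
  induction x using Pi.single_induction with
  | zero => simp [h0, show (fun _ => 1 : Fin L.R.r → kˣ) = 1 from rfl, H.ok.σ_one]
  | add x y a b =>
    rw [ha, show -((x + y) ∘ L.fl.ι) = -(x ∘ L.fl.ι) + -(y ∘ L.fl.ι) from neg_add _ _, ha, ← a, ← b]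
    group
  | single i s =>
    have h6 : -((Pi.single i s : Fin L.R.r → ℝ) ∘ L.fl.ι) = Pi.single (L.fl.ι i) (-s) := by
      funext j
      obtain ⟨j, rfl⟩ := L.fl.ι.surjective j
      simp only [Pi.neg_apply, Function.comp, Pi.single_apply, H.fl.ι_ι, EmbeddingLike.apply_eq_iff_eq]
      split_ifs <;> simp
    rw [h6, hs, hs, hn, H.ok.τ_inv, ← H.ok.τ_neg, mul_inv_eq_iff_eq_mul, inv_mul_eq_iff_eq_mul.1
      ((mul_assoc _ _ _).symm.trans (H.ok.rep_τ h4 (-L.R.α (L.fl.ι i)) (e s)))]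
    refine congrArg (fun y => L.fl.n₀ * L.τ y (e s)) (funext fun j => ?_)
    obtain ⟨j, rfl⟩ := L.fl.ι.surjective j
    rw [h5, neg_dotProduct_neg]
    have h7 : L.fl.ι j = i ↔ j = L.fl.ι i := ⟨fun a => by rw [← a, H.fl.ι_ι], fun a => by
      rw [a, H.fl.ι_ι]⟩
    simp [RS.α, Pi.single_apply, h7, eq_comm (a := j)]

end Vale.Agent.P092GK
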