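import Vale.Agent.P092GK.Defs
import Mathlib.Analysis.Normed.Operator.BoundedLinearMaps
import Mathlib.GroupTheory.Subgroup.Center
import Mathlib.Topology.Instances.Matrix
import Mathlib.Algebra.Order.Floor.Ring

/-!
P092, group package (helper83): first consequences of the flag package (big cell, torus).
-/

set_option linter.all false

open Matrix Filter Topology

namespace Vale.Agent.P092GK

variable {k : Type} [NontriviallyNormedField k] {G : Type} [Group G] {r : ℕ} {F : FlD k G r}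

namespace FlD

theorem ω_add (x y : Fin r → ℝ) : F.ω (x + y) = F.ω x + F.ω y := mulVec_add _ _ _

theorem ω_sub (x y : Fin r → ℝ) : F.ω (x - y) = F.ω x - F.ω y := mulVec_sub _ _ _

theorem ω_neg (x : Fin r → ℝ) : F.ω (-x) = -F.ω x := mulVec_neg _ _

theorem ω_smul (t : ℝ) (x : Fin r → ℝ) : F.ω (t • x) = t • F.ω x := mulVec_smul _ _ _

theorem ω_zero : F.ω 0 = 0 := mulVec_zero _

theorem co_add (x y : Fin r → ℝ) : F.co (x + y) = F.co x + F.co y := mulVec_add _ _ _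

theorem co_sub (x y : Fin r → ℝ) : F.co (x - y) = F.co x - F.co y := mulVec_sub _ _ _

theorem co_neg (x : Fin r → ℝ) : F.co (-x) = -F.co x := mulVec_neg _ _

theorem co_zero : F.co 0 = 0 := mulVec_zero _

theorem ω_apply (x : Fin r → ℝ) (j : Fin r) : F.ω x j = ∑ i, F.c j i * x i := rfl

theorem mulVec_bound (A : Matrix (Fin r) (Fin r) ℝ) :
    ∃ C : ℝ, 1 ≤ C ∧ ∀ x : Fin r → ℝ, ‖A *ᵥ x‖ ≤ C * ‖x‖ := by
  let L : (Fin r → ℝ) →L[ℝ] (Fin r → ℝ) := LinearMap.toContinuousLinearMap (Matrix.mulVecLin A)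
  refine ⟨‖L‖ + 1, by linarith [norm_nonneg L], fun x => ?_⟩
  have h := L.le_opNorm x
  have h2 : L x = A *ᵥ x := rfl
  rw [h2] at h
  nlinarith [norm_nonneg x]

theorem co_bound (F : FlD k G r) : ∃ C : ℝ, 1 ≤ C ∧ ∀ x, ‖F.co x‖ ≤ C * ‖x‖ := mulVec_bound _

theorem ω_bound (F : FlD k G r) : ∃ C : ℝ, 1 ≤ C ∧ ∀ x, ‖F.ω x‖ ≤ C * ‖x‖ := mulVec_bound _

theorem cont_co : Continuous F.co := by
  unfold FlD.co; fun_prop

theorem cont_ω : Continuous F.ω := by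
  unfold FlD.ω; fun_prop

theorem V_mul (j : Fin r) (g g' : G) (x : F.E j) : F.V j (g * g') x = F.V j g (F.V j g' x) := by
  rw [map_mul]; rfl

theorem V_one (j : Fin r) (x : F.E j) : F.V j 1 x = x := by
  rw [map_one]; rfl

theorem V_inv (j : Fin r) (g : G) (x : F.E j) : F.V j g⁻¹ (F.V j g x) = x := by
  rw [← V_mul, inv_mul_cancel, V_one]

theorem V_inv' (j : Fin r) (g : G) (x : F.E j) : F.V j g (F.V j g⁻¹ x) = x := by
  rw [← V_mul, mul_inv_cancel, V_one]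

theorem pr_apply (j : Fin r) (x : F.E j) : F.pr j x = F.φ j x • F.v j := rfl

end FlD

open FlD

variable [TopologicalSpace G]

namespace Fl

variable (h : Fl F)
include h

theorem ω_co (y : Fin r → ℝ) : F.ω (F.co y) = y := by
  unfold FlD.ω FlD.co
  rw [mulVec_mulVec, mul_nonsing_inv _ (isUnit_iff_ne_zero.2 h.c_det), one_mulVec]

theorem co_ω (x : Fin r → ℝ) : F.co (F.ω x) = x := by
  unfold FlD.ω FlD.co
  rw [mulVec_mulVec, nonsing_inv_mul _ (isUnit_iff_ne_zero.2 h.c_det), one_mulVec]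

theorem ω_mono {x y : Fin r → ℝ} (hxy : x ≤ y) : F.ω x ≤ F.ω y := fun j => by
  rw [ω_apply, ω_apply]
  exact Finset.sum_le_sum fun i _ => mul_le_mul_of_nonneg_left (hxy i) (h.c_pos j i).le

/-- a dominant vector is controlled by any highest weight -/
theorem le_ω : ∃ C : ℝ, 1 ≤ C ∧ ∀ x : Fin r → ℝ, 0 ≤ x → ∀ i j, x i ≤ C * F.ω x j := by
  refine ⟨1 + ∑ j, ∑ i, (F.c j i)⁻¹, ?_, fun x hx i j => ?_⟩
  · have : 0 ≤ ∑ j, ∑ i, (F.c j i)⁻¹ :=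
      Finset.sum_nonneg fun j _ => Finset.sum_nonneg fun i _ => (inv_pos.2 (h.c_pos j i)).le
    linarith
  · have h1 : F.c j i * x i ≤ F.ω x j := by
      rw [ω_apply]
      exact Finset.single_le_sum (f := fun i => F.c j i * x i)
        (fun l _ => mul_nonneg (h.c_pos j l).le (hx l)) (Finset.mem_univ i)
    have h2 : (F.c j i)⁻¹ ≤ ∑ j, ∑ i, (F.c j i)⁻¹ :=
      le_trans (Finset.single_le_sum (f := fun i => (F.c j i)⁻¹)
        (fun l _ => (inv_pos.2 (h.c_pos j l)).le) (Finset.mem_univ i))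
        (Finset.single_le_sum (f := fun j => ∑ i, (F.c j i)⁻¹)
          (fun l _ => Finset.sum_nonneg fun m _ => (inv_pos.2 (h.c_pos l m)).le) (Finset.mem_univ j))
    have h3 : 0 ≤ F.c j i * x i := mul_nonneg (h.c_pos j i).le (hx i)
    have h4 : x i = (F.c j i)⁻¹ * (F.c j i * x i) := by
      rw [← mul_assoc, inv_mul_cancel₀ (h.c_pos j i).ne', one_mul]
    have h5 := (inv_pos.2 (h.c_pos j i)).le
    rw [h4]
    exact mul_le_mul (by linarith) h1 h3 (by linarith)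

theorem v_ne (j : Fin r) : F.v j ≠ 0 := fun h0 => by
  have := h.φv j
  rw [h0, map_zero] at this
  exact zero_ne_one this

theorem Vv_ne (j : Fin r) (g : G) : F.V j g (F.v j) ≠ 0 := fun h0 => by
  have := V_inv j g (F.v j)
  rw [h0, map_zero] at this
  exact h.v_ne j this.symm

theorem V_ne (j : Fin r) (g : G) : F.V j g ≠ 0 := fun h0 => h.Vv_ne j g (by rw [h0]; rfl)

theorem φV_ne (j : Fin r) (g : G) : (F.φ j).comp (F.V j g) ≠ 0 := fun h0 => by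
  have h1 : (F.φ j).comp (F.V j g) (F.V j g⁻¹ (F.v j)) = 0 := by rw [h0]; rfl
  rw [ContinuousLinearMap.comp_apply, V_inv', h.φv] at h1
  exact one_ne_zero h1

theorem Δ_one (j : Fin r) : F.Δ j 1 = 1 := by rw [FlD.Δ, V_one, h.φv]

theorem Δ_um {u : G} (hu : u ∈ F.Um) (j : Fin r) (g : G) : F.Δ j (u * g) = F.Δ j g := by
  rw [FlD.Δ, V_mul, h.umφ u hu]; rfl

theorem Δ_up {u : G} (hu : u ∈ F.Up) (j : Fin r) (g : G) : F.Δ j (g * u) = F.Δ j g := by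
  rw [FlD.Δ, V_mul, h.upv u hu]; rfl

theorem Δ_zl {z : G} (hz : z ∈ F.Z) (j : Fin r) (g : G) : F.Δ j (z * g) = F.Δ j z * F.Δ j g := by
  rw [FlD.Δ, V_mul, h.zφ z hz]; rfl

theorem Δ_zr {z : G} (hz : z ∈ F.Z) (j : Fin r) (g : G) : F.Δ j (g * z) = F.Δ j g * F.Δ j z := by
  rw [FlD.Δ, V_mul, h.zv z hz, map_smul, map_smul, smul_eq_mul, mul_comm]; rfl

theorem Δ_zinv {z : G} (hz : z ∈ F.Z) (j : Fin r) : F.Δ j z * F.Δ j z⁻¹ = 1 := by
  rw [← h.Δ_zl hz, mul_inv_cancel, h.Δ_one]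

theorem Δ_ne {z : G} (hz : z ∈ F.Z) (j : Fin r) : F.Δ j z ≠ 0 :=
  left_ne_zero_of_mul_eq_one (h.Δ_zinv hz j)

theorem Δ_of_um {u : G} (hu : u ∈ F.Um) (j : Fin r) : F.Δ j u = 1 := by
  rw [← mul_one u, h.Δ_um hu, h.Δ_one]

theorem Δ_of_up {u : G} (hu : u ∈ F.Up) (j : Fin r) : F.Δ j u = 1 := by
  rw [← one_mul u, h.Δ_up hu, h.Δ_one]

theorem Δ_cell {u z u' : G} (hu : u ∈ F.Um) (hu' : u' ∈ F.Up) (j : Fin r) :
    F.Δ j (u * z * u') = F.Δ j z := by rw [h.Δ_up hu', h.Δ_um hu]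

theorem z_mem {z : G} (hz : z ∈ F.Z) : z ∈ F.Ω := fun j => h.Δ_ne hz j

theorem one_mem : (1 : G) ∈ F.Ω := h.z_mem F.Z.one_mem

theorem cell_mem {u z u' : G} (hu : u ∈ F.Um) (hz : z ∈ F.Z) (hu' : u' ∈ F.Up) :
    u * z * u' ∈ F.Ω := fun j => by rw [h.Δ_cell hu hu']; exact h.Δ_ne hz j

theorem contVv (j : Fin r) : Continuous fun g => F.V j g (F.v j) :=
  (h.contV j).clm_apply continuous_const

theorem contφV (j : Fin r) : Continuous fun g => (F.φ j).comp (F.V j g) :=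
  continuous_const.clm_comp (h.contV j)

theorem contΔ (j : Fin r) : Continuous (F.Δ j) := (F.φ j).continuous.comp (h.contVv j)

theorem isOpen_Ω : IsOpen F.Ω := by
  have : F.Ω = ⋂ j, {g | F.Δ j g ≠ 0} := by ext g; simp [FlD.Ω]
  rw [this]
  exact isOpen_iInter_of_finite fun j => isOpen_ne_fun (h.contΔ j) continuous_const

theorem ω_ℓ (g : G) (j : Fin r) : F.ω (F.ℓ g) j = Real.log ‖F.Δ j g‖ := by
  rw [FlD.ℓ, h.ω_co]

theorem norm_Δ {g : G} (hg : g ∈ F.Ω) (j : Fin r) : ‖F.Δ j g‖ = Real.exp (F.ω (F.ℓ g) j) := by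
  rw [h.ω_ℓ, Real.exp_log (norm_pos_iff.2 (hg j))]

theorem ℓ_one : F.ℓ 1 = 0 := by
  rw [FlD.ℓ]
  simp only [h.Δ_one, norm_one, Real.log_one]
  exact co_zero

theorem ℓ_um {u : G} (hu : u ∈ F.Um) (g : G) : F.ℓ (u * g) = F.ℓ g := by
  simp only [FlD.ℓ, h.Δ_um hu]

theorem ℓ_up {u : G} (hu : u ∈ F.Up) (g : G) : F.ℓ (g * u) = F.ℓ g := by
  simp only [FlD.ℓ, h.Δ_up hu]

theorem ℓ_zl {z g : G} (hz : z ∈ F.Z) (hg : g ∈ F.Ω) : F.ℓ (z * g) = F.ℓ z + F.ℓ g := by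
  rw [FlD.ℓ, FlD.ℓ, FlD.ℓ, ← co_add]
  congr 1
  funext j
  rw [h.Δ_zl hz, norm_mul, Real.log_mul (norm_ne_zero_iff.2 (h.Δ_ne hz j))
    (norm_ne_zero_iff.2 (hg j))]
  rfl

theorem ℓ_zr {z g : G} (hz : z ∈ F.Z) (hg : g ∈ F.Ω) : F.ℓ (g * z) = F.ℓ g + F.ℓ z := by
  rw [FlD.ℓ, FlD.ℓ, FlD.ℓ, ← co_add]
  congr 1
  funext j
  rw [h.Δ_zr hz, norm_mul, Real.log_mul (norm_ne_zero_iff.2 (hg j))
    (norm_ne_zero_iff.2 (h.Δ_ne hz j))]
  rfl

theorem ℓ_mul {z z' : G} (hz : z ∈ F.Z) (hz' : z' ∈ F.Z) : F.ℓ (z * z') = F.ℓ z + F.ℓ z' :=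
  h.ℓ_zl hz (h.z_mem hz')

theorem ℓ_inv {z : G} (hz : z ∈ F.Z) : F.ℓ z⁻¹ = -F.ℓ z := by
  have h1 := h.ℓ_mul hz (F.Z.inv_mem hz)
  rw [mul_inv_cancel, h.ℓ_one] at h1
  exact (neg_eq_of_add_eq_zero_right h1.symm).symm

/-- `ℓ` as a homomorphism on `Z` -/
noncomputable def ℓh : F.Z →* Multiplicative (Fin r → ℝ) where
  toFun z := Multiplicative.ofAdd (F.ℓ z)
  map_one' := by rw [OneMemClass.coe_one, h.ℓ_one]; rfl
  map_mul' z z' := by rw [Subgroup.coe_mul, h.ℓ_mul z.2 z'.2]; rfl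

theorem ℓ_zpow {z : G} (hz : z ∈ F.Z) (n : ℤ) : F.ℓ (z ^ n) = (n : ℝ) • F.ℓ z := by
  have h1 := congrArg Multiplicative.toAdd (map_zpow h.ℓh ⟨z, hz⟩ n)
  rw [toAdd_zpow] at h1
  rw [Int.cast_smul_eq_zsmul]
  exact h1

theorem ℓ_pow {z : G} (hz : z ∈ F.Z) (n : ℕ) : F.ℓ (z ^ n) = (n : ℝ) • F.ℓ z := by
  have := h.ℓ_zpow hz n
  rwa [zpow_natCast, Int.cast_natCast] at this

theorem contOn_ℓ : ContinuousOn F.ℓ F.Ω := by
  refine cont_co.comp_continuousOn (continuousOn_pi.2 fun j => ?_)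
  exact ((h.contΔ j).norm.continuousOn).log fun g hg => norm_ne_zero_iff.2 (hg j)

/-- uniqueness in the big cell -/
theorem cell_one {u z u' : G} (hu : u ∈ F.Um) (hz : z ∈ F.Z) (hu' : u' ∈ F.Up) (e : u = z * u') :
    u = 1 := by
  refine h.um_inj u hu fun j => ?_
  have h1 : F.Δ j z = 1 := by rw [← h.Δ_up hu', ← e, h.Δ_of_um hu]
  rw [e, V_mul, h.upv u' hu', h.zv z hz, h1, one_smul]

theorem z_up_one {z : G} (hz : z ∈ F.Z) (hu : z ∈ F.Up) : z = 1 :=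
  h.up_inj z hu fun j x => by rw [h.zφ z hz, h.Δ_of_up hu, one_mul]

theorem cell_uniq {u z w u₂ z₂ w₂ : G} (hu : u ∈ F.Um) (hz : z ∈ F.Z) (hw : w ∈ F.Up)
    (hu₂ : u₂ ∈ F.Um) (hz₂ : z₂ ∈ F.Z) (hw₂ : w₂ ∈ F.Up) (e : u * z * w = u₂ * z₂ * w₂) :
    u = u₂ ∧ z = z₂ ∧ w = w₂ := by
  have h1 : u₂⁻¹ * u = (z₂ * z⁻¹) * (z * (w₂ * w⁻¹) * z⁻¹) := by
    have : u = u₂ * z₂ * w₂ * w⁻¹ * z⁻¹ := by rw [← e]; group
    rw [this]; group
  have h2 := h.cell_one (F.Um.mul_mem (F.Um.inv_mem hu₂) hu) (F.Z.mul_mem hz₂ (F.Z.inv_mem hz))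
    (h.zup z hz _ (F.Up.mul_mem hw₂ (F.Up.inv_mem hw))) h1
  have h3 : u = u₂ := (inv_mul_eq_one.1 h2).symm
  subst h3
  have h4 : z₂⁻¹ * z = w₂ * w⁻¹ := by
    have : w₂ = z₂⁻¹ * u⁻¹ * (u * z * w) := by rw [e]; group
    rw [this]; group
  have h5 := h.z_up_one (F.Z.mul_mem (F.Z.inv_mem hz₂) hz)
    (h4 ▸ F.Up.mul_mem hw₂ (F.Up.inv_mem hw))
  have h6 : z = z₂ := (inv_mul_eq_one.1 h5).symm
  subst h6
  exact ⟨rfl, rfl, mul_left_cancel e⟩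

end Fl

/-- the middle factor in the big cell -/
def FlD.md (F : FlD k G r) (g : G) : G := (F.lo g)⁻¹ * g * (F.up g)⁻¹

omit [TopologicalSpace G] in
theorem FlD.lo_md_up (F : FlD k G r) (g : G) : F.lo g * F.md g * F.up g = g := by
  rw [FlD.md]; group

namespace Fl

variable (h : Fl F)
include h

theorem md_mem {g : G} (hg : g ∈ F.Ω) : F.md g ∈ F.Z := h.mid_mem g hg

theorem cell_eq {u z w : G} (hu : u ∈ F.Um) (hz : z ∈ F.Z) (hw : w ∈ F.Up) :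
    F.lo (u * z * w) = u ∧ F.md (u * z * w) = z ∧ F.up (u * z * w) = w :=
  have hg := h.cell_mem hu hz hw
  h.cell_uniq (h.lo_mem _ hg) (h.md_mem hg) (h.up_mem _ hg) hu hz hw (F.lo_md_up _)

theorem md_cont [IsTopologicalGroup G] : ContinuousOn F.md F.Ω :=
  (h.lo_cont.inv.mul continuousOn_id).mul h.up_cont.inv

theorem Δ_md {g : G} (hg : g ∈ F.Ω) (j : Fin r) : F.Δ j (F.md g) = F.Δ j g := by
  conv_rhs => rw [← F.lo_md_up g]
  rw [h.Δ_cell (h.lo_mem g hg) (h.up_mem g hg)]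

theorem ℓ_md {g : G} (hg : g ∈ F.Ω) : F.ℓ (F.md g) = F.ℓ g := by
  simp only [FlD.ℓ, h.Δ_md hg]

theorem Vv_cell {g : G} (hg : g ∈ F.Ω) (j : Fin r) :
    F.V j g (F.v j) = F.Δ j g • F.V j (F.lo g) (F.v j) := by
  conv_lhs => rw [← F.lo_md_up g]
  rw [V_mul, V_mul, h.upv _ (h.up_mem g hg), h.zv _ (h.md_mem hg), map_smul, h.Δ_md hg]

theorem φV_cell {g : G} (hg : g ∈ F.Ω) (j : Fin r) (x : F.E j) :
    F.φ j (F.V j g x) = F.Δ j g * F.φ j (F.V j (F.up g) x) := by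
  conv_lhs => rw [← F.lo_md_up g]
  rw [V_mul, V_mul, h.umφ _ (h.lo_mem g hg), h.zφ _ (h.md_mem hg), h.Δ_md hg]

open scoped IsMulCommutative

/-- the coweights as central elements of `Z` -/
def bc (i : Fin r) : Subgroup.center F.Z :=
  ⟨⟨F.b i, h.bZ i⟩, Subgroup.mem_center_iff.2 fun z => Subtype.ext (h.bcomm i z z.2).symm⟩

theorem a_eq (t : Fin r → ℤ) : F.a t = (((∏ i, h.bc i ^ t i : Subgroup.center F.Z) : F.Z) : G) := by
  rw [← List.prod_ofFn, FlD.a]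
  have h1 := map_list_prod (F.Z.subtype.comp (Subgroup.center F.Z).subtype)
    (List.ofFn fun i => h.bc i ^ t i)
  refine Eq.trans ?_ h1.symm
  rw [List.map_ofFn]
  congr 2

theorem a_mem (t : Fin r → ℤ) : F.a t ∈ F.Z := by rw [h.a_eq]; exact SetLike.coe_mem _

theorem a_comm (t : Fin r → ℤ) {z : G} (hz : z ∈ F.Z) : F.a t * z = z * F.a t := by
  rw [h.a_eq]
  exact congrArg Subtype.val (Subgroup.mem_center_iff.1 (∏ i, h.bc i ^ t i).2 ⟨z, hz⟩).symm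

theorem a_add (t s : Fin r → ℤ) : F.a (t + s) = F.a t * F.a s := by
  simp only [h.a_eq, Pi.add_apply, zpow_add, Finset.prod_mul_distrib]
  rfl

theorem a_zero : F.a 0 = 1 := by
  simp only [h.a_eq, Pi.zero_apply, zpow_zero, Finset.prod_const_one]
  rfl

theorem a_neg (t : Fin r → ℤ) : F.a (-t) = (F.a t)⁻¹ :=
  eq_inv_of_mul_eq_one_left (by rw [← h.a_add, neg_add_cancel, h.a_zero])

theorem a_single (i : Fin r) (n : ℤ) : F.a (Pi.single i n) = F.b i ^ n := by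
  rw [h.a_eq, Finset.prod_eq_single i]
  · rw [Pi.single_eq_same]; rfl
  · intro l _ hl; rw [Pi.single_eq_of_ne hl, zpow_zero]
  · intro hi; exact absurd (Finset.mem_univ i) hi

theorem ℓ_a (t : Fin r → ℤ) : F.ℓ (F.a t) = fun i => F.β * t i := by
  have h1 := congrArg Multiplicative.toAdd
    (map_prod (h.ℓh.comp (Subgroup.center F.Z).subtype) (fun i => h.bc i ^ t i) Finset.univ)
  rw [toAdd_prod] at h1
  rw [h.a_eq]
  refine h1.trans ?_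
  funext i
  rw [Finset.sum_apply, Finset.sum_eq_single i]
  · show F.ℓ (F.b i ^ t i) i = _
    rw [h.ℓ_zpow (h.bZ i), h.bℓ, Pi.smul_apply, Pi.single_eq_same, smul_eq_mul, mul_comm]
  · intro l _ hl
    show F.ℓ (F.b l ^ t l) i = _
    rw [h.ℓ_zpow (h.bZ l), h.bℓ, Pi.smul_apply, Pi.single_eq_of_ne hl.symm, smul_zero]
  · intro hi; exact absurd (Finset.mem_univ i) hi

theorem a_dom {t : Fin r → ℤ} (ht : 0 ≤ t) : F.Dom (F.a t) :=
  ⟨h.a_mem t, fun i => by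
    rw [h.ℓ_a]; exact mul_nonneg h.β_pos.le (Int.cast_nonneg (ht i))⟩

/-- `Z` is the lattice times a compact set -/
theorem z_dec {z : G} (hz : z ∈ F.Z) :
    (F.a fun i => ⌊F.ℓ z i / F.β⌋)⁻¹ * z ∈ {z | z ∈ F.Z ∧ ∀ i, |F.ℓ z i| ≤ F.β} := by
  refine ⟨F.Z.mul_mem (F.Z.inv_mem (h.a_mem _)) hz, fun i => ?_⟩
  rw [h.ℓ_mul (F.Z.inv_mem (h.a_mem _)) hz, h.ℓ_inv (h.a_mem _), h.ℓ_a, Pi.add_apply, Pi.neg_apply]
  have h1 := Int.floor_le (F.ℓ z i / F.β)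
  have h2 := Int.lt_floor_add_one (F.ℓ z i / F.β)
  have hb := h.β_pos
  rw [le_div_iff₀ hb] at h1
  rw [div_lt_iff₀ hb] at h2
  rw [abs_le]
  constructor <;> nlinarith

end Fl

end Vale.Agent.P092GK
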