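import Vale.Agent.P092GK.Tor
import Vale.Agent.P092TH.Hts

/-!
P092, group package (helper83): the cones with one height over the full flag space.
-/

set_option linter.all false

open Matrix Filter Topology Set

namespace Vale.Agent.P092GK

open FlD

variable {k : Type} [NontriviallyNormedField k] {G : Type} [Group G] {r : ℕ} {F : FlD k G r}
  [TopologicalSpace G] [IsTopologicalGroup G] [T2Space G] [CompleteSpace k]
  {X : Type} [NormedAddCommGroup X] [NormedSpace ℝ X]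

/-- the Iwasawa cocycle -/
noncomputable def FlD.cc (F : FlD k G r) (s : G) (y : F.Y Finset.univ) : Fin r → ℝ :=
  F.co (F.ht (s * y.out)) - F.co (F.ht y.out)

namespace Fl

variable (h : Fl F) {H : Subgroup G}
include h

omit [CompleteSpace k] in
theorem cc_mk (s g : G) : F.cc s (g : F.Y Finset.univ) = F.co (F.ht (s * g)) - F.co (F.ht g) := by
  obtain ⟨p, hp, e⟩ := out_mem (F.P Finset.univ) g
  rw [FlD.cc, e, ← mul_assoc, h.co_ht_P hp, h.co_ht_P hp, add_sub_add_right_eq_sub]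

omit [CompleteSpace k] in
theorem cc_mul (s s' : G) (y : F.Y Finset.univ) : F.cc (s * s') y = F.cc s (s' • y) + F.cc s' y := by
  obtain ⟨g, rfl⟩ := QuotientGroup.mk_surjective y
  rw [smul_mk, h.cc_mk, h.cc_mk, h.cc_mk, mul_assoc, sub_add_sub_cancel]

omit [CompleteSpace k] in
theorem cc_one (y : F.Y Finset.univ) : F.cc 1 y = 0 := by rw [FlD.cc, one_mul, sub_self]

omit [CompleteSpace k] in
theorem cont_cc : Continuous fun q : G × F.Y Finset.univ => F.cc q.1 q.2 := by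
  refine ((IsOpenQuotientMap.id.prodMap
    QuotientGroup.isOpenQuotientMap_mk).isQuotientMap.continuous_iff).2 ?_
  have : ((fun q : G × F.Y Finset.univ => F.cc q.1 q.2) ∘ Prod.map id QuotientGroup.mk) =
      fun q : G × G => F.co (F.ht (q.1 * q.2)) - F.co (F.ht q.2) := funext fun q => h.cc_mk _ _
  rw [this]
  exact (cont_co.comp (h.cont_ht.comp continuous_mul)).sub
    (cont_co.comp (h.cont_ht.comp continuous_snd))

omit [CompleteSpace k] in
theorem cc_le : ∃ C : ℝ, 1 ≤ C ∧ ∀ s y, ‖F.cc s y‖ ≤ C * F.len s := by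
  obtain ⟨C, h1, h2⟩ := F.co_bound
  refine ⟨C, h1, fun s y => ?_⟩
  rw [FlD.cc, ← co_sub]
  exact (h2 _).trans (mul_le_mul_of_nonneg_left ((pi_norm_le_iff_of_nonneg (len_nonneg s)).2
    fun j => h.ht_lip s _ j) (by linarith))

omit [CompleteSpace k] in
theorem cc_base {p : G} (hp : p ∈ F.P Finset.univ) :
    F.cc p ((1 : G) : F.Y Finset.univ) = F.ℓ p := by
  rw [h.cc_mk, mul_one, ← one_mul p, h.co_ht_P hp, add_sub_cancel_left, one_mul]

omit [CompleteSpace k] in
theorem hq_smul {t : (Fin r → ℝ) →ₗ[ℝ] X} (e : F.Ht H t) (s : G) (y : G ⧸ H) :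
    F.hq H t (s • y) = t (F.cc s (F.dir H Finset.univ y)) + F.hq H t y := by
  obtain ⟨g, rfl⟩ := QuotientGroup.mk_surjective y
  rw [mk_smul, h.hq_mk e, h.hq_mk e, h.dir_mk e, h.cc_mk, map_sub, sub_add_cancel]

/-- polar coordinates -/
noncomputable def pol [ProperSpace X] {t : (Fin r → ℝ) →ₗ[ℝ] X} (e : F.Ht H t) (hp : F.Prp t)
    (hs : ∀ x, ∃ z ∈ F.Z, t (F.ℓ z) = x) : G ⧸ H ≃ₜ F.Y Finset.univ × X :=
  (h.polar e hp hs).homeomorph

theorem pol_apply [ProperSpace X] {t : (Fin r → ℝ) →ₗ[ℝ] X} (e : F.Ht H t) (hp : F.Prp t)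
    (hs : ∀ x, ∃ z ∈ F.Z, t (F.ℓ z) = x) (y : G ⧸ H) :
    h.pol e hp hs y = (F.dir H Finset.univ y, F.hq H t y) := rfl

variable [SecondCountableTopology G] [MeasurableSpace (F.Y Finset.univ)]
  [BorelSpace (F.Y Finset.univ)] [MeasurableSpace (G ⧸ H)] [BorelSpace (G ⧸ H)]
  {t : (Fin r → ℝ) →ₗ[ℝ] ℝ}

/-- **the cone with one height** -/
noncomputable def cn (e : F.Ht H t) (hp : F.Prp t) (hs : ∀ x, ∃ z ∈ F.Z, t (F.ℓ z) = x) :
    P092TH.Cn G (F.Y Finset.univ) (G ⧸ H) where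
  dir := F.dir H Finset.univ
  ht := F.hq H t
  e := (h.pol e hp hs).symm
  co s y := t (F.cc s y)
  mdir := (h.cont_dir e _).measurable
  mht := (h.cont_hq e).measurable
  me := (h.pol e hp hs).symm.continuous.measurable
  mco s := (t.continuous_of_finiteDimensional.comp
    (h.cont_cc.comp (Continuous.prodMk_right s))).measurable
  dir_e p := congrArg Prod.fst ((h.pol e hp hs).apply_symm_apply p)
  ht_e p := congrArg Prod.snd ((h.pol e hp hs).apply_symm_apply p)
  e_dir := (h.pol e hp hs).symm_apply_apply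
  dir_smul := h.dir_smul e _
  ht_smul := h.hq_smul e

theorem cn_sh (e : F.Ht H t) (hp : F.Prp t) (hs : ∀ x, ∃ z ∈ F.Z, t (F.ℓ z) = x) {p : G}
    (h1 : p ∈ F.P Finset.univ) : (h.cn e hp hs).sh (t (F.ℓ p)) = rt H p := funext fun y => by
  have h2 := (h.cn e hp hs).e_dir (rt H p y)
  rw [show (h.cn e hp hs).dir (rt H p y) = (h.cn e hp hs).dir y from h.dir_rt e _ h1 y,
    show (h.cn e hp hs).ht (rt H p y) = (h.cn e hp hs).ht y + t (F.ℓ p) from h.hq_rt e h1 y] at h2
  exact h2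

end Fl

end Vale.Agent.P092GK
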