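import Mathlib.Analysis.Normed.Module.FiniteDimension
import Mathlib.Analysis.SpecialFunctions.Log.Basic
import Mathlib.LinearAlgebra.Matrix.NonsingularInverse
import Mathlib.Topology.Algebra.Group.Quotient

/-!
P092, group package (helper83): the flag package `Fl`. A group with a big cell `U⁻ Z U⁺`, an Iwasawa
decomposition and one proximal representation for each simple root. Coordinates on `𝔞 = Fin r → ℝ`
are the simple roots, so the closed chamber is the positive orthant.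
-/

set_option linter.all false

open Matrix Filter Topology

namespace Vale.Agent.P092GK

/-- the data of a flag package -/
structure FlD (k : Type) [NontriviallyNormedField k] (G : Type) [Group G] (r : ℕ) where
  /-- the centraliser of the split torus -/
  Z : Subgroup G
  /-- the unipotent radical of the minimal parabolic subgroup -/
  Up : Subgroup G
  /-- the opposite unipotent radical -/
  Um : Subgroup G
  /-- the highest weights in terms of the simple roots -/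
  c : Matrix (Fin r) (Fin r) ℝ
  /-- the spaces of the proximal representations -/
  E : Fin r → Type
  [i₁ : ∀ j, NormedAddCommGroup (E j)]
  [i₂ : ∀ j, NormedSpace k (E j)]
  [i₃ : ∀ j, FiniteDimensional k (E j)]
  /-- the proximal representations -/
  V : ∀ j, G →* (E j →L[k] E j)
  /-- the highest weight vectors -/
  v : ∀ j, E j
  /-- the highest weight forms -/
  φ : ∀ j, E j →L[k] k
  /-- the first factor in the big cell -/
  lo : G → G
  /-- the last factor in the big cell -/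
  up : G → G
  /-- the fundamental coweights -/
  b : Fin r → G
  /-- their common size -/
  β : ℝ
  /-- a representative of the longest element of the Weyl group -/
  n₀ : G
  /-- the opposition involution -/
  ι : Equiv.Perm (Fin r)

attribute [instance] FlD.i₁ FlD.i₂ FlD.i₃

namespace FlD

variable {k : Type} [NontriviallyNormedField k] {G : Type} [Group G] {r : ℕ} (F : FlD k G r)

/-- the highest weight coefficient -/
def Δ (j : Fin r) (g : G) : k := F.φ j (F.V j g (F.v j))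

/-- the big cell -/
def Ω : Set G := {g | ∀ j, F.Δ j g ≠ 0}

/-- the highest weights as linear forms on `𝔞` -/
def ω (x : Fin r → ℝ) : Fin r → ℝ := F.c *ᵥ x

/-- the vector with prescribed highest weights -/
noncomputable def co (y : Fin r → ℝ) : Fin r → ℝ := F.c⁻¹ *ᵥ y

/-- the logarithm of the middle factor in the big cell; a homomorphism on `Z` -/
noncomputable def ℓ (g : G) : Fin r → ℝ := F.co fun j => Real.log ‖F.Δ j g‖

/-- the size of `g` in the representation `j` -/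
noncomputable def lam (g : G) (j : Fin r) : ℝ := Real.log ‖F.V j g‖

/-- the Cartan gauge; its coordinates are the gaps -/
noncomputable def κ (g : G) : Fin r → ℝ := F.co (F.lam g)

/-- the height (Iwasawa projection), a function on `G / M U⁺`, in the coordinates `ω` -/
noncomputable def ht (g : G) (j : Fin r) : ℝ := Real.log ‖F.V j g (F.v j)‖

/-- the opposite height, a function on `M U⁻ \ G`, in the coordinates `ω` -/
noncomputable def ht' (g : G) (j : Fin r) : ℝ := Real.log ‖(F.φ j).comp (F.V j g)‖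

/-- the rank one projection on the highest weight line -/
noncomputable def pr (j : Fin r) : F.E j →L[k] F.E j := (F.φ j).smulRight (F.v j)

/-- the dominant elements of `Z` -/
def Dom (z : G) : Prop := z ∈ F.Z ∧ ∀ i, 0 ≤ F.ℓ z i

/-- the torus lattice -/
def a (t : Fin r → ℤ) : G := (List.ofFn fun i => F.b i ^ t i).prod

end FlD

/-- **The flag package.** -/
structure Fl {k : Type} [NontriviallyNormedField k] {G : Type} [Group G] [TopologicalSpace G] {r : ℕ}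
    (F : FlD k G r) : Prop where
  c_pos : ∀ j i, 0 < F.c j i
  c_det : F.c.det ≠ 0
  contV : ∀ j, Continuous (F.V j)
  φv : ∀ j, F.φ j (F.v j) = 1
  span : ∀ j, Submodule.span k (Set.range fun g => F.V j g (F.v j)) = ⊤
  upv : ∀ u ∈ F.Up, ∀ j, F.V j u (F.v j) = F.v j
  umφ : ∀ u ∈ F.Um, ∀ j x, F.φ j (F.V j u x) = F.φ j x
  zv : ∀ z ∈ F.Z, ∀ j, F.V j z (F.v j) = F.Δ j z • F.v j
  zφ : ∀ z ∈ F.Z, ∀ j x, F.φ j (F.V j z x) = F.Δ j z * F.φ j x
  zup : ∀ z ∈ F.Z, ∀ u ∈ F.Up, z * u * z⁻¹ ∈ F.Up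
  zum : ∀ z ∈ F.Z, ∀ u ∈ F.Um, z * u * z⁻¹ ∈ F.Um
  clZ : IsClosed (F.Z : Set G)
  clUp : IsClosed (F.Up : Set G)
  clUm : IsClosed (F.Um : Set G)
  lo_mem : ∀ g ∈ F.Ω, F.lo g ∈ F.Um
  up_mem : ∀ g ∈ F.Ω, F.up g ∈ F.Up
  mid_mem : ∀ g ∈ F.Ω, (F.lo g)⁻¹ * g * (F.up g)⁻¹ ∈ F.Z
  lo_cont : ContinuousOn F.lo F.Ω
  up_cont : ContinuousOn F.up F.Ω
  um_inj : ∀ u ∈ F.Um, (∀ j, F.V j u (F.v j) = F.v j) → u = 1
  up_inj : ∀ u ∈ F.Up, (∀ j x, F.φ j (F.V j u x) = F.φ j x) → u = 1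
  dense : Dense F.Ω
  iwa : ∃ C : Set G, IsCompact C ∧ ∀ g, ∃ x ∈ C, ∃ z ∈ F.Z, ∃ u ∈ F.Up, g = x * z * u
  n₀Z : ∀ z, z ∈ F.Z ↔ F.n₀ * z * F.n₀⁻¹ ∈ F.Z
  n₀up : ∀ u, u ∈ F.Up ↔ F.n₀ * u * F.n₀⁻¹ ∈ F.Um
  n₀um : ∀ u, u ∈ F.Um ↔ F.n₀ * u * F.n₀⁻¹ ∈ F.Up
  n₀ℓ : ∀ z ∈ F.Z, ∀ i, F.ℓ (F.n₀ * z * F.n₀⁻¹) (F.ι i) = -F.ℓ z i
  zprop : ∀ R : ℝ, IsCompact {z | z ∈ F.Z ∧ ∀ i, |F.ℓ z i| ≤ R}
  β_pos : 0 < F.β
  bZ : ∀ i, F.b i ∈ F.Z
  bcomm : ∀ i, ∀ z ∈ F.Z, F.b i * z = z * F.b i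
  bℓ : ∀ i, F.ℓ (F.b i) = Pi.single i F.β
  par : ∀ j g (d : k), F.V j g (F.v j) = d • F.v j →
    ∃ l, Tendsto (fun n : ℕ => (F.b j ^ n)⁻¹ * g * F.b j ^ n) atTop (𝓝 l)
  par' : ∀ j g (d : k), (∀ x, F.φ j (F.V j g x) = d * F.φ j x) →
    ∃ l, Tendsto (fun n : ℕ => F.b j ^ n * g * (F.b j ^ n)⁻¹) atTop (𝓝 l)
  low : ∃ C : ℝ, ∀ z ∈ F.Z, ∀ j, ‖F.Δ j z‖ * Real.exp (-F.ℓ z j) ≤ C * ‖F.V j z‖
  con : ∃ C : ℝ, ∀ z, F.Dom z → ∀ j,
    ‖F.V j z - F.Δ j z • F.pr j‖ ≤ C * (‖F.Δ j z‖ * Real.exp (-F.ℓ z j))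

end Vale.Agent.P092GK
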