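import Vale.Agent.P092GK.Desc
import Vale.Agent.P092RK.RDefs

/-!
P092, higher rank (helper83): the Gromov product of two opposite flags.
-/

set_option linter.all false

open scoped ENNReal
open MeasureTheory Filter Topology Set

namespace Vale.Agent.P092GK

open FlD Vale.Agent.P092HR

variable {k : Type} [NontriviallyNormedField k] {G : Type} [Group G] {r : ℕ} {F : FlD k G r}
  {X : Type} [NormedAddCommGroup X] [NormedSpace ℝ X]

/-- the Gromov product -/
noncomputable def FlD.del (F : FlD k G r) : F.Y Finset.univ × F.Y Finset.univ → Fin r → ℝ :=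
  (F.Op _ _).indicator fun q =>
    F.ℓ (F.n₀ * q.1.out⁻¹ * q.2.out) - F.co (F.ht q.1.out) ∘ F.ι - F.co (F.ht q.2.out)

variable [TopologicalSpace G] [IsTopologicalGroup G] [T2Space G]

namespace Fl

variable (h : Fl F)
include h

theorem del_mk {g g' : G} (hg : F.n₀ * g⁻¹ * g' ∈ F.Ω) : F.del (g, g') =
    F.ℓ (F.n₀ * g⁻¹ * g') - F.co (F.ht g) ∘ F.ι - F.co (F.ht g') := by
  obtain ⟨x, hx, h1⟩ := out_mem (PP F) g
  obtain ⟨y, hy, h2⟩ := out_mem (PP F) g'
  rw [FlD.del, indicator_of_mem ((h.op_mk le_rfl le_rfl g g').2 hg)]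
  show F.ℓ (F.n₀ * (g : G ⧸ PP F).out⁻¹ * (g' : G ⧸ PP F).out) -
    F.co (F.ht (g : G ⧸ PP F).out) ∘ F.ι - F.co (F.ht (g' : G ⧸ PP F).out) = _
  rw [h1, h2, show F.n₀ * (g * x)⁻¹ * (g' * y) = F.n₀ * (x⁻¹ * (g⁻¹ * g') * y) by group,
    h.pair_ℓ hx hy (mul_assoc F.n₀ _ _ ▸ hg), h.co_ht_P hx, h.co_ht_P hy, mul_assoc]
  funext i
  simp only [Pi.sub_apply, Pi.add_apply, Function.comp]
  ring

theorem contOn_del : ContinuousOn F.del (F.Op _ _) := by
  have c : Continuous fun g => F.co (F.ht g) := cont_co.comp h.cont_ht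
  refine cont_quo₂ (h.isOpen_Op le_rfl le_rfl) (ContinuousOn.congr ?_
    fun q hq => h.del_mk ((h.op_mk le_rfl le_rfl _ _).1 hq))
  exact ((h.contOn_ℓ.comp (f := fun q : G × G => F.n₀ * q.1⁻¹ * q.2) (by fun_prop)
    fun q hq => (h.op_mk le_rfl le_rfl _ _).1 hq).sub (continuous_pi fun i => (continuous_apply
      (F.ι i)).comp (c.comp continuous_fst)).continuousOn).sub (c.comp continuous_snd).continuousOn

theorem del_smul (s : G) {x y : F.Y Finset.univ} (hq : (x, y) ∈ F.Op _ _) :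
    F.del (s • x, s • y) + F.cc s x ∘ F.ι + F.cc s y = F.del (x, y) := by
  obtain ⟨g, rfl⟩ := QuotientGroup.mk_surjective x
  obtain ⟨g', rfl⟩ := QuotientGroup.mk_surjective y
  have h1 := (h.op_mk le_rfl le_rfl _ _).1 hq
  have h2 : F.n₀ * (s * g)⁻¹ * (s * g') = F.n₀ * g⁻¹ * g' := by group
  rw [smul_mk, smul_mk, h.del_mk (h2 ▸ h1), h.del_mk h1, h2, h.cc_mk, h.cc_mk]
  funext i
  simp only [Pi.sub_apply, Pi.add_apply, Function.comp]
  ring

theorem dd_eq {H : Subgroup G} {t : (Fin r → ℝ) →ₗ[ℝ] X} (e : F.Ht H t)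
    (hι : ∀ x, t x = 0 → t (x ∘ F.ι) = 0) {g g' : G} (hg : F.n₀ * g⁻¹ * g' ∈ F.Ω) :
    F.dd H t (g, g') = t (F.del (g, g')) + t (F.co (F.ht g) ∘ F.ι) + t (F.co (F.ht g')) := by
  rw [h.dd_mk e hι hg, h.del_mk hg, map_sub, map_sub]
  abel

/-- the pairing in polar coordinates; `j` is the opposition in the coordinates `t` -/
theorem dd_polar {H : Subgroup G} {t : (Fin r → ℝ) →ₗ[ℝ] X} (e : F.Ht H t) {j : X → X}
    (hj : ∀ x, t (x ∘ F.ι) = j (t x)) (h0 : j 0 = 0) {z w : G ⧸ H} (hq : (z, w) ∈ F.Op H H) :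
    F.dd H t (z, w) = t (F.del (F.dir H _ z, F.dir H _ w)) + j (F.hq H t z) + F.hq H t w := by
  obtain ⟨g, rfl⟩ := QuotientGroup.mk_surjective z
  obtain ⟨g', rfl⟩ := QuotientGroup.mk_surjective w
  rw [h.dd_eq e (fun x hx => by rw [hj, hx, h0]) ((h.op_mk e.le e.le _ _).1 hq), h.dir_mk e,
    h.dir_mk e, h.hq_mk e, h.hq_mk e, hj]

variable [SecondCountableTopology G]

theorem meas_del : Measurable F.del := by
  classical
  have o := h.isOpen_Op (le_refl (PP F)) (le_refl (PP F))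
  have := h.contOn_del.measurable_piecewise (continuousOn_const (c := 0)) o.measurableSet
  rwa [← Pi.zero_def, piecewise_eq_indicator, FlD.del, indicator_indicator, inter_self] at this

theorem geo (τ : (Fin r → ℝ) →ₗ[ℝ] ℝ) : P092RK.Geo (F.Op (PP F) (PP F)) (fun q => τ (F.del q))
    (fun s x => τ (F.cc s x ∘ F.ι)) fun s y => τ (F.cc s y) where
  opn := h.isOpen_Op le_rfl le_rfl
  inv s x y := (h.op_smul le_rfl le_rfl s x y).2
  meas := τ.continuous_of_finiteDimensional.measurable.comp h.meas_del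
  cont := τ.continuous_of_finiteDimensional.comp_continuousOn h.contOn_del
  mco s := (τ.continuous_of_finiteDimensional.comp (continuous_pi fun i => (continuous_apply
    (F.ι i)).comp (h.cont_cc.comp (Continuous.prodMk_right s)))).measurable
  cco := τ.continuous_of_finiteDimensional.comp h.cont_cc
  coc s s' y := by rw [h.cc_mul, map_add]
  rel s x y hq := by rw [← map_add, ← map_add, h.del_smul s hq]

theorem pr_fl [LocallyCompactSpace G] [MeasurableSpace G] [BorelSpace G] [ProperSpace k]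
    (μ : Measure G) [μ.IsHaarMeasure] [μ.IsMulRightInvariant] (L : Set (ZZ F)) (Q Q' : Set (YY F))
    (hL : IsCompact L) (hQ : IsCompact Q) (hQ' : IsCompact Q') (hs : Q ×ˢ Q' ⊆ F.Op _ _) :
    ∃ c, c ≠ ∞ ∧ P092RK.PR μ (F.dir (NN F) Finset.univ) L Q Q' c := by
  haveI := h.isClosed_P Finset.univ
  obtain ⟨c, c0, hc⟩ := h.pr_opp μ h.Ht_N Function.injective_id (hQ'.prod
    (hL.inter_right (hQ.isClosed.preimage (h.cont_dir h.Ht_N Finset.univ)))) fun p hp =>
      (h.op_dir_right _ _ le_rfl).1 (h.op_swap le_rfl le_rfl (hs (mk_mem_prod hp.2.2 hp.1)))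
  exact ⟨c, c0, hc⟩

end Fl

end Vale.Agent.P092GK
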