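import Vale.Agent.P092GK.LiftR

/-!
P092, higher rank (helper83): descent for the limit of the windows.
-/

set_option linter.all false

open scoped InnerProductSpace ENNReal NNReal Pointwise
open MeasureTheory Filter Topology ContinuousLinearMap Set

namespace Vale.Agent.P092HR

open Vale.Agent.P092CP Vale.Agent.P092RD Vale.Agent.P092GK Vale.Agent.P092TH
open Vale.Agent.P092.RC (Cm)

variable {k : Type} [NontriviallyNormedField k] [ProperSpace k] {G K : Type} [Group G]
  [TopologicalSpace G] [IsTopologicalGroup G] [LocallyCompactSpace G] [SecondCountableTopology G]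
  [T2Space G] [MeasurableSpace G] [BorelSpace G] [NormedAddCommGroup K] [InnerProductSpace ℂ K]
  [CompleteSpace K] {μ : Measure G} [μ.IsHaarMeasure] {W : Set (K →L[ℂ] K)} {r : ℕ}
  {F : FlD k G r} {C : Cpl μ μ W}

theorem isOpen_tube {Y Z : Type*} [TopologicalSpace Y] [TopologicalSpace Z] {A : Set Y}
    (hA : IsCompact A) {O : Set (Y × Z)} (hO : IsOpen O) : IsOpen {z | ∀ y ∈ A, (y, z) ∈ O} :=
  isOpen_iff_mem_nhds.2 fun z hz => by
    obtain ⟨u, v, -, h2, h3, h4, h5⟩ := generalized_tube_lemma hA (isCompact_singleton (x := z)) hO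
      (by rintro ⟨y, _⟩ ⟨hy, rfl⟩; exact hz y hy)
    exact mem_of_superset (h2.mem_nhds (h4 rfl)) fun w hw y hy => h5 ⟨h3 hy, hw⟩

omit [ProperSpace k] [MeasurableSpace G] [BorelSpace G] [LocallyCompactSpace G]
  [SecondCountableTopology G] in
theorem t2Z (h : Fl F) : T2Space (ZZ F) :=
  haveI := h.isClosed_N Finset.univ
  inferInstance

/-- **Descent** -/
theorem desc_lm (h : Fl F) {ι : Type} {U : Ultrafilter ι} {ν : ι → Measure G}
    [∀ n, IsProbabilityMeasure (ν n)] {V : Set G} (hV : Bp μ V) {ζ : ι → ZZ F}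
    {θ₀ : POM (ZZ F) K} (hL : Lm C U ν V ζ θ₀) (A : Set (YY F)) (S : Set (ZZ F))
    (hA : IsCompact A) (hS : IsCompact S) (hs : A ×ˢ S ⊆ F.Op _ _) :
    ∃ c : ℝ≥0∞, c ≠ ∞ ∧ ∀ Ψ : POM (YY F) K, (∀ φ, Bd φ → Cm W (Ψ.f φ)) → Cov C.t.π Ψ →
      tq C.t (θ₀.P S) (Ψ.P A) ≤ c := by
  haveI := t2Z h
  haveI := h.isClosed_P Finset.univ
  haveI := C.s.right
  obtain ⟨S', f, h2, h3, h4, h5, h6⟩ := exists_bump hS
    (isOpen_tube hA (h.isOpen_Op le_rfl (FlD.N_le_P _))) fun z hz y hy => hs ⟨hy, hz⟩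
  obtain ⟨c, c0, hc⟩ := h.pr_opp μ h.Ht_N Function.injective_id (hA.prod h2)
    fun p hp => h3 hp.2 _ hp.1
  refine ⟨_, ENNReal.mul_ne_top (ENNReal.mul_ne_top (ENNReal.inv_ne_top.2 hV.pos)
    (hV.cpt.mul hV.cpt).measure_ne_top) c0, fun Ψ cm cov => le_trans ?_
      (hL.desc_set hV cm cov hA.measurableSet h2.measurableSet hc f h5 h6)⟩
  refine ENNReal.tsum_le_tsum fun γ => mul_le_mul_right (ENNReal.ofReal_le_ofReal ?_) _
  rw [re_real θ₀ (bd_cc f), θ₀.inner_P hS.measurableSet, Complex.ofReal_re,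
    ← integral_indicator_one hS.measurableSet]
  refine integral_mono ((integrable_const 1).indicator hS.measurableSet)
    (f.continuous.integrable_of_hasCompactSupport f.hasCompactSupport) fun z => ?_
  by_cases a : z ∈ S
  · simp [a, h4 z a]
  · simp [a, (h6 z).1]

end Vale.Agent.P092HR
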