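import Mathlib.Analysis.Normed.Module.FiniteDimension

/-!
P092, group package (helper83): a metric on the lines of a finite dimensional normed space.
-/

set_option linter.all false

open Filter Topology

namespace Vale.Agent.P092GK

variable (k : Type) [NontriviallyNormedField k] {E : Type} [NormedAddCommGroup E] [NormedSpace k E]

/-- the distance of the lines spanned by `x` and `y` -/
noncomputable def pd (x y : E) : ℝ :=
  ⨆ ψ : {ψ : E →L[k] k // ‖ψ‖ ≤ 1}, |‖ψ.1 x‖ / ‖x‖ - ‖ψ.1 y‖ / ‖y‖|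

variable {k}

theorem pd_aux (ψ : {ψ : E →L[k] k // ‖ψ‖ ≤ 1}) (x : E) :
    0 ≤ ‖ψ.1 x‖ / ‖x‖ ∧ ‖ψ.1 x‖ / ‖x‖ ≤ 1 :=
  ⟨by positivity, div_le_one_of_le₀ ((ψ.1.le_opNorm x).trans
    (mul_le_of_le_one_left (norm_nonneg _) ψ.2)) (norm_nonneg _)⟩

theorem pd_aux2 (ψ : {ψ : E →L[k] k // ‖ψ‖ ≤ 1}) (x y : E) :
    |‖ψ.1 x‖ / ‖x‖ - ‖ψ.1 y‖ / ‖y‖| ≤ 1 := by
  rw [abs_le]
  constructor <;> linarith [(pd_aux ψ x).1, (pd_aux ψ x).2, (pd_aux ψ y).1, (pd_aux ψ y).2]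

theorem le_pd (ψ : E →L[k] k) (hψ : ‖ψ‖ ≤ 1) (x y : E) :
    |‖ψ x‖ / ‖x‖ - ‖ψ y‖ / ‖y‖| ≤ pd k x y :=
  le_ciSup (f := fun ψ : {ψ : E →L[k] k // ‖ψ‖ ≤ 1} => |‖ψ.1 x‖ / ‖x‖ - ‖ψ.1 y‖ / ‖y‖|)
    ⟨1, by rintro _ ⟨ψ, rfl⟩; exact pd_aux2 ψ x y⟩ ⟨ψ, hψ⟩

theorem pd_le_of {x y : E} {c : ℝ}
    (h : ∀ ψ : E →L[k] k, ‖ψ‖ ≤ 1 → |‖ψ x‖ / ‖x‖ - ‖ψ y‖ / ‖y‖| ≤ c) : pd k x y ≤ c :=
  haveI : Nonempty {ψ : E →L[k] k // ‖ψ‖ ≤ 1} := ⟨⟨0, by simp⟩⟩
  ciSup_le fun ψ => h ψ.1 ψ.2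

theorem pd_nonneg (x y : E) : 0 ≤ pd k x y :=
  (abs_nonneg _).trans (le_pd (0 : E →L[k] k) (by simp) x y)

theorem pd_le_one (x y : E) : pd k x y ≤ 1 := pd_le_of fun ψ hψ => pd_aux2 ⟨ψ, hψ⟩ x y

theorem pd_self (x : E) : pd k x x = 0 :=
  le_antisymm (pd_le_of fun ψ _ => by simp) (pd_nonneg _ _)

theorem pd_comm (x y : E) : pd k x y = pd k y x := by
  simp only [pd, abs_sub_comm]

theorem pd_triangle (x y z : E) : pd k x z ≤ pd k x y + pd k y z :=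
  pd_le_of fun ψ hψ => (abs_sub_le _ _ _).trans (add_le_add (le_pd ψ hψ x y) (le_pd ψ hψ y z))

theorem pd_smul_left {c : k} (hc : c ≠ 0) (x y : E) : pd k (c • x) y = pd k x y := by
  simp only [pd, map_smul, norm_smul, mul_div_mul_left _ _ (norm_ne_zero_iff.2 hc)]

theorem pd_smul_right {c : k} (hc : c ≠ 0) (x y : E) : pd k x (c • y) = pd k x y := by
  rw [pd_comm, pd_smul_left hc, pd_comm]

theorem pd_le_sub (x : E) {y : E} (hy : y ≠ 0) : pd k x y ≤ 2 * (‖x - y‖ / ‖y‖) := by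
  have hy' := norm_pos_iff.2 hy
  refine pd_le_of fun ψ hψ => ?_
  have h1 : |‖ψ x‖ / ‖y‖ - ‖ψ y‖ / ‖y‖| ≤ ‖x - y‖ / ‖y‖ := by
    rw [← sub_div, abs_div, abs_of_pos hy']
    refine div_le_div_of_nonneg_right ((abs_norm_sub_norm_le _ _).trans ?_) hy'.le
    rw [← map_sub]
    exact (ψ.le_opNorm _).trans (mul_le_of_le_one_left (norm_nonneg _) hψ)
  have h2 : |‖ψ x‖ / ‖x‖ - ‖ψ x‖ / ‖y‖| ≤ ‖x - y‖ / ‖y‖ := by
    by_cases hx : x = 0
    · subst hx; simp; positivity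
    · have hx' := norm_pos_iff.2 hx
      have h3 : ‖ψ x‖ / ‖x‖ - ‖ψ x‖ / ‖y‖ = (‖ψ x‖ / ‖x‖) * ((‖y‖ - ‖x‖) / ‖y‖) := by field_simp
      rw [h3, abs_mul, abs_of_nonneg (pd_aux ⟨ψ, hψ⟩ x).1, abs_div, abs_of_pos hy']
      refine (mul_le_of_le_one_left (by positivity) (pd_aux ⟨ψ, hψ⟩ x).2).trans ?_
      rw [abs_sub_comm]
      exact div_le_div_of_nonneg_right (abs_norm_sub_norm_le _ _) hy'.le
  linarith [abs_sub_le (‖ψ x‖ / ‖x‖) (‖ψ x‖ / ‖y‖) (‖ψ y‖ / ‖y‖)]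

theorem pd_le {c : k} {x y : E} {ε : ℝ} (hy : y ≠ 0) (h : ‖c • x - y‖ ≤ ε * ‖y‖) :
    pd k x y ≤ 2 * ε := by
  have hy' := norm_pos_iff.2 hy
  by_cases hc : c = 0
  · rw [hc, zero_smul, zero_sub, norm_neg] at h
    have : 1 ≤ ε := by
      by_contra hn
      nlinarith [not_le.1 hn]
    linarith [pd_le_one (k := k) x y]
  · rw [← pd_smul_left hc]
    exact (pd_le_sub _ hy).trans (by gcongr; exact (div_le_iff₀ hy').2 h)

theorem continuousAt_pd {X : Type} [TopologicalSpace X] {f g : X → E} {a : X}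
    (hf : ContinuousAt f a) (hg : ContinuousAt g a) (hf0 : f a ≠ 0) (hg0 : g a ≠ 0) :
    ContinuousAt (fun t => pd k (f t) (g t)) a := by
  have h1 : Tendsto (fun t => 2 * (‖f t - f a‖ / ‖f a‖) + 2 * (‖g t - g a‖ / ‖g a‖)) (𝓝 a)
      (𝓝 (2 * (‖f a - f a‖ / ‖f a‖) + 2 * (‖g a - g a‖ / ‖g a‖))) :=
    (((hf.sub continuousAt_const).norm.div_const _).const_mul 2).add
      (((hg.sub continuousAt_const).norm.div_const _).const_mul 2)
  simp only [sub_self, norm_zero, zero_div, mul_zero, add_zero] at h1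
  refine tendsto_iff_norm_sub_tendsto_zero.2 (squeeze_zero (fun _ => norm_nonneg _) (fun t => ?_) h1)
  have a1 := pd_le_sub (k := k) (f t) hf0
  have a2 := pd_le_sub (k := k) (g t) hg0
  have a3 := pd_triangle (k := k) (f t) (f a) (g t)
  have a4 := pd_triangle (k := k) (f a) (g a) (g t)
  have a5 := pd_triangle (k := k) (f a) (f t) (g a)
  have a6 := pd_triangle (k := k) (f t) (g t) (g a)
  rw [pd_comm (g a)] at a4
  rw [pd_comm (f a) (f t)] at a5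
  rw [Real.norm_eq_abs, abs_le]
  constructor <;> linarith

variable [CompleteSpace k] [FiniteDimensional k E]

variable (k E) in
/-- close lines have close generators -/
theorem exists_approx : ∃ C : ℝ, 1 ≤ C ∧ ∀ x y : E, x ≠ 0 →
    ∃ c : k, ‖c • x - y‖ ≤ C * pd k x y * ‖y‖ := by
  let e : E ≃L[k] (Fin (Module.finrank k E) → k) := ContinuousLinearEquiv.ofFinrankEq (by simp)
  let T : E →L[k] (Fin (Module.finrank k E) → k) := e
  let S : (Fin (Module.finrank k E) → k) →L[k] E := e.symm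
  obtain ⟨q, hq0, hq⟩ := NormedField.exists_norm_lt k (r := 1 / (2 * ‖T‖ + 1)) (by positivity)
  refine ⟨1 + ‖S‖ / ‖q‖, le_add_of_nonneg_right (by positivity), fun x y hx => ?_⟩
  have hx' : e x ≠ 0 := fun h => hx (by simpa using h)
  obtain ⟨a₀, ha₀⟩ := Function.ne_iff.1 hx'
  obtain ⟨a, -, ha⟩ := Finset.exists_max_image Finset.univ (fun a => ‖e x a‖)
    ⟨a₀, Finset.mem_univ _⟩
  have hxa : 0 < ‖e x a‖ := (norm_pos_iff.2 ha₀).trans_le (ha a₀ (Finset.mem_univ _))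
  have hxa' := norm_pos_iff.1 hxa
  refine ⟨e y a / e x a, ?_⟩
  by_cases hy : y = 0
  · subst hy; simp
  have hy' := norm_pos_iff.2 hy
  have hp := pd_nonneg (k := k) x y
  have h1 : ‖e ((e y a / e x a) • x - y)‖ ≤ pd k x y * ‖y‖ / ‖q‖ := by
    refine (pi_norm_le_iff_of_nonneg (by positivity)).2 fun b => ?_
    let ψ : E →L[k] k := q • ((ContinuousLinearMap.proj b).comp T -
      (e x b / e x a) • (ContinuousLinearMap.proj a).comp T)
    have hψ : ∀ w, ψ w = q * (e w b - e x b / e x a * e w a) := fun w => rfl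
    have hn : ‖ψ‖ ≤ 1 := by
      refine ContinuousLinearMap.opNorm_le_bound _ zero_le_one fun w => ?_
      have h2 : ∀ i, ‖e w i‖ ≤ ‖T‖ * ‖w‖ := fun i => (norm_le_pi_norm (e w) i).trans (T.le_opNorm w)
      have h3 : ‖e x b / e x a‖ ≤ 1 := by
        rw [norm_div]; exact div_le_one_of_le₀ (ha b (Finset.mem_univ _)) hxa.le
      have h4 : ‖e w b - e x b / e x a * e w a‖ ≤ (2 * ‖T‖ + 1) * ‖w‖ := by
        refine (norm_sub_le _ _).trans ?_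
        rw [norm_mul]
        nlinarith [h2 a, h2 b, norm_nonneg (e w a), norm_nonneg w]
      rw [hψ, norm_mul]
      have h5 : ‖q‖ * (2 * ‖T‖ + 1) ≤ 1 := (le_div_iff₀ (by positivity)).1 hq.le
      calc _ ≤ ‖q‖ * ((2 * ‖T‖ + 1) * ‖w‖) := by gcongr
        _ ≤ _ := by rw [← mul_assoc]; gcongr
    have h2 := le_pd ψ hn x y
    have h3 : ψ x = 0 := by rw [hψ, div_mul_cancel₀ _ hxa', sub_self, mul_zero]
    rw [h3, norm_zero, zero_div, zero_sub, abs_neg, abs_of_nonneg (by positivity),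
      div_le_iff₀ hy', hψ, norm_mul] at h2
    rw [le_div_iff₀ hq0, mul_comm]
    refine le_trans (le_of_eq ?_) h2
    rw [← norm_neg (e y b - _)]
    congr 2
    simp only [map_sub, map_smul, Pi.sub_apply, Pi.smul_apply, smul_eq_mul]
    field_simp
    ring
  have h2 := S.le_opNorm (e ((e y a / e x a) • x - y))
  have h3 : S (e ((e y a / e x a) • x - y)) = (e y a / e x a) • x - y := e.symm_apply_apply _
  rw [h3] at h2
  calc _ ≤ ‖S‖ * (pd k x y * ‖y‖ / ‖q‖) := h2.trans (by gcongr)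
    _ = ‖S‖ / ‖q‖ * pd k x y * ‖y‖ := by ring
    _ ≤ _ := by gcongr; linarith

theorem pd_eq_zero {x y : E} (hx : x ≠ 0) (h : pd k x y = 0) : ∃ c : k, y = c • x := by
  obtain ⟨C, -, hC⟩ := exists_approx k E
  obtain ⟨c, hc⟩ := hC x y hx
  rw [h, mul_zero, zero_mul] at hc
  exact ⟨c, (sub_eq_zero.1 (norm_le_zero_iff.1 hc)).symm⟩

variable (k E) in
/-- invertible maps act by Lipschitz maps -/
theorem pd_map : ∃ C : ℝ, 1 ≤ C ∧ ∀ (T S : E →L[k] E) (x y : E), x ≠ 0 → y ≠ 0 → S (T y) = y →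
    pd k (T x) (T y) ≤ C * (‖T‖ * ‖S‖) * pd k x y := by
  obtain ⟨C, hC1, hC⟩ := exists_approx k E
  refine ⟨2 * C, by linarith, fun T S x y hx hy hS => ?_⟩
  obtain ⟨c, hc⟩ := hC x y hx
  have h1 : T y ≠ 0 := fun h => hy (by rw [← hS, h, map_zero])
  have h2 : ‖y‖ ≤ ‖S‖ * ‖T y‖ := by
    conv_lhs => rw [← hS]
    exact S.le_opNorm _
  have hp := pd_nonneg (k := k) x y
  have h3 : ‖c • T x - T y‖ ≤ (C * (‖T‖ * ‖S‖) * pd k x y) * ‖T y‖ := by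
    rw [← map_smul, ← map_sub]
    calc _ ≤ ‖T‖ * (C * pd k x y * ‖y‖) := (T.le_opNorm _).trans (by gcongr)
      _ ≤ ‖T‖ * (C * pd k x y * (‖S‖ * ‖T y‖)) := by gcongr
      _ = _ := by ring
  exact (pd_le h1 h3).trans (le_of_eq (by ring))

end Vale.Agent.P092GK
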