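import Vale.Agent.P092GK.Gauge
import Vale.Agent.P092GK.Line

/-!
P092, group package (helper83): parabolic subgroups, flag spaces with their metric, cones.
-/

set_option linter.all false

open Matrix Filter Topology

namespace Vale.Agent.P092GK

open FlD

variable {k : Type} [NontriviallyNormedField k] {G : Type} [Group G] {r : ℕ} {F : FlD k G r}

theorem FlD.inv_v {j : Fin r} {g : G} {d : k} (h : F.V j g (F.v j) = d • F.v j) :
    F.V j g⁻¹ (F.v j) = d⁻¹ • F.v j := by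
  have h1 := V_inv j g (F.v j)
  rw [h, map_smul] at h1
  by_cases hd : d = 0
  · rw [hd, zero_smul] at h1
    rw [← h1, map_zero, smul_zero]
  · conv_rhs => rw [← h1, smul_smul, inv_mul_cancel₀ hd, one_smul]

theorem FlD.inv_φ {j : Fin r} {g : G} {d : k} (h : ∀ x, F.φ j (F.V j g x) = d * F.φ j x) (x : F.E j) :
    F.φ j (F.V j g⁻¹ x) = d⁻¹ * F.φ j x := by
  have h1 := h (F.V j g⁻¹ x)
  rw [V_inv'] at h1
  by_cases hd : d = 0
  · have h2 : ∀ y, F.φ j y = 0 := fun y => by rw [← V_inv' j g y, h, hd, zero_mul]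
    rw [h2, h2, mul_zero]
  · rw [h1, ← mul_assoc, inv_mul_cancel₀ hd, one_mul]

/-- the parabolic subgroup of type `θ` -/
def FlD.P (F : FlD k G r) (θ : Finset (Fin r)) : Subgroup G where
  carrier := {g | ∀ j ∈ θ, ∃ d : k, F.V j g (F.v j) = d • F.v j}
  one_mem' j _ := ⟨1, by rw [V_one, one_smul]⟩
  mul_mem' {g g'} hg hg' j hj := by
    obtain ⟨d, hd⟩ := hg j hj
    obtain ⟨d', hd'⟩ := hg' j hj
    exact ⟨d' * d, by rw [V_mul, hd', map_smul, hd, smul_smul]⟩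
  inv_mem' {g} hg j hj := by
    obtain ⟨d, hd⟩ := hg j hj
    exact ⟨d⁻¹, inv_v hd⟩

/-- the opposite parabolic subgroup of type `θ` -/
def FlD.Pm (F : FlD k G r) (θ : Finset (Fin r)) : Subgroup G where
  carrier := {g | ∀ j ∈ θ, ∃ d : k, ∀ x, F.φ j (F.V j g x) = d * F.φ j x}
  one_mem' j _ := ⟨1, fun x => by rw [V_one, one_mul]⟩
  mul_mem' {g g'} hg hg' j hj := by
    obtain ⟨d, hd⟩ := hg j hj
    obtain ⟨d', hd'⟩ := hg' j hj
    exact ⟨d * d', fun x => by rw [V_mul, hd, hd', mul_assoc]⟩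
  inv_mem' {g} hg j hj := by
    obtain ⟨d, hd⟩ := hg j hj
    exact ⟨d⁻¹, inv_φ hd⟩

/-- the horospherical subgroup of type `θ`; for `θ = univ` it is `M U⁺` -/
def FlD.N (F : FlD k G r) (θ : Finset (Fin r)) : Subgroup G where
  carrier := {g | ∀ j ∈ θ, ∃ d : k, ‖d‖ = 1 ∧ F.V j g (F.v j) = d • F.v j}
  one_mem' j _ := ⟨1, norm_one, by rw [V_one, one_smul]⟩
  mul_mem' {g g'} hg hg' j hj := by
    obtain ⟨d, h1, hd⟩ := hg j hj
    obtain ⟨d', h2, hd'⟩ := hg' j hj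
    exact ⟨d' * d, by rw [norm_mul, h1, h2, one_mul], by rw [V_mul, hd', map_smul, hd, smul_smul]⟩
  inv_mem' {g} hg j hj := by
    obtain ⟨d, h1, hd⟩ := hg j hj
    exact ⟨d⁻¹, by rw [norm_inv, h1, inv_one], inv_v hd⟩

/-- the compact part of `Z` -/
def FlD.M (F : FlD k G r) : Subgroup G := F.Z ⊓ F.N Finset.univ

/-- the flag space of type `θ` -/
abbrev FlD.Y (F : FlD k G r) (θ : Finset (Fin r)) : Type := G ⧸ F.P θ

/-- the cone of type `θ` -/
abbrev FlD.Cn (F : FlD k G r) (θ : Finset (Fin r)) : Type := G ⧸ F.N θ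

namespace FlD

theorem mem_P {θ : Finset (Fin r)} {g : G} :
    g ∈ F.P θ ↔ ∀ j ∈ θ, ∃ d : k, F.V j g (F.v j) = d • F.v j := Iff.rfl

theorem mem_Pm {θ : Finset (Fin r)} {g : G} :
    g ∈ F.Pm θ ↔ ∀ j ∈ θ, ∃ d : k, ∀ x, F.φ j (F.V j g x) = d * F.φ j x := Iff.rfl

theorem mem_N {θ : Finset (Fin r)} {g : G} :
    g ∈ F.N θ ↔ ∀ j ∈ θ, ∃ d : k, ‖d‖ = 1 ∧ F.V j g (F.v j) = d • F.v j := Iff.rfl

theorem N_le_P (θ : Finset (Fin r)) : F.N θ ≤ F.P θ := fun _ hg j hj =>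
  (hg j hj).imp fun _ h => h.2

theorem P_anti {θ θ' : Finset (Fin r)} (h : θ ⊆ θ') : F.P θ' ≤ F.P θ := fun _ hg j hj => hg j (h hj)

theorem N_anti {θ θ' : Finset (Fin r)} (h : θ ⊆ θ') : F.N θ' ≤ F.N θ := fun _ hg j hj => hg j (h hj)

/-- the distance of the `j`-flags of `x` and `y` -/
noncomputable def dj (F : FlD k G r) (j : Fin r) (x y : G) : ℝ :=
  pd k (F.V j x (F.v j)) (F.V j y (F.v j))

theorem dj_comm (j : Fin r) (x y : G) : F.dj j x y = F.dj j y x := pd_comm _ _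

theorem dj_P {θ : Finset (Fin r)} {p : G} (hp : p ∈ F.P θ) {j : Fin r} (hj : j ∈ θ) (x y : G) :
    F.dj j (x * p) y = F.dj j x y := by
  obtain ⟨d, hd⟩ := hp j hj
  rw [dj, dj, V_mul, hd, map_smul]
  by_cases h0 : d = 0
  · have h1 := V_inv j p (F.v j)
    rw [hd, h0, zero_smul, map_zero] at h1
    rw [← h1, map_zero, smul_zero]
  · exact pd_smul_left h0 _ _

/-- the distance of the `θ`-flags of `x` and `y` -/
noncomputable def dP (F : FlD k G r) (θ : Finset (Fin r)) (x y : G) : ℝ :=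
  ‖fun j => if j ∈ θ then F.dj j x y else 0‖

theorem dP_comm (θ : Finset (Fin r)) (x y : G) : F.dP θ x y = F.dP θ y x := by
  simp only [dP, dj_comm _ x y]

theorem dP_P {θ : Finset (Fin r)} {p : G} (hp : p ∈ F.P θ) (x y : G) :
    F.dP θ (x * p) y = F.dP θ x y := by
  rw [dP, dP]
  congr 1
  funext j
  by_cases hj : j ∈ θ
  · rw [if_pos hj, if_pos hj, dj_P hp hj]
  · rw [if_neg hj, if_neg hj]

theorem dP_nonneg (θ : Finset (Fin r)) (x y : G) : 0 ≤ F.dP θ x y := norm_nonneg _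

theorem dj_le_dP {θ : Finset (Fin r)} {j : Fin r} (hj : j ∈ θ) (x y : G) :
    F.dj j x y ≤ F.dP θ x y := by
  have := norm_le_pi_norm (fun j => if j ∈ θ then F.dj j x y else 0) j
  rw [if_pos hj] at this
  exact (le_abs_self _).trans this

theorem dP_le {θ : Finset (Fin r)} {x y : G} {c : ℝ} (hc : 0 ≤ c) (h : ∀ j ∈ θ, F.dj j x y ≤ c) :
    F.dP θ x y ≤ c := by
  refine (pi_norm_le_iff_of_nonneg hc).2 fun j => ?_
  by_cases hj : j ∈ θ
  · rw [if_pos hj, Real.norm_eq_abs, abs_of_nonneg (a := F.dj j x y) (pd_nonneg _ _)]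
    exact h j hj
  · rw [if_neg hj, norm_zero]; exact hc

/-- the metric of the flag space -/
noncomputable def dY (F : FlD k G r) (θ : Finset (Fin r)) (ξ η : F.Y θ) : ℝ :=
  Quotient.liftOn₂' ξ η (F.dP θ) fun x y x' y' hx hy => by
    rw [QuotientGroup.leftRel_apply] at hx hy
    rw [← dP_P hx, mul_inv_cancel_left, dP_comm, ← dP_P hy, mul_inv_cancel_left, dP_comm]

theorem dY_mk (θ : Finset (Fin r)) (x y : G) : F.dY θ (x : F.Y θ) (y : F.Y θ) = F.dP θ x y := rfl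

theorem dY_nonneg {θ : Finset (Fin r)} (ξ η : F.Y θ) : 0 ≤ F.dY θ ξ η :=
  Quotient.inductionOn₂' ξ η fun x y => dP_nonneg θ x y

theorem dY_le_one {θ : Finset (Fin r)} (ξ η : F.Y θ) : F.dY θ ξ η ≤ 1 :=
  Quotient.inductionOn₂' ξ η fun x y => dP_le zero_le_one fun _ _ => pd_le_one _ _

theorem dY_comm {θ : Finset (Fin r)} (ξ η : F.Y θ) : F.dY θ ξ η = F.dY θ η ξ :=
  Quotient.inductionOn₂' ξ η fun x y => dP_comm θ x y

theorem dY_self {θ : Finset (Fin r)} (ξ : F.Y θ) : F.dY θ ξ ξ = 0 :=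
  Quotient.inductionOn' ξ fun x => le_antisymm (dP_le le_rfl fun _ _ => (pd_self _).le)
    (dP_nonneg θ x x)

theorem dY_triangle {θ : Finset (Fin r)} (ξ η ζ : F.Y θ) :
    F.dY θ ξ ζ ≤ F.dY θ ξ η + F.dY θ η ζ :=
  Quotient.inductionOn₃' ξ η ζ fun x y z => dP_le (add_nonneg (dP_nonneg θ x y) (dP_nonneg θ y z))
    fun j hj => (pd_triangle _ _ _).trans (add_le_add (dj_le_dP hj x y) (dj_le_dP hj y z))

theorem smul_mk {θ : Finset (Fin r)} (s x : G) : s • (x : F.Y θ) = ((s * x : G) : F.Y θ) := rfl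

end FlD

variable [TopologicalSpace G]

namespace Fl

variable (h : Fl F)
include h

theorem z_mem_P {z : G} (hz : z ∈ F.Z) (θ : Finset (Fin r)) : z ∈ F.P θ :=
  fun j _ => ⟨_, h.zv z hz j⟩

theorem up_mem_N {u : G} (hu : u ∈ F.Up) (θ : Finset (Fin r)) : u ∈ F.N θ :=
  fun j _ => ⟨1, norm_one, by rw [h.upv u hu, one_smul]⟩

theorem up_mem_P {u : G} (hu : u ∈ F.Up) (θ : Finset (Fin r)) : u ∈ F.P θ :=
  N_le_P θ (h.up_mem_N hu θ)

theorem z_mem_Pm {z : G} (hz : z ∈ F.Z) (θ : Finset (Fin r)) : z ∈ F.Pm θ :=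
  fun j _ => ⟨_, h.zφ z hz j⟩

theorem um_mem_Pm {u : G} (hu : u ∈ F.Um) (θ : Finset (Fin r)) : u ∈ F.Pm θ :=
  fun j _ => ⟨1, fun x => by rw [h.umφ u hu, one_mul]⟩

theorem P_iff {θ : Finset (Fin r)} {g : G} :
    g ∈ F.P θ ↔ ∀ j ∈ θ, F.V j g (F.v j) = F.Δ j g • F.v j :=
  ⟨fun hg j hj => by
    obtain ⟨d, hd⟩ := hg j hj
    rw [FlD.Δ, hd, map_smul, h.φv, smul_eq_mul, mul_one], fun hg j hj => ⟨_, hg j hj⟩⟩

theorem Pm_iff {θ : Finset (Fin r)} {g : G} :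
    g ∈ F.Pm θ ↔ ∀ j ∈ θ, ∀ x, F.φ j (F.V j g x) = F.Δ j g * F.φ j x :=
  ⟨fun hg j hj x => by
    obtain ⟨d, hd⟩ := hg j hj
    rw [FlD.Δ, hd, hd, h.φv, mul_one], fun hg j hj => ⟨_, hg j hj⟩⟩

theorem N_iff {θ : Finset (Fin r)} {g : G} : g ∈ F.N θ ↔ g ∈ F.P θ ∧ ∀ j ∈ θ, ‖F.Δ j g‖ = 1 :=
  ⟨fun hg => ⟨N_le_P θ hg, fun j hj => by
    obtain ⟨d, h1, hd⟩ := hg j hj
    rw [FlD.Δ, hd, map_smul, h.φv, smul_eq_mul, mul_one, h1]⟩,
    fun hg j hj => ⟨_, hg.2 j hj, h.P_iff.1 hg.1 j hj⟩⟩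

theorem Δ_ne_P {θ : Finset (Fin r)} {g : G} (hg : g ∈ F.P θ) {j : Fin r} (hj : j ∈ θ) :
    F.Δ j g ≠ 0 := fun h0 => h.Vv_ne j g (by rw [h.P_iff.1 hg j hj, h0, zero_smul])

theorem Δ_ne_Pm {θ : Finset (Fin r)} {g : G} (hg : g ∈ F.Pm θ) {j : Fin r} (hj : j ∈ θ) :
    F.Δ j g ≠ 0 := fun h0 => h.φV_ne j g (by
      ext x
      rw [ContinuousLinearMap.comp_apply, h.Pm_iff.1 hg j hj, h0, zero_mul]; rfl)

theorem Δ_P {θ : Finset (Fin r)} {p : G} (hp : p ∈ F.P θ) {j : Fin r} (hj : j ∈ θ) (g : G) :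
    F.Δ j (g * p) = F.Δ j g * F.Δ j p := by
  rw [FlD.Δ, V_mul, h.P_iff.1 hp j hj, map_smul, map_smul, smul_eq_mul, mul_comm]; rfl

theorem Δ_Pm {θ : Finset (Fin r)} {p : G} (hp : p ∈ F.Pm θ) {j : Fin r} (hj : j ∈ θ) (g : G) :
    F.Δ j (p * g) = F.Δ j p * F.Δ j g := by
  rw [FlD.Δ, V_mul, h.Pm_iff.1 hp j hj]; rfl

theorem P_univ {g : G} : g ∈ F.P Finset.univ ↔ ∃ z ∈ F.Z, ∃ u ∈ F.Up, g = z * u := by
  refine ⟨fun hg => ?_, ?_⟩
  · have hΩ : g ∈ F.Ω := fun j => h.Δ_ne_P hg (Finset.mem_univ j)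
    have h1 : F.lo g = 1 := h.um_inj _ (h.lo_mem g hΩ) fun j => by
      have h2 := h.Vv_cell hΩ j
      rw [h.P_iff.1 hg j (Finset.mem_univ j)] at h2
      exact (smul_right_injective _ (hΩ j) h2).symm
    exact ⟨_, h.md_mem hΩ, _, h.up_mem g hΩ, by
      conv_lhs => rw [← F.lo_md_up g, h1, one_mul]⟩
  · rintro ⟨z, hz, u, hu, rfl⟩
    exact (F.P _).mul_mem (h.z_mem_P hz _) (h.up_mem_P hu _)

theorem Pm_univ {g : G} : g ∈ F.Pm Finset.univ ↔ ∃ u ∈ F.Um, ∃ z ∈ F.Z, g = u * z := by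
  refine ⟨fun hg => ?_, ?_⟩
  · have hΩ : g ∈ F.Ω := fun j => h.Δ_ne_Pm hg (Finset.mem_univ j)
    have h1 : F.up g = 1 := h.up_inj _ (h.up_mem g hΩ) fun j x => by
      have h2 := h.φV_cell hΩ j x
      rw [h.Pm_iff.1 hg j (Finset.mem_univ j)] at h2
      exact (mul_left_cancel₀ (hΩ j) h2).symm
    exact ⟨_, h.lo_mem g hΩ, _, h.md_mem hΩ, by
      conv_lhs => rw [← F.lo_md_up g, h1, mul_one]⟩
  · rintro ⟨u, hu, z, hz, rfl⟩
    exact (F.Pm _).mul_mem (h.um_mem_Pm hu _) (h.z_mem_Pm hz _)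

theorem P_inf_Pm {g : G} (h1 : g ∈ F.P Finset.univ) (h2 : g ∈ F.Pm Finset.univ) : g ∈ F.Z := by
  obtain ⟨z, hz, u, hu, e⟩ := h.P_univ.1 h1
  obtain ⟨w, hw, z', hz', e'⟩ := h.Pm_univ.1 h2
  have := h.cell_uniq F.Um.one_mem hz hu hw hz' F.Up.one_mem (by rw [one_mul, mul_one, ← e, ← e'])
  rw [e, this.2.2, mul_one]
  exact hz

theorem mem_M {z : G} : z ∈ F.M ↔ z ∈ F.Z ∧ F.ℓ z = 0 := by
  refine and_congr_right fun hz => ⟨fun hn => ?_, fun hl => h.N_iff.2 ⟨h.z_mem_P hz _, fun j _ => ?_⟩⟩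
  · rw [FlD.ℓ, ← co_zero (F := F)]
    congr 1
    funext j
    rw [(h.N_iff.1 hn).2 j (Finset.mem_univ j), Real.log_one]; rfl
  · rw [h.norm_Δ (h.z_mem hz), hl, ω_zero, Pi.zero_apply, Real.exp_zero]

theorem cpt_M : IsCompact (F.M : Set G) := by
  have e : (F.M : Set G) = {z | z ∈ F.Z ∧ ∀ i, |F.ℓ z i| ≤ 0} := by
    ext z
    simp only [SetLike.mem_coe, h.mem_M, Set.mem_setOf_eq, abs_nonpos_iff, funext_iff, Pi.zero_apply]
  rw [e]
  exact h.zprop 0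

theorem N_univ {g : G} : g ∈ F.N Finset.univ ↔ ∃ z ∈ F.M, ∃ u ∈ F.Up, g = z * u := by
  refine ⟨fun hg => ?_, ?_⟩
  · obtain ⟨z, hz, u, hu, e⟩ := h.P_univ.1 (N_le_P _ hg)
    refine ⟨z, ⟨hz, ?_⟩, u, hu, e⟩
    have : z = g * u⁻¹ := by rw [e]; group
    rw [this]
    exact (F.N _).mul_mem hg ((F.N _).inv_mem (h.up_mem_N hu _))
  · rintro ⟨z, hz, u, hu, rfl⟩
    exact (F.N _).mul_mem hz.2 (h.up_mem_N hu _)

theorem ht_N {θ : Finset (Fin r)} {p : G} (hp : p ∈ F.N θ) {j : Fin r} (hj : j ∈ θ) (g : G) :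
    F.ht (g * p) j = F.ht g j := by
  obtain ⟨d, h1, hd⟩ := hp j hj
  rw [FlD.ht, V_mul, hd, map_smul, norm_smul, h1, one_mul]; rfl

theorem ht_P {θ : Finset (Fin r)} {p : G} (hp : p ∈ F.P θ) {j : Fin r} (hj : j ∈ θ) (g : G) :
    F.ht (g * p) j = F.ht g j + Real.log ‖F.Δ j p‖ := by
  rw [FlD.ht, V_mul, h.P_iff.1 hp j hj, map_smul, norm_smul, Real.log_mul
    (norm_ne_zero_iff.2 (h.Δ_ne_P hp hj)) (norm_ne_zero_iff.2 (h.Vv_ne j g)), add_comm]
  rfl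

theorem isClosed_P (θ : Finset (Fin r)) : IsClosed (F.P θ : Set G) := by
  have : (F.P θ : Set G) = ⋂ j ∈ θ, {g | F.V j g (F.v j) = F.Δ j g • F.v j} := by
    ext g; simp only [SetLike.mem_coe, h.P_iff, Set.mem_iInter, Set.mem_setOf_eq]
  rw [this]
  exact isClosed_biInter fun j _ => isClosed_eq (h.contVv j) ((h.contΔ j).smul continuous_const)

theorem isClosed_Pm (θ : Finset (Fin r)) : IsClosed (F.Pm θ : Set G) := by
  have : (F.Pm θ : Set G) = ⋂ j ∈ θ, ⋂ x, {g | F.φ j (F.V j g x) = F.Δ j g * F.φ j x} := by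
    ext g; simp only [SetLike.mem_coe, h.Pm_iff, Set.mem_iInter, Set.mem_setOf_eq]
  rw [this]
  exact isClosed_biInter fun j _ => isClosed_iInter fun x => isClosed_eq
    ((F.φ j).continuous.comp ((h.contV j).clm_apply continuous_const))
    ((h.contΔ j).mul continuous_const)

theorem isClosed_N (θ : Finset (Fin r)) : IsClosed (F.N θ : Set G) := by
  have : (F.N θ : Set G) = (F.P θ : Set G) ∩ ⋂ j ∈ θ, {g | ‖F.Δ j g‖ = 1} := by
    ext g; simp only [SetLike.mem_coe, h.N_iff, Set.mem_inter_iff, Set.mem_iInter, Set.mem_setOf_eq]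
  rw [this]
  exact (h.isClosed_P θ).inter
    (isClosed_biInter fun j _ => isClosed_eq (h.contΔ j).norm continuous_const)

theorem cont_dj (j : Fin r) : Continuous fun q : G × G => F.dj j q.1 q.2 :=
  continuous_iff_continuousAt.2 fun q => continuousAt_pd
    ((h.contVv j).comp continuous_fst).continuousAt ((h.contVv j).comp continuous_snd).continuousAt
    (h.Vv_ne j _) (h.Vv_ne j _)

theorem cont_dP (θ : Finset (Fin r)) : Continuous fun q : G × G => F.dP θ q.1 q.2 := by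
  refine Continuous.norm (continuous_pi fun j => ?_)
  by_cases hj : j ∈ θ
  · simp only [if_pos hj]; exact h.cont_dj j
  · simp only [if_neg hj]; exact continuous_const

/-- every flag has a representative in a fixed compact set -/
theorem exists_rep : ∃ C : Set G, IsCompact C ∧ ∀ θ (ξ : F.Y θ), ∃ x ∈ C, ξ = (x : F.Y θ) := by
  obtain ⟨C, hC, hg⟩ := h.iwa
  refine ⟨C, hC, fun θ ξ => Quotient.inductionOn' ξ fun g => ?_⟩
  obtain ⟨x, hx, z, hz, u, hu, rfl⟩ := hg g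
  refine ⟨x, hx, (QuotientGroup.eq.2 ?_).symm⟩
  rw [mul_assoc, inv_mul_cancel_left]
  exact (F.P θ).mul_mem (h.z_mem_P hz θ) (h.up_mem_P hu θ)

theorem compactY (θ : Finset (Fin r)) : CompactSpace (F.Y θ) := by
  obtain ⟨C, hC, hg⟩ := h.exists_rep
  refine ⟨(hC.image (QuotientGroup.continuous_mk (N := F.P θ))).of_isClosed_subset isClosed_univ
    fun ξ _ => ?_⟩
  obtain ⟨x, hx, e⟩ := hg θ ξ
  exact ⟨x, hx, e.symm⟩

/-- north-south dynamics -/
theorem dj_dom [IsTopologicalGroup G] : ∃ C : ℝ, 1 ≤ C ∧ ∀ z, F.Dom z → ∀ x j, F.Δ j x ≠ 0 →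
    F.dj j (z * x) 1 ≤ C * Real.exp (-F.ℓ z j) * (‖F.V j x (F.v j)‖ / ‖F.Δ j x‖) := by
  obtain ⟨C, hC1, hC⟩ := h.con'
  obtain ⟨c, hc, hc1, hc'⟩ := h.Vv_low (isCompact_singleton (x := 1))
  refine ⟨2 * C / c, by rw [le_div_iff₀ hc]; linarith, fun z hz x j hx => ?_⟩
  have h0 := mul_ne_zero (h.Δ_ne hz.1 j) hx
  have h1 := hc' j 1 rfl
  rw [V_one] at h1
  have hx' := norm_pos_iff.2 hx
  have hz' := norm_pos_iff.2 (h.Δ_ne hz.1 j)
  rw [FlD.dj, V_one, ← pd_smul_right h0]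
  refine (pd_le_sub _ (smul_ne_zero h0 (h.v_ne j))).trans ?_
  have h2 : F.V j (z * x) (F.v j) - (F.Δ j z * F.Δ j x) • F.v j =
      (F.V j z - F.Δ j z • F.pr j) (F.V j x (F.v j)) := by
    rw [V_mul, ContinuousLinearMap.sub_apply, ContinuousLinearMap.smul_apply, pr_apply, smul_smul]
    rfl
  have h3 := (ContinuousLinearMap.le_opNorm _ (F.V j x (F.v j))).trans
    (mul_le_mul_of_nonneg_right (hC z hz j) (norm_nonneg _))
  rw [h2, norm_smul, norm_mul]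
  calc _ ≤ 2 * (C * (‖F.Δ j z‖ * Real.exp (-F.ℓ z j)) * ‖F.V j x (F.v j)‖ /
        (‖F.Δ j z‖ * ‖F.Δ j x‖ * c)) := by gcongr
    _ = _ := by field_simp

/-- the left flag does not depend on the Cartan decomposition -/
theorem dj_kak : ∃ C : ℝ, 1 ≤ C ∧ ∀ z z', F.Dom z → F.Dom z' → ∀ x y x' y' j,
    x * z * y = x' * z' * y' →
    F.dj j x' x ≤ C * Real.exp (-F.ℓ z' j + 2 * (F.len x + F.len y + F.len x' + F.len y')) := by
  obtain ⟨C, hC1, hC⟩ := h.con'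
  obtain ⟨B, hB1, hB⟩ := h.lam_dom
  refine ⟨2 * (C * Real.exp (2 * B)), by nlinarith [Real.one_le_exp (x := 2 * B) (by linarith)],
    fun z z' hz hz' x y x' y' j e => ?_⟩
  rw [FlD.dj, ← pd_smul_right (h.Δ_ne hz.1 j), mul_assoc]
  refine pd_le (c := F.Δ j z' * F.φ j (F.V j (y' * y⁻¹) (F.v j)))
    (smul_ne_zero (h.Δ_ne hz.1 j) (h.Vv_ne j x)) ?_
  have h1 : F.Δ j z • F.V j x (F.v j) = F.V j x' (F.V j z' (F.V j (y' * y⁻¹) (F.v j))) := by
    rw [← map_smul, ← h.zv z hz.1, ← V_mul, ← V_mul, ← V_mul, ← mul_assoc, ← e,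
      mul_inv_cancel_right]
  have h2 : (F.Δ j z' * F.φ j (F.V j (y' * y⁻¹) (F.v j))) • F.V j x' (F.v j) -
      F.Δ j z • F.V j x (F.v j) =
      -F.V j x' ((F.V j z' - F.Δ j z' • F.pr j) (F.V j (y' * y⁻¹) (F.v j))) := by
    rw [h1, ContinuousLinearMap.sub_apply, ContinuousLinearMap.smul_apply, pr_apply, smul_smul,
      map_sub, map_smul, neg_sub]
  have h3 : ‖F.V j (y' * y⁻¹) (F.v j)‖ ≤ Real.exp (F.len y' + F.len y + F.len x) *
      ‖F.V j x (F.v j)‖ := by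
    rw [← h.exp_ht, ← h.exp_ht, ← Real.exp_add, Real.exp_le_exp]
    have h4 := (abs_le.1 (h.ht_lip (y' * y⁻¹ * x⁻¹) x j)).2
    rw [inv_mul_cancel_right] at h4
    linarith [h.len_mul (y' * y⁻¹) x⁻¹, h.len_mul y' y⁻¹, len_inv (F := F) x, len_inv (F := F) y]
  have h4 : ‖F.Δ j z'‖ ≤ Real.exp (2 * B + (F.len x + F.len y + F.len x' + F.len y')) *
      ‖F.Δ j z‖ := by
    rw [h.norm_Δ (h.z_mem hz.1), h.norm_Δ (h.z_mem hz'.1), ← Real.exp_add, Real.exp_le_exp]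
    have h5 := h.lam_lip x z y j
    rw [e] at h5
    linarith [(abs_le.1 h5).2, (abs_le.1 (h.lam_lip x' z' y' j)).1, (abs_le.1 (hB z hz j)).2,
      (abs_le.1 (hB z' hz' j)).1]
  rw [h2, norm_neg, norm_smul]
  calc _ ≤ ‖F.V j x'‖ * (‖F.V j z' - F.Δ j z' • F.pr j‖ * ‖F.V j (y' * y⁻¹) (F.v j)‖) :=
        ((F.V j x').le_opNorm _).trans
          (mul_le_mul_of_nonneg_left (ContinuousLinearMap.le_opNorm _ _) (norm_nonneg _))
    _ ≤ Real.exp (F.len x') * (C * ((Real.exp (2 * B + (F.len x + F.len y + F.len x' + F.len y')) *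
          ‖F.Δ j z‖) * Real.exp (-F.ℓ z' j)) * (Real.exp (F.len y' + F.len y + F.len x) *
          ‖F.V j x (F.v j)‖)) := by
        gcongr
        · exact h.norm_V_le _ _
        · exact (hC z' hz' j).trans (by gcongr)
    _ = _ := by
        rw [show -F.ℓ z' j + 2 * (F.len x + F.len y + F.len x' + F.len y') = F.len x' +
          (F.len x + F.len y + F.len x' + F.len y') + -F.ℓ z' j + (F.len y' + F.len y + F.len x) by ring]
        simp only [Real.exp_add]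
        ring

variable [CompleteSpace k]

theorem dY_eq_zero {θ : Finset (Fin r)} {ξ η : F.Y θ} (e : F.dY θ ξ η = 0) : ξ = η := by
  induction ξ using Quotient.inductionOn' with | _ x => ?_
  induction η using Quotient.inductionOn' with | _ y => ?_
  refine QuotientGroup.eq.2 fun j hj => ?_
  obtain ⟨c, hc⟩ := pd_eq_zero (h.Vv_ne j x) (le_antisymm ((dj_le_dP hj x y).trans (le_of_eq e))
    (pd_nonneg _ _))
  exact ⟨c, by rw [V_mul, hc, map_smul, V_inv]⟩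

theorem dj_lip : ∃ C : ℝ, 1 ≤ C ∧ ∀ j s x y,
    F.dj j (s * x) (s * y) ≤ C * Real.exp (2 * F.len s) * F.dj j x y := by
  choose C hC hC' using fun j => pd_map k (F.E j)
  obtain ⟨D, hD, hD'⟩ := cpt_up (isCompact_singleton (x := ())) (fun j _ => C j)
    fun _ => continuousOn_const
  refine ⟨D, hD, fun j s x y => ?_⟩
  rw [FlD.dj, V_mul, V_mul]
  refine (hC' j _ (F.V j s⁻¹) _ _ (h.Vv_ne j x) (h.Vv_ne j y) (V_inv j s _)).trans ?_
  refine mul_le_mul_of_nonneg_right (mul_le_mul (hD' j () rfl) ?_ (by positivity) (by linarith))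
    (pd_nonneg _ _)
  rw [two_mul, Real.exp_add]
  exact mul_le_mul (h.norm_V_le s j) (len_inv (F := F) s ▸ h.norm_V_le s⁻¹ j) (norm_nonneg _)
    (by positivity)

/-- the action on the flag spaces is Lipschitz -/
theorem dY_lip : ∃ C : ℝ, 1 ≤ C ∧ ∀ θ (s : G) (ξ η : F.Y θ),
    F.dY θ (s • ξ) (s • η) ≤ C * Real.exp (2 * F.len s) * F.dY θ ξ η := by
  obtain ⟨C, hC, hC'⟩ := h.dj_lip
  refine ⟨C, hC, fun θ s ξ η => Quotient.inductionOn₂' ξ η fun x y => ?_⟩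
  exact dP_le (mul_nonneg (by positivity) (dP_nonneg θ x y)) fun j hj => (hC' j s x y).trans
    (mul_le_mul_of_nonneg_left (dj_le_dP hj x y) (by positivity))

variable [IsTopologicalGroup G]

omit [CompleteSpace k] in
theorem cont_dY (θ : Finset (Fin r)) : Continuous fun q : F.Y θ × F.Y θ => F.dY θ q.1 q.2 :=
  (QuotientGroup.isOpenQuotientMap_mk.prodMap
    QuotientGroup.isOpenQuotientMap_mk).continuous_comp_iff.1 (h.cont_dP θ)

/-- the metric space structure of the flag space, with the quotient topology -/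
@[reducible] noncomputable def metricY (θ : Finset (Fin r)) : MetricSpace (F.Y θ) :=
  MetricSpace.ofDistTopology (F.dY θ) dY_self dY_comm dY_triangle (fun s => by
    haveI := h.compactY θ
    refine ⟨fun hs ξ hξ => ?_, fun hs => isOpen_iff_mem_nhds.2 fun ξ hξ => ?_⟩
    · obtain ⟨c, hc, -, hc'⟩ := cpt_low hs.isClosed_compl.isCompact (fun (_ : Unit) η => F.dY θ ξ η)
        (fun _ => ((h.cont_dY θ).comp (Continuous.prodMk_right ξ)).continuousOn) fun _ η hη =>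
          lt_of_le_of_ne (dY_nonneg _ _) fun e => hη (h.dY_eq_zero e.symm ▸ hξ)
      exact ⟨c, hc, fun η hη => by_contra fun hn => absurd (hc' () η hn) (not_le.2 hη)⟩
    · obtain ⟨ε, hε, hε'⟩ := hs ξ hξ
      refine mem_of_superset ((isOpen_lt ((h.cont_dY θ).comp (Continuous.prodMk_right ξ))
        (continuous_const (y := ε))).mem_nhds ?_) fun η hη => hε' η hη
      show F.dY θ ξ ξ < ε
      rwa [dY_self]) fun _ _ => h.dY_eq_zero

omit [CompleteSpace k] in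
/-- **Equivariance of the left flag** up to an error exponentially small in the gaps -/
theorem flag_equiv [MeasurableSpace G] {C : Set G} {kl kr : G → G} {t : G → Fin r → ℤ}
    (hK : Kak F C kl t kr) : ∃ A : ℝ, 1 ≤ A ∧ ∀ θ (s g u : G) (T : ℝ), (∀ j ∈ θ, T ≤ F.κ g j) →
      F.dY θ (s • (kl g : F.Y θ)) (kl (s * g * u) : F.Y θ) ≤
        A * Real.exp (-T + 2 * (F.len s + F.len u)) := by
  obtain ⟨A, hA, hA'⟩ := h.dj_kak
  obtain ⟨D, hD, hD'⟩ := h.κ_cpt hK.cpt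
  obtain ⟨R, hR, hR'⟩ := h.len_cpt hK.cpt
  refine ⟨A * Real.exp (D + 8 * R), one_le_mul_of_one_le_of_one_le hA (Real.one_le_exp (by linarith)),
    fun θ s g u T hT => dP_le (by positivity) fun j hj => ?_⟩
  refine (hA' _ _ (h.a_dom (hK.t_nonneg (s * g * u))) (h.a_dom (hK.t_nonneg g)) _ (kr (s * g * u))
    (s * kl g) (kr g * u) j ?_).trans ?_
  · rw [← hK.eq]
    conv_lhs => rw [hK.eq g]
    group
  · rw [mul_assoc A, ← Real.exp_add]
    refine mul_le_mul_of_nonneg_left (Real.exp_le_exp.2 ?_) (by linarith)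
    have h1 := hD' _ (h.a_dom (hK.t_nonneg g)) _ (hK.kl_mem g) _ (hK.kr_mem g) j
    rw [← hK.eq] at h1
    linarith [(abs_le.1 h1).2, hT j hj, h.len_mul s (kl g), h.len_mul (kr g) u, hR' _ (hK.kl_mem g),
      hR' _ (hK.kr_mem g), hR' _ (hK.kl_mem (s * g * u)), hR' _ (hK.kr_mem (s * g * u))]

end Fl

end Vale.Agent.P092GK
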