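import Vale.Agent.P092GK.Prop
import Mathlib.MeasureTheory.Constructions.BorelSpace.Basic
import Mathlib.Topology.Compactness.Lindelof

/-!
P092, group package (helper83): local spanning and the coarse Cartan decomposition, with a Borel
choice of the factors.
-/

set_option linter.all false

open Matrix Filter Topology

namespace Vale.Agent.P092GK

open FlD

variable {k : Type} [NontriviallyNormedField k] {G : Type} [Group G] {r : ℕ} {F : FlD k G r}
  [TopologicalSpace G] [IsTopologicalGroup G] [T2Space G]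

namespace Fl

variable (h : Fl F)
include h

omit [T2Space G] [IsTopologicalGroup G] in
theorem ℓ_a_const (N : ℕ) (i : Fin r) : F.ℓ (F.a fun _ => (N : ℤ)) i = F.β * N := by
  rw [h.ℓ_a]; simp

omit [T2Space G] [IsTopologicalGroup G] in
theorem exists_big (T : ℝ) : ∃ z ∈ F.Z, ∀ i, T ≤ F.ℓ z i := by
  obtain ⟨N, hN⟩ := exists_nat_ge (T / F.β)
  refine ⟨_, h.a_mem fun _ => (N : ℤ), fun i => ?_⟩
  rw [h.ℓ_a_const, mul_comm]
  exact (div_le_iff₀ h.β_pos).1 hN

variable [CompleteSpace k]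

/-- the orbit of a neighbourhood of `1` spans -/
theorem span_nhds (j : Fin r) {O : Set G} (hO : O ∈ 𝓝 (1 : G)) :
    Submodule.span k ((fun g => F.V j g (F.v j)) '' O) = ⊤ := by
  let W : Set G → Submodule k (F.E j) := fun O => Submodule.span k ((fun g => F.V j g (F.v j)) '' O)
  have hm : ∀ {O O' : Set G}, O ⊆ O' → W O ≤ W O' := fun hs =>
    Submodule.span_mono (Set.image_mono hs)
  have hex : ∃ n, ∃ O ∈ 𝓝 (1 : G), Module.finrank k (W O) = n := ⟨_, O, hO, rfl⟩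
  classical
  obtain ⟨O₀, hO₀, hn⟩ := Nat.find_spec hex
  have hmin : ∀ O' ∈ 𝓝 (1 : G), W O₀ ≤ W O' := fun O' hO' => by
    have h1 : W (O' ∩ O₀) = W O₀ := Submodule.eq_of_le_of_finrank_le (hm Set.inter_subset_right)
      (hn ▸ Nat.find_min' hex ⟨_, inter_mem hO' hO₀, rfl⟩)
    exact h1 ▸ hm Set.inter_subset_left
  have hz : ∀ z ∈ F.Z, ∀ x ∈ W O₀, F.V j z x ∈ W O₀ := fun z hz x hx => by
    have h1 : (fun g => z * g * z⁻¹) ⁻¹' O₀ ∈ 𝓝 (1 : G) :=
      ContinuousAt.preimage_mem_nhds (by fun_prop) (by simpa using hO₀)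
    have h2 := hmin _ h1 hx
    clear hx
    induction h2 using Submodule.span_induction with
    | mem y hy =>
      obtain ⟨g, hg, rfl⟩ := hy
      have : F.V j z (F.V j g (F.v j)) = F.Δ j z • F.V j (z * g * z⁻¹) (F.v j) := by
        rw [← map_smul, ← h.zv z hz, ← V_mul, ← V_mul, inv_mul_cancel_right]
      rw [this]
      exact Submodule.smul_mem _ _ (Submodule.subset_span ⟨_, hg, rfl⟩)
    | zero => rw [map_zero]; exact Submodule.zero_mem _
    | add x y _ _ hx hy => rw [map_add]; exact Submodule.add_mem _ hx hy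
    | smul c x _ hx => rw [map_smul]; exact Submodule.smul_mem _ _ hx
  have hu : ∀ u ∈ F.Um, F.V j u (F.v j) ∈ W O₀ := fun u hu => by
    obtain ⟨T, -, hT⟩ := h.um_contr (isCompact_singleton (x := u)) hO₀
    obtain ⟨z, hzZ, hl⟩ := h.exists_big T
    have h1 : F.V j u (F.v j) = F.Δ j z • F.V j z⁻¹ (F.V j (z * u * z⁻¹) (F.v j)) := by
      rw [← map_smul, ← map_smul, ← h.zv z hzZ, ← V_mul, ← V_mul]
      congr 2; group
    rw [h1]
    exact Submodule.smul_mem _ _ (hz _ (F.Z.inv_mem hzZ) _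
      (Submodule.subset_span ⟨_, hT z hzZ hl u rfl hu, rfl⟩))
  have hall : ∀ g, F.V j g (F.v j) ∈ W O₀ := fun g => by
    have h1 : IsClosed {g | F.V j g (F.v j) ∈ W O₀} :=
      (W O₀).closed_of_finiteDimensional.preimage (h.contVv j)
    refine h1.closure_subset_iff.2 (fun g hg => ?_) (h.dense g)
    show F.V j g (F.v j) ∈ W O₀
    rw [h.Vv_cell hg]
    exact Submodule.smul_mem _ _ (hu _ (h.lo_mem g hg))
  refine top_le_iff.1 (le_trans ?_ (hmin O hO))
  rw [← h.span j, Submodule.span_le]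
  rintro _ ⟨g, rfl⟩
  exact hall g

/-- a nonzero linear map does not kill the orbit of an open set -/
theorem dense_ne (j : Fin r) {X : Type} [AddCommGroup X] [Module k X] (T : F.E j →ₗ[k] X)
    (hT : T ≠ 0) : Dense {f | T (F.V j f (F.v j)) ≠ 0} := by
  refine dense_iff_inter_open.2 fun O hO ⟨f, hf⟩ => ?_
  by_contra hne
  have h1 : (fun g => f * g) ⁻¹' O ∈ 𝓝 (1 : G) :=
    ContinuousAt.preimage_mem_nhds (by fun_prop) (by simpa using hO.mem_nhds hf)
  have h2 : Submodule.span k ((fun g => F.V j g (F.v j)) '' ((fun g => f * g) ⁻¹' O)) ≤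
      LinearMap.ker (T ∘ₗ (F.V j f).toLinearMap) := by
    rw [Submodule.span_le]
    rintro _ ⟨g, hg, rfl⟩
    by_contra h3
    refine hne ⟨f * g, hg, fun h4 => h3 ?_⟩
    rw [V_mul] at h4
    exact h4
  rw [h.span_nhds j h1] at h2
  refine hT (LinearMap.ext fun x => ?_)
  have h5 : T (F.V j f (F.V j f⁻¹ x)) = 0 := h2 (Submodule.mem_top (x := F.V j f⁻¹ x))
  rwa [V_inv'] at h5

end Fl

variable [ProperSpace k]

namespace Fl

variable (h : Fl F)
include h

/-- a finite set of test vectors which sees all norms at once -/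
theorem test {O : Set G} (hO : IsOpen O) (hne : O.Nonempty) : ∃ S : Finset G, (↑S : Set G) ⊆ O ∧
    ∃ c : ℝ, 0 < c ∧ ∀ T : ∀ j, F.E j →L[k] F.E j,
      ∃ f ∈ S, ∀ j, c * ‖T j‖ ≤ ‖T j (F.V j f (F.v j))‖ := by
  classical
  obtain ⟨p, hp⟩ := NormedField.exists_one_lt_norm k
  haveI : ∀ j, ProperSpace (F.E j →L[k] F.E j) := fun j => FiniteDimensional.proper k _
  let S : Set (∀ j, F.E j →L[k] F.E j) := Set.univ.pi fun j => {T | 1 / ‖p‖ ≤ ‖T‖ ∧ ‖T‖ ≤ 1}
  have hS : IsCompact S := isCompact_univ_pi fun j =>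
    (isCompact_closedBall (0 : F.E j →L[k] F.E j) 1).of_isClosed_subset
      ((isClosed_le continuous_const continuous_norm).inter
        (isClosed_le continuous_norm continuous_const)) fun T hT => by simpa using hT.2
  have hp0 : 0 < 1 / ‖p‖ := by positivity
  let U : O × {e : ℝ // 0 < e} → Set (∀ j, F.E j →L[k] F.E j) := fun q =>
    {T | ∀ j, q.2.1 < ‖T j (F.V j q.1 (F.v j))‖}
  have hU : ∀ q, IsOpen (U q) := fun q => by
    simp only [U, Set.setOf_forall]
    exact isOpen_iInter_of_finite fun j => isOpen_lt continuous_const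
      ((continuous_apply j).clm_apply continuous_const).norm
  have hcov : S ⊆ ⋃ q, U q := fun T hT => by
    have h1 : ∀ j, Dense {f | T j (F.V j f (F.v j)) ≠ 0} := fun j =>
      h.dense_ne j (T j).toLinearMap fun e => by
        have h2 : T j = 0 := ContinuousLinearMap.coe_injective e
        have h3 := (hT j (Set.mem_univ j)).1
        rw [h2, norm_zero] at h3
        exact absurd h3 (not_le.2 hp0)
    have h2 : ∀ s : Finset (Fin r), Dense (⋂ j ∈ s, {f | T j (F.V j f (F.v j)) ≠ 0}) := fun s => by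
      induction s using Finset.induction_on with
      | empty => simp
      | insert j s _ ih =>
        rw [Finset.set_biInter_insert]
        exact (h1 j).inter_of_isOpen_left ih
          (isOpen_ne_fun ((T j).continuous.comp (h.contVv j)) continuous_const)
    obtain ⟨f, hfO, hf⟩ := (h2 Finset.univ).inter_open_nonempty O hO hne
    obtain ⟨e, he, -, he'⟩ := cpt_low (isCompact_singleton (x := f))
      (fun j f => ‖T j (F.V j f (F.v j))‖)
      (fun j => ((T j).continuous.comp (h.contVv j)).norm.continuousOn) fun j x hx => by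
        rw [Set.mem_singleton_iff.1 hx]
        exact norm_pos_iff.2 (Set.mem_iInter₂.1 hf j (Finset.mem_univ j))
    exact Set.mem_iUnion.2 ⟨(⟨f, hfO⟩, ⟨e / 2, half_pos he⟩), fun j =>
      (half_lt_self he).trans_le (he' j f rfl)⟩
  obtain ⟨t, ht⟩ := hS.elim_finite_subcover U hU hcov
  obtain ⟨c, hc, -, hc'⟩ := cpt_low (isCompact_singleton (x := ())) (fun (q : t) _ => q.1.2.1)
    (fun _ => continuousOn_const) fun q _ _ => q.1.2.2
  refine ⟨t.image fun q => q.1.1, fun f hf => ?_, c / ‖p‖, div_pos hc (zero_lt_one.trans hp),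
    fun T => ?_⟩
  · obtain ⟨q, -, rfl⟩ := Finset.mem_image.1 hf
    exact q.1.2
  · have h1 : ∀ j, ∃ T' : F.E j →L[k] F.E j, (1 / ‖p‖ ≤ ‖T'‖ ∧ ‖T'‖ ≤ 1) ∧
        (T j ≠ 0 → ∃ d : k, d ≠ 0 ∧ T' = d • T j) := fun j => by
      by_cases hT : T j = 0
      · obtain ⟨d, -, h1, h2, -⟩ := rescale_to_shell hp one_pos (h.V_ne j 1)
        exact ⟨_, ⟨h2, h1.le⟩, fun h3 => absurd hT h3⟩
      · obtain ⟨d, hd, h1, h2, -⟩ := rescale_to_shell hp one_pos hT
        exact ⟨_, ⟨h2, h1.le⟩, fun _ => ⟨d, hd, rfl⟩⟩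
    choose T' hT' hT'' using h1
    obtain ⟨q, hq, hq'⟩ := Set.mem_iUnion₂.1 (ht (fun j _ => hT' j : T' ∈ S))
    refine ⟨q.1, Finset.mem_image.2 ⟨q, hq, rfl⟩, fun j => ?_⟩
    by_cases hT : T j = 0
    · rw [hT, norm_zero, mul_zero]; exact norm_nonneg _
    · obtain ⟨d, hd, e⟩ := hT'' j hT
      have h2 := (hc' ⟨q, hq⟩ () rfl).trans (hq' j).le
      have h3 := (hT' j).2
      rw [e, ContinuousLinearMap.smul_apply, norm_smul] at h2
      rw [e, norm_smul] at h3
      have h4 : c * ‖T j‖ ≤ ‖T j (F.V j q.1 (F.v j))‖ := by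
        have h5 := norm_pos_iff.2 hd
        refine le_of_mul_le_mul_left ?_ h5
        nlinarith [norm_nonneg (T j)]
      refine le_trans (mul_le_mul_of_nonneg_right (div_le_self hc.le hp.le) (norm_nonneg _)) h4

omit [ProperSpace k] [T2Space G] [IsTopologicalGroup G] in
theorem low' : ∃ C : ℝ, 1 ≤ C ∧ ∀ z ∈ F.Z, ∀ j,
    ‖F.Δ j z‖ * Real.exp (-F.ℓ z j) ≤ C * ‖F.V j z‖ := by
  obtain ⟨C, hC⟩ := h.low
  exact ⟨|C| + 1, by linarith [abs_nonneg C], fun z hz j => (hC z hz j).trans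
    (mul_le_mul_of_nonneg_right (by linarith [le_abs_self C]) (norm_nonneg _))⟩

/-- **Coarse Cartan decomposition.** -/
theorem kak : ∃ C : Set G, IsCompact C ∧
    ∀ g, ∃ x ∈ C, ∃ t : Fin r → ℤ, 0 ≤ t ∧ ∃ y ∈ C, g = x * F.a t * y := by
  obtain ⟨C, hC, hg⟩ := h.iwa
  obtain ⟨S, -, c, hc, hS⟩ := h.test isOpen_univ ⟨1, Set.mem_univ _⟩
  have hSc : IsCompact (↑S : Set G) := S.finite_toSet.isCompact
  obtain ⟨D₁, hD₁, hD₁'⟩ := h.V_up hC
  obtain ⟨D₂, hD₂, hD₂'⟩ := h.V_up hC.inv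
  obtain ⟨D₃, hD₃, hD₃'⟩ := h.V_up hSc
  obtain ⟨D₄, hD₄, hD₄'⟩ := cpt_up (isCompact_singleton (x := ())) (fun j _ => ‖F.v j‖)
    fun _ => continuousOn_const
  obtain ⟨D₅, hD₅, hD₅'⟩ := cpt_up (isCompact_singleton (x := ())) (fun j _ => ‖F.φ j‖)
    fun _ => continuousOn_const
  let A := D₂ * (D₁ * D₄ / c) * D₃
  have hA : 0 < A := by positivity
  have hL := h.up_proper (D₅ * A)
  obtain ⟨D₆, hD₆, hD₆'⟩ := h.V_up hL.inv
  obtain ⟨B, hB, hB'⟩ := h.low'
  let R := Real.log (B * (A * D₆))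
  let m : ℤ := ⌈|R| / F.β⌉
  have hZ := h.zprop (F.β + F.β * |(m : ℝ)|)
  refine ⟨C ∪ (fun q : G × G × G => q.1 * q.2.1 * q.2.2⁻¹) '' (_ ×ˢ _ ×ˢ _),
    hC.union ((hZ.prod (hL.prod hSc)).image (by fun_prop)), fun g => ?_⟩
  obtain ⟨f, hf, hf'⟩ := hS fun j => F.V j g
  obtain ⟨x, hx, z, hz, u, hu, e⟩ := hg (g * f)
  have h1 : ∀ j, ‖F.V j (z * u)‖ ≤ A * ‖F.Δ j z‖ := fun j => by
    have h2 := hf' j
    rw [← V_mul, e, V_mul, h.upv u hu, V_mul, h.zv z hz, map_smul, norm_smul] at h2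
    have h3 : ‖F.V j x (F.v j)‖ ≤ D₁ * D₄ := ((F.V j x).le_opNorm _).trans
      (mul_le_mul (hD₁' j x hx) (hD₄' j () rfl) (norm_nonneg _) (by positivity))
    have h4 : ‖F.V j g‖ ≤ D₁ * D₄ / c * ‖F.Δ j z‖ := by
      rw [div_mul_eq_mul_div, le_div_iff₀ hc]
      nlinarith [norm_nonneg (F.Δ j z)]
    have h5 : z * u = x⁻¹ * g * f := by rw [mul_assoc, e]; group
    rw [h5, map_mul, map_mul]
    calc _ ≤ ‖F.V j x⁻¹‖ * ‖F.V j g‖ * ‖F.V j f‖ := norm_mul₃_le
      _ ≤ D₂ * (D₁ * D₄ / c * ‖F.Δ j z‖) * D₃ := by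
        gcongr
        · exact hD₂' j _ (Set.inv_mem_inv.2 hx)
        · exact hD₃' j f hf
      _ = _ := by simp only [A]; ring
  have h2 : ∀ j, ‖(F.φ j).comp (F.V j u)‖ ≤ D₅ * A := fun j => by
    have h3 : (F.φ j).comp (F.V j (z * u)) = F.Δ j z • (F.φ j).comp (F.V j u) := by
      ext y
      rw [ContinuousLinearMap.comp_apply, V_mul, h.zφ z hz]; rfl
    have h4 := (F.φ j).opNorm_comp_le (F.V j (z * u))
    rw [h3, norm_smul] at h4
    have h5 := norm_pos_iff.2 (h.Δ_ne hz j)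
    refine le_of_mul_le_mul_left (h4.trans ?_) h5
    calc _ ≤ D₅ * (A * ‖F.Δ j z‖) := mul_le_mul (hD₅' j () rfl) (h1 j) (norm_nonneg _) (by positivity)
      _ = _ := by ring
  have h3 : ∀ j, -|R| ≤ F.ℓ z j := fun j => by
    have h4 : ‖F.V j z‖ ≤ A * ‖F.Δ j z‖ * D₆ := by
      rw [show z = z * u * u⁻¹ by group, map_mul, mul_inv_cancel_right]
      exact (norm_mul_le _ _).trans (mul_le_mul (h1 j) (hD₆' j _ (Set.inv_mem_inv.2 ⟨hu, h2⟩))
        (norm_nonneg _) (by positivity))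
    have h5 := norm_pos_iff.2 (h.Δ_ne hz j)
    have h6 : Real.exp (-F.ℓ z j) ≤ B * (A * D₆) := by
      refine le_of_mul_le_mul_left ((hB' z hz j).trans ?_) h5
      calc _ ≤ B * (A * ‖F.Δ j z‖ * D₆) := by gcongr
        _ = _ := by ring
    have h7 := (Real.le_log_iff_exp_le (by positivity)).2 h6
    linarith [le_abs_self R]
  let t₀ : Fin r → ℤ := fun i => ⌊F.ℓ z i / F.β⌋
  have hm : |R| / F.β ≤ m := Int.le_ceil _
  refine ⟨x, Or.inl hx, fun i => t₀ i + m, fun i => ?_, _,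
    Or.inr ⟨((F.a fun i => t₀ i + m)⁻¹ * z, u, f), ⟨⟨F.Z.mul_mem (F.Z.inv_mem (h.a_mem _)) hz,
      fun i => ?_⟩, ⟨hu, h2⟩, hf⟩, rfl⟩, ?_⟩
  · have h4 : -m ≤ t₀ i := by
      refine Int.le_floor.2 ?_
      have := div_le_div_of_nonneg_right (h3 i) h.β_pos.le
      rw [neg_div] at this
      push_cast
      linarith
    show 0 ≤ t₀ i + m
    omega
  · have h4 := (h.z_dec hz).2 i
    rw [h.ℓ_mul (F.Z.inv_mem (h.a_mem _)) hz, h.ℓ_inv (h.a_mem _), h.ℓ_a, Pi.add_apply,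
      Pi.neg_apply] at h4 ⊢
    push_cast
    have h5 : |F.β * (m : ℝ)| = F.β * |(m : ℝ)| := by rw [abs_mul, abs_of_pos h.β_pos]
    have h6 := abs_sub (-(F.β * (t₀ i : ℝ)) + F.ℓ z i) (F.β * m)
    rw [h5] at h6
    refine le_trans (le_of_eq ?_) (h6.trans (by linarith))
    congr 1; ring
  · have : g = x * z * u * f⁻¹ := by rw [← e]; group
    rw [this]; group

end Fl

/-- a Borel choice of the coarse Cartan decomposition; `C` is compact, symmetric, contains `1` -/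
structure Kak (F : FlD k G r) [MeasurableSpace G] (C : Set G) (kl : G → G) (t : G → Fin r → ℤ)
    (kr : G → G) : Prop where
  cpt : IsCompact C
  one : (1 : G) ∈ C
  inv : ∀ x ∈ C, x⁻¹ ∈ C
  kl_mem : ∀ g, kl g ∈ C
  kr_mem : ∀ g, kr g ∈ C
  t_nonneg : ∀ g, 0 ≤ t g
  eq : ∀ g, g = kl g * F.a (t g) * kr g
  meas_kl : Measurable kl
  meas_kr : Measurable kr
  meas_t : Measurable t
  cnt : (Set.range kl).Countable
  fib : ∀ x, MeasurableSet (kl ⁻¹' {x})

theorem Fl.exists_kak (h : Fl F) [MeasurableSpace G] [BorelSpace G] [LocallyCompactSpace G]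
    [SecondCountableTopology G] : ∃ C kl t kr, Kak F C kl t kr := by
  classical
  obtain ⟨C, hC, hg⟩ := h.kak
  obtain ⟨C', hC', hCC'⟩ := exists_compact_superset hC
  let I := C × {t : Fin r → ℤ // 0 ≤ t}
  let U : I → Set G := fun q => {g | (F.a q.2.1)⁻¹ * (q.1.1)⁻¹ * g ∈ interior C'}
  have hU : ∀ q, IsOpen (U q) := fun q => isOpen_interior.preimage (by fun_prop)
  have hcov : Set.univ ⊆ ⋃ q, U q := fun g _ => by
    obtain ⟨x, hx, t, ht, y, hy, e⟩ := hg g
    refine Set.mem_iUnion.2 ⟨(⟨x, hx⟩, ⟨t, ht⟩), ?_⟩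
    show (F.a t)⁻¹ * x⁻¹ * g ∈ interior C'
    rw [show (F.a t)⁻¹ * x⁻¹ * g = y by rw [e]; group]
    exact hCC' hy
  obtain ⟨s, hs, hs'⟩ := isLindelof_univ.elim_countable_subcover U hU hcov
  have hne : s.Nonempty := by
    obtain ⟨q, hq, -⟩ := Set.mem_iUnion₂.1 (hs' (Set.mem_univ (1 : G)))
    exact ⟨q, hq⟩
  obtain ⟨e, he⟩ := hs.exists_eq_range hne
  have hex : ∀ g, ∃ n, g ∈ U (e n) := fun g => by
    obtain ⟨q, hq, hq'⟩ := Set.mem_iUnion₂.1 (hs' (Set.mem_univ g))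
    rw [he] at hq
    obtain ⟨n, rfl⟩ := hq
    exact ⟨n, hq'⟩
  let N : G → ℕ := fun g => Nat.find (hex g)
  have hN : Measurable N := measurable_find hex fun n => (hU _).measurableSet
  have m1 : Measurable fun g => ((e (N g)).1 : G) :=
    (measurable_from_top (f := fun n => ((e n).1 : G))).comp hN
  have m2 : Measurable fun g => (F.a (e (N g)).2.1)⁻¹ * ((e (N g)).1 : G)⁻¹ :=
    (measurable_from_top (f := fun n => (F.a (e n).2.1)⁻¹ * ((e n).1 : G)⁻¹)).comp hN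
  have hD : IsCompact (insert 1 C' : Set G) := hC'.insert 1
  refine ⟨insert 1 C' ∪ (insert 1 C')⁻¹, fun g => (e (N g)).1, fun g => (e (N g)).2.1,
    fun g => (F.a (e (N g)).2.1)⁻¹ * ((e (N g)).1 : G)⁻¹ * g, hD.union hD.inv,
    Or.inl (Set.mem_insert _ _), fun x hx => ?_,
    fun g => Or.inl (Set.mem_insert_of_mem _ (interior_subset (hCC' (e (N g)).1.2))),
    fun g => Or.inl (Set.mem_insert_of_mem _ (interior_subset (Nat.find_spec (hex g)))),
    fun g => (e (N g)).2.2, fun g => by group, m1, m2.mul measurable_id,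
    (measurable_from_top (f := fun n => (e n).2.1)).comp hN, ?_, fun x => m1 (measurableSet_singleton x)⟩
  · rcases hx with hx | hx
    · exact Or.inr (Set.inv_mem_inv.2 hx)
    · exact Or.inl hx
  · exact (Set.countable_range fun n => ((e n).1 : G)).mono (by rintro _ ⟨g, rfl⟩; exact ⟨_, rfl⟩)

end Vale.Agent.P092GK
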