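import Vale.Agent.P092GK.Dd

/-!
P092, group package (helper83): on most of a compact set of translates the heights see the Cartan
gauge.
-/

set_option linter.all false

open Matrix Filter Topology MeasureTheory Measure Set
open scoped Pointwise ENNReal

namespace Vale.Agent.P092GK

open FlD

variable {k : Type} [NontriviallyNormedField k] {G : Type} [Group G] {r : ℕ} {F : FlD k G r}
  [TopologicalSpace G] [IsTopologicalGroup G] [T2Space G] [LocallyCompactSpace G]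
  [SecondCountableTopology G] [MeasurableSpace G] [BorelSpace G] [ProperSpace k]

namespace Fl

variable (h : Fl F) (μ : Measure G) [μ.IsHaarMeasure]
include h

/-- most of a compact set lies in a compact part of the big cell -/
theorem most_Ω {K : Set G} (hK : IsCompact K) {ε : ℝ≥0∞} (hε : ε ≠ 0) :
    ∃ Q, IsCompact Q ∧ Q ⊆ F.Ω ∧ Q ⊆ K ∧ μ (K \ Q) ≤ ε := by
  obtain ⟨Q, h1, h2, h3⟩ := (hK.measurableSet.inter h.isOpen_Ω.measurableSet).exists_isCompact_sdiff_lt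
    (μ := μ) ((measure_mono inter_subset_left).trans_lt hK.measure_lt_top).ne hε
  refine ⟨Q, h2, h1.trans inter_subset_right, h1.trans inter_subset_left, le_trans
    (measure_mono_ae ?_) h3.le⟩
  filter_upwards [h.null_Ω μ] with g hg e using ⟨⟨e.1, hg⟩, e.2⟩

omit [LocallyCompactSpace G] [SecondCountableTopology G] [MeasurableSpace G] [BorelSpace G]
  [ProperSpace k] in
theorem ht_cell {Q : Set G} (hQ : IsCompact Q) (hs : Q ⊆ F.Ω) : ∃ C : ℝ, 1 ≤ C ∧ ∀ z, F.Dom z →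
    ∀ q ∈ Q, ∀ j, |F.ht (z * q) j - F.ω (F.ℓ z) j| ≤ C := by
  obtain ⟨L, hL, -, h1⟩ := h.um_bdd (hQ.image_of_continuousOn (h.lo_cont.mono hs))
  obtain ⟨A, hA, h2⟩ := cpt_up hL (fun j x => |F.ht x j|)
    fun j => ((continuous_apply j).comp h.cont_ht).abs.continuousOn
  obtain ⟨B, hB, h3⟩ := cpt_up hQ (fun j x => |F.ω (F.ℓ x) j|) fun j => ((continuous_apply j).comp
    (cont_ω (F := F))).abs.comp_continuousOn (h.contOn_ℓ.mono hs)
  refine ⟨A + B, by linarith, fun z hz q hq j => ?_⟩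
  have h4 := h.lo_P (hs hq)
  have h5 := h.z_mem_P hz.1 Finset.univ
  rw [show z * q = z * F.lo q * z⁻¹ * (z * ((F.lo q)⁻¹ * q)) by group,
    h.ht_P' ((F.P _).mul_mem h5 h4), h.ℓ_P (h.P_Ω h5) h4,
    h.ℓ_um (F.Um.inv_mem (h.lo_mem q (hs hq))), ω_add, Pi.add_apply, Pi.add_apply,
    add_left_comm, add_sub_cancel_left]
  exact (abs_add_le _ _).trans (add_le_add (h2 j _ (h1 z hz _ ⟨q, hq, rfl⟩ (h.lo_mem q (hs hq))))
    (h3 j q hq))

/-- **HS-LOW** -/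
theorem hs_low {V : Set G} (hV : IsCompact V) {ε : ℝ≥0∞} (hε : ε ≠ 0) : ∃ R : ℝ, 1 ≤ R ∧ ∀ x,
    μ {u | u ∈ V ∧ ∃ j, R < |F.ht (x * u) j - F.lam x j|} ≤ ε := by
  obtain ⟨K, hK, h1⟩ := h.kak
  obtain ⟨Q, hQ, hs, -, h2⟩ := h.most_Ω μ (hK.mul hV) hε
  obtain ⟨A, hA, h3⟩ := h.ht_cell hQ hs
  obtain ⟨B, hB, h4⟩ := h.len_cpt hK
  obtain ⟨D, hD, h5⟩ := h.lam_dom
  refine ⟨A + 3 * B + D, by linarith, fun x => ?_⟩
  obtain ⟨a, ha, t, ht, b, hb, rfl⟩ := h1 x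
  refine le_trans (measure_mono fun u hu => ?_) ((measure_preimage_mul μ b _).le.trans h2)
  refine ⟨mul_mem_mul hb hu.1, fun hq => ?_⟩
  obtain ⟨j, hj⟩ := hu.2
  have h6 := abs_le.1 (h3 _ (h.a_dom ht) _ hq j)
  have h7 := abs_le.1 (h.ht_lip a (F.a t * (b * u)) j)
  have h8 := abs_le.1 (h.lam_lip a (F.a t) b j)
  have h9 := abs_le.1 (h5 _ (h.a_dom ht) j)
  rw [show a * F.a t * b * u = a * (F.a t * (b * u)) by group] at hj
  refine absurd hj (not_lt.2 (abs_le.2 ⟨?_, ?_⟩)) <;> linarith [h4 a ha, h4 b hb]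

/-- **HS-LOW** in the coordinates of the simple roots -/
theorem hs_low' {V : Set G} (hV : IsCompact V) {ε : ℝ≥0∞} (hε : ε ≠ 0) : ∃ R : ℝ, 1 ≤ R ∧ ∀ x,
    μ {u | u ∈ V ∧ R < ‖F.co (F.ht (x * u)) - F.κ x‖} ≤ ε := by
  obtain ⟨R, hR, h1⟩ := h.hs_low μ hV hε
  obtain ⟨C, hC, h2⟩ := F.co_bound
  refine ⟨C * R, by nlinarith, fun x => le_trans (measure_mono fun u hu => ?_) (h1 x)⟩
  refine ⟨hu.1, ?_⟩
  by_contra h3
  push Not at h3
  refine absurd hu.2 (not_lt.2 ?_)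
  rw [FlD.κ, ← co_sub]
  exact (h2 _).trans (mul_le_mul_of_nonneg_left
    ((pi_norm_le_iff_of_nonneg (by linarith)).2 h3) (by linarith))

end Fl

end Vale.Agent.P092GK
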