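import Vale.Agent.P092GK.Flag

/-!
P092, group package (helper83): dynamics of parabolic subgroups, Levi decompositions, opposition.
-/

set_option linter.all false

open Matrix Filter Topology

namespace Vale.Agent.P092GK

open FlD

variable {k : Type} [NontriviallyNormedField k] {G : Type} [Group G] {r : ℕ} {F : FlD k G r}

/-- the Levi subgroup of type `θ` -/
def FlD.L (F : FlD k G r) (θ : Finset (Fin r)) : Subgroup G := Subgroup.centralizer (F.b '' θ)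

theorem FlD.mem_L {θ : Finset (Fin r)} {g : G} : g ∈ F.L θ ↔ ∀ j ∈ θ, F.b j * g = g * F.b j :=
  ⟨fun h j hj => h _ ⟨j, hj, rfl⟩, fun h => by rintro _ ⟨j, hj, rfl⟩; exact h j hj⟩

/-- the central element of the Levi subgroup -/
def FlD.cb (F : FlD k G r) (θ : Finset (Fin r)) : G := F.a fun i => if i ∈ θ then 1 else 0

variable [TopologicalSpace G] [IsTopologicalGroup G]

/-- the unipotent radical of `P θ` -/
def FlD.U (F : FlD k G r) (θ : Finset (Fin r)) : Subgroup G where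
  carrier := {u | Tendsto (fun n : ℕ => (F.cb θ ^ n)⁻¹ * u * F.cb θ ^ n) atTop (𝓝 1)}
  one_mem' := by simpa using tendsto_const_nhds
  mul_mem' {u w} hu hw := by
    have := Tendsto.mul hu hw
    rw [one_mul] at this
    exact this.congr fun n => by group
  inv_mem' {u} hu := by
    have := Tendsto.inv hu
    rw [inv_one] at this
    exact this.congr fun n => by group

/-- the unipotent radical of `Pm θ` -/
def FlD.U' (F : FlD k G r) (θ : Finset (Fin r)) : Subgroup G where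
  carrier := {u | Tendsto (fun n : ℕ => F.cb θ ^ n * u * (F.cb θ ^ n)⁻¹) atTop (𝓝 1)}
  one_mem' := by simpa using tendsto_const_nhds
  mul_mem' {u w} hu hw := by
    have := Tendsto.mul hu hw
    rw [one_mul] at this
    exact this.congr fun n => by group
  inv_mem' {u} hu := by
    have := Tendsto.inv hu
    rw [inv_one] at this
    exact this.congr fun n => by group

namespace Fl

variable (h : Fl F)
include h

theorem Δ_conj {z : G} (hz : z ∈ F.Z) (j : Fin r) (g : G) : F.Δ j (z⁻¹ * g * z) = F.Δ j g := by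
  rw [h.Δ_zr hz, h.Δ_zl (F.Z.inv_mem hz), mul_right_comm, mul_comm (F.Δ j z⁻¹), h.Δ_zinv hz, one_mul]

theorem Δ_conj' {z : G} (hz : z ∈ F.Z) (j : Fin r) (g : G) : F.Δ j (z * g * z⁻¹) = F.Δ j g := by
  have := h.Δ_conj (F.Z.inv_mem hz) j g
  rwa [inv_inv] at this

theorem conj_mem_Ω {z g : G} (hz : z ∈ F.Z) : z * g * z⁻¹ ∈ F.Ω ↔ g ∈ F.Ω := by
  simp only [FlD.Ω, Set.mem_setOf_eq, h.Δ_conj' hz]

theorem cell_conj {z g : G} (hz : z ∈ F.Z) (hg : g ∈ F.Ω) :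
    F.lo (z * g * z⁻¹) = z * F.lo g * z⁻¹ ∧ F.md (z * g * z⁻¹) = z * F.md g * z⁻¹ ∧
      F.up (z * g * z⁻¹) = z * F.up g * z⁻¹ := by
  have h1 : z * g * z⁻¹ = (z * F.lo g * z⁻¹) * (z * F.md g * z⁻¹) * (z * F.up g * z⁻¹) := by
    conv_lhs => rw [← F.lo_md_up g]
    group
  rw [h1]
  have := h.cell_eq (h.zum z hz _ (h.lo_mem g hg))
    (F.Z.mul_mem (F.Z.mul_mem hz (h.md_mem hg)) (F.Z.inv_mem hz)) (h.zup z hz _ (h.up_mem g hg))
  exact this

theorem cell_of_one : F.lo 1 = 1 ∧ F.md 1 = 1 ∧ F.up 1 = 1 := by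
  simpa using h.cell_eq F.Um.one_mem F.Z.one_mem F.Up.one_mem

/-- bounded under contraction implies fixing the highest weight line -/
theorem fix_of_bdd {ι : Type} {l : Filter ι} [l.NeBot] {z : ι → G} (hz : ∀ᶠ n in l, F.Dom (z n))
    {j : Fin r} (hl : Tendsto (fun n => F.ℓ (z n) j) l atTop) {Q : Set G} (hQ : IsCompact Q) {g : G}
    (hg : ∀ᶠ n in l, (z n)⁻¹ * g * z n ∈ Q) : F.V j g (F.v j) = F.Δ j g • F.v j := by
  obtain ⟨C, hC1, hC⟩ := h.con'
  obtain ⟨D, hD1, hD⟩ := cpt_up hQ (fun j x => ‖F.V j x (F.v j)‖)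
    fun j => (h.contVv j).norm.continuousOn
  have h1 : Tendsto (fun n => C * D * Real.exp (-F.ℓ (z n) j)) l (𝓝 (C * D * 0)) :=
    (Real.tendsto_exp_neg_atTop_nhds_zero.comp hl).const_mul _
  rw [mul_zero] at h1
  refine sub_eq_zero.1 (norm_le_zero_iff.1 (ge_of_tendsto h1 ?_))
  filter_upwards [hz, hg] with n hn hgn
  have h2 : F.V j g (F.v j) - F.Δ j g • F.v j = F.Δ j (z n)⁻¹ •
      (F.V j (z n) - F.Δ j (z n) • F.pr j) (F.V j ((z n)⁻¹ * g * z n) (F.v j)) := by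
    rw [ContinuousLinearMap.sub_apply, ContinuousLinearMap.smul_apply, pr_apply, ← V_mul,
      show z n * ((z n)⁻¹ * g * z n) = g * z n by group, V_mul, h.zv _ hn.1, map_smul, ← smul_sub,
      smul_smul, mul_comm, h.Δ_zinv hn.1, one_smul, ← h.Δ_conj hn.1 j g]
    rfl
  have h3 : ‖F.Δ j (z n)⁻¹‖ * ‖F.Δ j (z n)‖ = 1 := by
    rw [← norm_mul, mul_comm, h.Δ_zinv hn.1, norm_one]
  rw [h2, norm_smul]
  calc _ ≤ ‖F.Δ j (z n)⁻¹‖ * (C * (‖F.Δ j (z n)‖ * Real.exp (-F.ℓ (z n) j)) * D) :=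
        mul_le_mul_of_nonneg_left ((ContinuousLinearMap.le_opNorm _ _).trans
          (mul_le_mul (hC _ hn j) (hD j _ hgn) (norm_nonneg _) (by positivity))) (norm_nonneg _)
    _ = (‖F.Δ j (z n)⁻¹‖ * ‖F.Δ j (z n)‖) * (C * D * Real.exp (-F.ℓ (z n) j)) := by ring
    _ = _ := by rw [h3, one_mul]

theorem fix_of_bdd' {ι : Type} {l : Filter ι} [l.NeBot] {z : ι → G} (hz : ∀ᶠ n in l, F.Dom (z n))
    {j : Fin r} (hl : Tendsto (fun n => F.ℓ (z n) j) l atTop) {Q : Set G} (hQ : IsCompact Q) {g : G}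
    (hg : ∀ᶠ n in l, z n * g * (z n)⁻¹ ∈ Q) (x : F.E j) :
    F.φ j (F.V j g x) = F.Δ j g * F.φ j x := by
  obtain ⟨C, hC1, hC⟩ := h.con'
  obtain ⟨D, hD1, hD⟩ := cpt_up hQ (fun j x => ‖(F.φ j).comp (F.V j x)‖)
    fun j => (h.contφV j).norm.continuousOn
  have h1 : Tendsto (fun n => C * D * ‖x‖ * Real.exp (-F.ℓ (z n) j)) l (𝓝 (C * D * ‖x‖ * 0)) :=
    (Real.tendsto_exp_neg_atTop_nhds_zero.comp hl).const_mul _
  rw [mul_zero] at h1
  refine sub_eq_zero.1 (norm_le_zero_iff.1 (ge_of_tendsto h1 ?_))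
  filter_upwards [hz, hg] with n hn hgn
  have h2 : F.φ j (F.V j g x) - F.Δ j g * F.φ j x = F.Δ j (z n)⁻¹ *
      (F.φ j).comp (F.V j (z n * g * (z n)⁻¹)) ((F.V j (z n) - F.Δ j (z n) • F.pr j) x) := by
    rw [ContinuousLinearMap.sub_apply, ContinuousLinearMap.smul_apply, pr_apply, map_sub, map_smul,
      map_smul, ContinuousLinearMap.comp_apply, ← V_mul, inv_mul_cancel_right, V_mul, h.zφ _ hn.1,
      smul_eq_mul, smul_eq_mul, ← mul_sub, ← mul_assoc, mul_comm (F.Δ j (z n)⁻¹), h.Δ_zinv hn.1,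
      one_mul, ← h.Δ_conj' hn.1 j g, mul_comm]
    rfl
  have h3 : ‖F.Δ j (z n)⁻¹‖ * ‖F.Δ j (z n)‖ = 1 := by
    rw [← norm_mul, mul_comm, h.Δ_zinv hn.1, norm_one]
  rw [h2, norm_mul]
  calc _ ≤ ‖F.Δ j (z n)⁻¹‖ * (D * (C * (‖F.Δ j (z n)‖ * Real.exp (-F.ℓ (z n) j)) * ‖x‖)) :=
        mul_le_mul_of_nonneg_left ((ContinuousLinearMap.le_opNorm _ _).trans
          (mul_le_mul (hD j _ hgn) ((ContinuousLinearMap.le_opNorm _ _).trans
            (mul_le_mul_of_nonneg_right (hC _ hn j) (norm_nonneg _))) (norm_nonneg _)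
            (by positivity))) (norm_nonneg _)
    _ = (‖F.Δ j (z n)⁻¹‖ * ‖F.Δ j (z n)‖) * (C * D * ‖x‖ * Real.exp (-F.ℓ (z n) j)) := by ring
    _ = _ := by rw [h3, one_mul]

theorem dom_mul {z z' : G} (hz : F.Dom z) (hz' : F.Dom z') : F.Dom (z * z') :=
  ⟨F.Z.mul_mem hz.1 hz'.1, fun i => by
    rw [h.ℓ_mul hz.1 hz'.1]; exact add_nonneg (hz.2 i) (hz'.2 i)⟩

theorem dom_pow {z : G} (hz : F.Dom z) (n : ℕ) : F.Dom (z ^ n) :=
  ⟨F.Z.pow_mem hz.1 n, fun i => by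
    rw [h.ℓ_pow hz.1]; exact mul_nonneg (Nat.cast_nonneg n) (hz.2 i)⟩

theorem b_dom (j : Fin r) : F.Dom (F.b j) :=
  ⟨h.bZ j, fun i => by rw [h.bℓ]; exact (Pi.single_nonneg (α := fun _ => ℝ)).2 h.β_pos.le i⟩

theorem tendsto_pow {z : G} (hz : z ∈ F.Z) {j : Fin r} (hj : 0 < F.ℓ z j) :
    Tendsto (fun n : ℕ => F.ℓ (z ^ n) j) atTop atTop := by
  simp only [h.ℓ_pow hz, Pi.smul_apply, smul_eq_mul]
  exact tendsto_natCast_atTop_atTop.atTop_mul_const hj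

theorem cb_mem (θ : Finset (Fin r)) : F.cb θ ∈ F.Z := h.a_mem _

theorem ℓ_cb (θ : Finset (Fin r)) (i : Fin r) : F.ℓ (F.cb θ) i = if i ∈ θ then F.β else 0 := by
  rw [FlD.cb, h.ℓ_a]; split_ifs with hi <;> simp [hi]

theorem cb_dom (θ : Finset (Fin r)) : F.Dom (F.cb θ) :=
  h.a_dom fun i => by dsimp; split_ifs <;> simp

theorem cb_single (j : Fin r) : F.cb {j} = F.b j := by
  rw [← zpow_one (F.b j), ← h.a_single, FlD.cb]
  congr 1
  funext i
  simp [Pi.single_apply]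

theorem cb_insert {θ : Finset (Fin r)} {j : Fin r} (hj : j ∉ θ) :
    F.cb (insert j θ) = F.b j * F.cb θ := by
  rw [← h.cb_single, FlD.cb, FlD.cb, FlD.cb, ← h.a_add]
  congr 1
  funext i
  by_cases hi : i = j
  · subst hi; simp [hj]
  · simp [hi]

theorem cb_empty : F.cb ∅ = 1 := by
  rw [← h.a_zero, FlD.cb]; congr 1

theorem cb_comm {θ : Finset (Fin r)} {g : G} (hg : g ∈ F.L θ) : F.cb θ * g = g * F.cb θ := by
  induction θ using Finset.induction_on with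
  | empty => rw [h.cb_empty, one_mul, mul_one]
  | insert j θ hj ih =>
    rw [h.cb_insert hj, mul_assoc, ih (mem_L.2 fun i hi => mem_L.1 hg i (Finset.mem_insert_of_mem hi)),
      ← mul_assoc, mem_L.1 hg j (Finset.mem_insert_self _ _), mul_assoc]

theorem a_comm_L {θ : Finset (Fin r)} {g : G} (hg : g ∈ F.L θ) {t : Fin r → ℤ}
    (ht : ∀ i, i ∉ θ → t i = 0) : F.a t * g = g * F.a t := by
  refine (Commute.list_prod_left _ _ fun x hx => ?_).eq
  obtain ⟨i, rfl⟩ := List.mem_ofFn.1 hx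
  by_cases hi : i ∈ θ
  · exact Commute.zpow_left (mem_L.1 hg i hi) _
  · show Commute (F.b i ^ t i) g
    rw [ht i hi, zpow_zero]; exact Commute.one_left g

theorem z_mem_L {z : G} (hz : z ∈ F.Z) (θ : Finset (Fin r)) : z ∈ F.L θ :=
  mem_L.2 fun j _ => h.bcomm j z hz

theorem P_of_comm {θ : Finset (Fin r)} {z g : G} (hz : F.Dom z) (hθ : ∀ j ∈ θ, 0 < F.ℓ z j)
    (hg : z * g = g * z) : g ∈ F.P θ ∧ g ∈ F.Pm θ := by
  have h1 : ∀ n : ℕ, z ^ n * g = g * z ^ n := fun n => (Commute.pow_left hg n).eq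
  exact ⟨fun j hj => ⟨_, h.fix_of_bdd (Eventually.of_forall (h.dom_pow hz))
    (h.tendsto_pow hz.1 (hθ j hj)) (isCompact_singleton (x := g)) (Eventually.of_forall fun n => by
      rw [mul_assoc, ← h1, inv_mul_cancel_left]; rfl)⟩,
    fun j hj => ⟨_, h.fix_of_bdd' (Eventually.of_forall (h.dom_pow hz))
    (h.tendsto_pow hz.1 (hθ j hj)) (isCompact_singleton (x := g)) (Eventually.of_forall fun n => by
      rw [h1, mul_inv_cancel_right]; rfl)⟩⟩

theorem ℓ_cb_pos {θ : Finset (Fin r)} {j : Fin r} (hj : j ∈ θ) : 0 < F.ℓ (F.cb θ) j := by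
  rw [h.ℓ_cb, if_pos hj]; exact h.β_pos

theorem L_le_P (θ : Finset (Fin r)) : F.L θ ≤ F.P θ := fun _ hg =>
  (h.P_of_comm (h.cb_dom θ) (fun _ hj => h.ℓ_cb_pos hj) (h.cb_comm hg)).1

theorem L_le_Pm (θ : Finset (Fin r)) : F.L θ ≤ F.Pm θ := fun _ hg =>
  (h.P_of_comm (h.cb_dom θ) (fun _ hj => h.ℓ_cb_pos hj) (h.cb_comm hg)).2

variable [T2Space G]

/-- small elements of `U⁻` stay small under dominant elements -/
theorem um_small {N : Set G} (hN : N ∈ 𝓝 (1 : G)) : ∃ N' ∈ 𝓝 (1 : G),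
    ∀ z, F.Dom z → ∀ u ∈ N', u ∈ F.Um → z * u * z⁻¹ ∈ N := by
  obtain ⟨C, hC1, hC⟩ := h.con'
  obtain ⟨ε, hε, hh⟩ := h.um_near hN
  have h1 : ∀ᶠ u in 𝓝 (1 : G), ∀ j, ‖F.V j u (F.v j) - F.v j‖ ≤ ε / C := eventually_all.2 fun j =>
    (((h.contVv j).sub continuous_const).norm.continuousAt (x := 1)).eventually
      (Iic_mem_nhds (by
        show ‖F.V j 1 (F.v j) - F.v j‖ < ε / C
        rw [V_one, sub_self, norm_zero]; positivity))
  refine ⟨_, h1, fun z hz u hu hu' => hh _ (h.zum z hz.1 u hu') fun j => ?_⟩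
  have h2 : F.V j (z * u * z⁻¹) (F.v j) - F.v j =
      F.Δ j z⁻¹ • (F.V j z - F.Δ j z • F.pr j) (F.V j u (F.v j) - F.v j) := by
    rw [V_mul, V_mul, h.zv _ (F.Z.inv_mem hz.1), map_smul, map_smul, ContinuousLinearMap.sub_apply,
      ContinuousLinearMap.smul_apply, pr_apply, map_sub, map_sub, h.umφ u hu', h.φv, sub_self,
      zero_smul, smul_zero, sub_zero, h.zv z hz.1, smul_sub, smul_smul, mul_comm, h.Δ_zinv hz.1,
      one_smul]
  have h3 : ‖F.Δ j z⁻¹‖ * ‖F.Δ j z‖ = 1 := by rw [← norm_mul, mul_comm, h.Δ_zinv hz.1, norm_one]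
  have h4 : Real.exp (-F.ℓ z j) ≤ 1 := Real.exp_le_one_iff.2 (neg_nonpos.2 (hz.2 j))
  rw [h2, norm_smul]
  calc _ ≤ ‖F.Δ j z⁻¹‖ * (C * (‖F.Δ j z‖ * 1) * (ε / C)) :=
        mul_le_mul_of_nonneg_left ((ContinuousLinearMap.le_opNorm _ _).trans
          (mul_le_mul ((hC z hz j).trans (by gcongr)) (hu j) (norm_nonneg _) (by positivity)))
          (norm_nonneg _)
    _ = (‖F.Δ j z⁻¹‖ * ‖F.Δ j z‖) * ε := by field_simp
    _ = _ := by rw [h3, one_mul]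

theorem up_small {N : Set G} (hN : N ∈ 𝓝 (1 : G)) : ∃ N' ∈ 𝓝 (1 : G),
    ∀ z, F.Dom z → ∀ u ∈ N', u ∈ F.Up → z⁻¹ * u * z ∈ N := by
  have h1 : (fun x => F.n₀⁻¹ * x * F.n₀) ⁻¹' N ∈ 𝓝 (1 : G) :=
    ContinuousAt.preimage_mem_nhds (by fun_prop) (by simpa using hN)
  obtain ⟨N', hN', hh⟩ := h.um_small h1
  refine ⟨(fun x => F.n₀ * x * F.n₀⁻¹) ⁻¹' N',
    ContinuousAt.preimage_mem_nhds (by fun_prop) (by simpa using hN'), fun z hz u hu hu' => ?_⟩
  have h2 := hh _ (h.n₀_dom hz) _ hu ((h.n₀up u).1 hu')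
  rwa [Set.mem_preimage, show F.n₀⁻¹ * (F.n₀ * z⁻¹ * F.n₀⁻¹ * (F.n₀ * u * F.n₀⁻¹) *
    (F.n₀ * z⁻¹ * F.n₀⁻¹)⁻¹) * F.n₀ = z⁻¹ * u * z by group] at h2

theorem um_tendsto {ι : Type} {l : Filter ι} {z u : ι → G} (hz : ∀ᶠ n in l, F.Dom (z n))
    (hu : ∀ᶠ n in l, u n ∈ F.Um) (h1 : Tendsto u l (𝓝 1)) :
    Tendsto (fun n => z n * u n * (z n)⁻¹) l (𝓝 1) := fun N hN => by
  obtain ⟨N', hN', hh⟩ := h.um_small hN
  rw [mem_map]
  filter_upwards [hz, hu, mem_map.1 (h1 hN')] with n a1 a2 a3 using hh _ a1 _ a3 a2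

theorem up_tendsto {ι : Type} {l : Filter ι} {z u : ι → G} (hz : ∀ᶠ n in l, F.Dom (z n))
    (hu : ∀ᶠ n in l, u n ∈ F.Up) (h1 : Tendsto u l (𝓝 1)) :
    Tendsto (fun n => (z n)⁻¹ * u n * z n) l (𝓝 1) := fun N hN => by
  obtain ⟨N', hN', hh⟩ := h.up_small hN
  rw [mem_map]
  filter_upwards [hz, hu, mem_map.1 (h1 hN')] with n a1 a2 a3 using hh _ a1 _ a3 a2

/-- the elements contracted by dominant elements of the lattice are in `U⁺` -/
theorem up_of_contr {ι : Type} {l : Filter ι} [l.NeBot] {z : ι → G} (hz : ∀ n, F.Dom (z n))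
    (hc : ∀ n, ∀ w ∈ F.Z, z n * w = w * z n) {x : G}
    (hx : Tendsto (fun n => (z n)⁻¹ * x * z n) l (𝓝 1)) : x ∈ F.Up := by
  have hΩ : x ∈ F.Ω := by
    obtain ⟨n, hn⟩ := (hx.eventually (h.isOpen_Ω.mem_nhds h.one_mem)).exists
    rw [← h.conj_mem_Ω (F.Z.inv_mem (hz n).1), inv_inv]
    exact hn
  have hc' := fun n => h.cell_conj (F.Z.inv_mem (hz n).1) hΩ
  simp only [inv_inv] at hc'
  have h1 := (h.lo_cont.continuousAt (h.isOpen_Ω.mem_nhds h.one_mem)).tendsto.comp hx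
  have h2 := (h.md_cont.continuousAt (h.isOpen_Ω.mem_nhds h.one_mem)).tendsto.comp hx
  rw [h.cell_of_one.1] at h1
  rw [h.cell_of_one.2.1] at h2
  have h3 := h.um_tendsto (Eventually.of_forall hz) (Eventually.of_forall fun n => by
    simpa using h.zum _ (F.Z.inv_mem (hz n).1) _ (h.lo_mem x hΩ)) (h1.congr fun n => (hc' n).1)
  have h4 : F.lo x = 1 := tendsto_nhds_unique (tendsto_const_nhds.congr fun n => by group) h3
  have h5 : F.md x = 1 := tendsto_nhds_unique (tendsto_const_nhds.congr fun n => by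
    rw [mul_assoc, ← hc n _ (h.md_mem hΩ), inv_mul_cancel_left]) (h2.congr fun n => (hc' n).2.1)
  rw [← F.lo_md_up x, h4, h5, one_mul, one_mul]
  exact h.up_mem x hΩ

theorem um_of_contr {ι : Type} {l : Filter ι} [l.NeBot] {z : ι → G} (hz : ∀ n, F.Dom (z n))
    (hc : ∀ n, ∀ w ∈ F.Z, z n * w = w * z n) {x : G}
    (hx : Tendsto (fun n => z n * x * (z n)⁻¹) l (𝓝 1)) : x ∈ F.Um := by
  refine (h.n₀um x).2 (h.up_of_contr (l := l) (fun n => h.n₀_dom (hz n)) (fun n w hw => ?_) ?_)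
  · have h1 : F.n₀⁻¹ * w * F.n₀ ∈ F.Z := (h.n₀Z _).2 (by simpa [mul_assoc] using hw)
    have h2 := (Commute.inv_left (hc n _ h1)).eq
    calc _ = F.n₀ * ((z n)⁻¹ * (F.n₀⁻¹ * w * F.n₀)) * F.n₀⁻¹ := by group
      _ = _ := by rw [h2]; group
  · have := (tendsto_const_nhds (x := F.n₀)).mul hx |>.mul (tendsto_const_nhds (x := F.n₀⁻¹))
    rw [mul_one, mul_inv_cancel] at this
    exact this.congr fun n => by group

theorem cb_pow_comm (θ : Finset (Fin r)) (n : ℕ) (w : G) (hw : w ∈ F.Z) :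
    F.cb θ ^ n * w = w * F.cb θ ^ n := (Commute.pow_left (h.a_comm _ hw) n).eq

theorem U_le_Up (θ : Finset (Fin r)) : F.U θ ≤ F.Up := fun _ hu =>
  h.up_of_contr (h.dom_pow (h.cb_dom θ)) (h.cb_pow_comm θ) hu

theorem U'_le_Um (θ : Finset (Fin r)) : F.U' θ ≤ F.Um := fun _ hu =>
  h.um_of_contr (h.dom_pow (h.cb_dom θ)) (h.cb_pow_comm θ) hu

theorem cb_union {θ θ' : Finset (Fin r)} (hθ : θ ⊆ θ') : F.cb θ' = F.cb θ * F.cb (θ' \ θ) := by
  rw [FlD.cb, FlD.cb, FlD.cb, ← h.a_add]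
  congr 1
  funext i
  by_cases hi : i ∈ θ
  · simp [hi, hθ hi]
  · simp [hi]

theorem U_mono {θ θ' : Finset (Fin r)} (hθ : θ ⊆ θ') : F.U θ ≤ F.U θ' := fun u hu => by
  have h1 := h.up_tendsto (Eventually.of_forall (h.dom_pow (h.cb_dom (θ' \ θ))))
    (Eventually.of_forall fun n => by
      simpa using h.zup _ (F.Z.inv_mem (F.Z.pow_mem (h.cb_mem θ) n)) u (h.U_le_Up θ hu)) hu
  refine h1.congr fun n => ?_
  rw [h.cb_union hθ, Commute.mul_pow (a := F.cb θ) (h.a_comm _ (h.cb_mem _))]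
  group

theorem U'_mono {θ θ' : Finset (Fin r)} (hθ : θ ⊆ θ') : F.U' θ ≤ F.U' θ' := fun u hu => by
  have h1 := h.um_tendsto (Eventually.of_forall (h.dom_pow (h.cb_dom (θ' \ θ))))
    (Eventually.of_forall fun n => h.zum _ (F.Z.pow_mem (h.cb_mem θ) n) u (h.U'_le_Um θ hu)) hu
  refine h1.congr fun n => ?_
  rw [h.cb_union hθ, show F.cb θ * F.cb (θ' \ θ) = F.cb (θ' \ θ) * F.cb θ from
    h.a_comm _ (h.cb_mem _), Commute.mul_pow (a := F.cb (θ' \ θ)) (h.a_comm _ (h.cb_mem _))]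
  group

theorem U_univ {u : G} : u ∈ F.U Finset.univ ↔ u ∈ F.Up := by
  refine ⟨fun hu => h.U_le_Up _ hu, fun hu N hN => ?_⟩
  obtain ⟨T, -, hT⟩ := h.up_contr (isCompact_singleton (x := u)) hN
  rw [mem_map]
  filter_upwards [eventually_all.2 fun i => (h.tendsto_pow (h.cb_mem Finset.univ)
    (h.ℓ_cb_pos (Finset.mem_univ i))).eventually_ge_atTop T] with n hn
  exact hT _ (F.Z.pow_mem (h.cb_mem _) n) hn u rfl hu

theorem U'_univ {u : G} : u ∈ F.U' Finset.univ ↔ u ∈ F.Um := by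
  refine ⟨fun hu => h.U'_le_Um _ hu, fun hu N hN => ?_⟩
  obtain ⟨T, -, hT⟩ := h.um_contr (isCompact_singleton (x := u)) hN
  rw [mem_map]
  filter_upwards [eventually_all.2 fun i => (h.tendsto_pow (h.cb_mem Finset.univ)
    (h.ℓ_cb_pos (Finset.mem_univ i))).eventually_ge_atTop T] with n hn
  exact hT _ (F.Z.pow_mem (h.cb_mem _) n) hn u rfl hu

omit h in
theorem lim_comm {c g l : G} (hl : Tendsto (fun n : ℕ => (c ^ n)⁻¹ * g * c ^ n) atTop (𝓝 l)) :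
    c * l = l * c := by
  have h1 := (tendsto_const_nhds (x := c⁻¹)).mul hl |>.mul (tendsto_const_nhds (x := c))
  have h2 := tendsto_nhds_unique ((hl.comp (tendsto_add_atTop_nat 1)).congr fun n => by
    simp only [Function.comp]; rw [pow_succ]; group) h1
  conv_lhs => rw [h2]
  group

/-- **Levi decomposition** -/
theorem levi {θ : Finset (Fin r)} {g : G} (hg : g ∈ F.P θ) :
    ∃ l ∈ F.L θ, ∃ u ∈ F.U θ, g = l * u := by
  suffices H : ∀ σ : Finset (Fin r), σ ⊆ θ → ∃ l ∈ F.L σ, ∃ u ∈ F.U σ, g = l * u from H θ le_rfl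
  intro σ
  induction σ using Finset.induction_on with
  | empty => exact fun _ => ⟨g, mem_L.2 (by simp), 1, (F.U _).one_mem, (mul_one g).symm⟩
  | insert j σ hj ih =>
    intro hσ
    obtain ⟨l, hl, u, hu, e⟩ := ih ((Finset.subset_insert j σ).trans hσ)
    have h1 : l ∈ F.P θ := by
      rw [show l = g * u⁻¹ by rw [e]; group]
      exact (F.P θ).mul_mem hg ((F.P θ).inv_mem (h.up_mem_P (h.U_le_Up σ hu) θ))
    obtain ⟨d, hd⟩ := h1 j (hσ (Finset.mem_insert_self j σ))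
    obtain ⟨l', hl'⟩ := h.par j l d hd
    refine ⟨l', mem_L.2 fun i hi => ?_, l'⁻¹ * l * u, (F.U _).mul_mem (h.U_mono
      (θ := {j}) (by simp) ?_) (h.U_mono (Finset.subset_insert j σ) hu), by rw [e]; group⟩
    · rcases Finset.mem_insert.1 hi with rfl | hi
      · exact lim_comm hl'
      · refine tendsto_nhds_unique (tendsto_const_nhds.mul hl')
          ((hl'.mul tendsto_const_nhds).congr fun n => ?_)
        have h2 : Commute (F.b i) (F.b j ^ n) := Commute.pow_right (h.bcomm i _ (h.bZ j)) n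
        exact ((h2.inv_right.mul_right (mem_L.1 hl i hi)).mul_right h2).eq.symm
    · show Tendsto _ _ _
      rw [h.cb_single]
      have h2 := (tendsto_const_nhds (x := l'⁻¹)).mul hl'
      rw [inv_mul_cancel] at h2
      refine h2.congr fun n => ?_
      have h3 : Commute (F.b j ^ n)⁻¹ l'⁻¹ := (Commute.pow_left (lim_comm hl') n).inv_inv
      rw [← mul_assoc, ← mul_assoc, ← h3.eq]; group

theorem levi' {θ : Finset (Fin r)} {g : G} (hg : g ∈ F.Pm θ) :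
    ∃ l ∈ F.L θ, ∃ u ∈ F.U' θ, g = l * u := by
  suffices H : ∀ σ : Finset (Fin r), σ ⊆ θ → ∃ l ∈ F.L σ, ∃ u ∈ F.U' σ, g = l * u from H θ le_rfl
  intro σ
  induction σ using Finset.induction_on with
  | empty => exact fun _ => ⟨g, mem_L.2 (by simp), 1, (F.U' _).one_mem, (mul_one g).symm⟩
  | insert j σ hj ih =>
    intro hσ
    obtain ⟨l, hl, u, hu, e⟩ := ih ((Finset.subset_insert j σ).trans hσ)
    have h1 : l ∈ F.Pm θ := by
      rw [show l = g * u⁻¹ by rw [e]; group]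
      exact (F.Pm θ).mul_mem hg ((F.Pm θ).inv_mem (h.um_mem_Pm (h.U'_le_Um σ hu) θ))
    obtain ⟨d, hd⟩ := h1 j (hσ (Finset.mem_insert_self j σ))
    obtain ⟨l', hl'⟩ := h.par' j l d hd
    have hc : Commute (F.b j) l' := by
      have := lim_comm (c := (F.b j)⁻¹) (g := l) (l := l') (by simpa using hl')
      exact (Commute.inv_left_iff (a := F.b j)).1 this
    refine ⟨l', mem_L.2 fun i hi => ?_, l'⁻¹ * l * u, (F.U' _).mul_mem (h.U'_mono
      (θ := {j}) (by simp) ?_) (h.U'_mono (Finset.subset_insert j σ) hu), by rw [e]; group⟩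
    · rcases Finset.mem_insert.1 hi with rfl | hi
      · exact hc.eq
      · refine tendsto_nhds_unique (tendsto_const_nhds.mul hl')
          ((hl'.mul tendsto_const_nhds).congr fun n => ?_)
        have h2 : Commute (F.b i) (F.b j ^ n) := Commute.pow_right (h.bcomm i _ (h.bZ j)) n
        exact ((h2.mul_right (mem_L.1 hl i hi)).mul_right h2.inv_right).eq.symm
    · show Tendsto _ _ _
      rw [h.cb_single]
      have h2 := (tendsto_const_nhds (x := l'⁻¹)).mul hl'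
      rw [inv_mul_cancel] at h2
      refine h2.congr fun n => ?_
      have h3 : Commute (F.b j ^ n) l'⁻¹ := (hc.pow_left n).inv_right
      rw [← mul_assoc, ← mul_assoc, ← h3.eq]; group

theorem U_conj {θ : Finset (Fin r)} {l u : G} (hl : l ∈ F.L θ) (hu : u ∈ F.U θ) :
    l * u * l⁻¹ ∈ F.U θ := by
  have h1 := (tendsto_const_nhds (x := l)).mul hu |>.mul (tendsto_const_nhds (x := l⁻¹))
  rw [mul_one, mul_inv_cancel] at h1
  refine h1.congr fun n => ?_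
  have h2 : Commute (F.cb θ ^ n) l := Commute.pow_left (h.cb_comm hl) n
  rw [← mul_assoc, ← mul_assoc, ← h2.inv_left.eq, mul_assoc _ (F.cb θ ^ n), h2.inv_right.eq]; group

theorem U'_conj {θ : Finset (Fin r)} {l u : G} (hl : l ∈ F.L θ) (hu : u ∈ F.U' θ) :
    l * u * l⁻¹ ∈ F.U' θ := by
  have h1 := (tendsto_const_nhds (x := l)).mul hu |>.mul (tendsto_const_nhds (x := l⁻¹))
  rw [mul_one, mul_inv_cancel] at h1
  refine h1.congr fun n => ?_
  have h2 : Commute (F.cb θ ^ n) l := Commute.pow_left (h.cb_comm hl) n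
  rw [← mul_assoc, ← mul_assoc, ← h2.eq, mul_assoc _ (F.cb θ ^ n)⁻¹, h2.inv_inv.eq]; group

/-- the Levi component is the limit of the conjugates -/
theorem levi_lim {θ : Finset (Fin r)} {l u : G} (hl : l ∈ F.L θ) (hu : u ∈ F.U θ) :
    Tendsto (fun n : ℕ => (F.cb θ ^ n)⁻¹ * (l * u) * F.cb θ ^ n) atTop (𝓝 l) := by
  have h1 := (tendsto_const_nhds (x := l)).mul hu
  rw [mul_one] at h1
  refine h1.congr fun n => ?_
  have h2 : Commute (F.cb θ ^ n) l := Commute.pow_left (h.cb_comm hl) n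
  rw [← mul_assoc, ← mul_assoc, ← h2.inv_left.eq]; group

theorem levi_lim' {θ : Finset (Fin r)} {l u : G} (hl : l ∈ F.L θ) (hu : u ∈ F.U' θ) :
    Tendsto (fun n : ℕ => F.cb θ ^ n * (l * u) * (F.cb θ ^ n)⁻¹) atTop (𝓝 l) := by
  have h1 := (tendsto_const_nhds (x := l)).mul hu
  rw [mul_one] at h1
  refine h1.congr fun n => ?_
  have h2 : Commute (F.cb θ ^ n) l := Commute.pow_left (h.cb_comm hl) n
  rw [← mul_assoc, ← mul_assoc, ← h2.eq]; group

theorem U'_inf_P {θ : Finset (Fin r)} {u : G} (hu : u ∈ F.U' θ) (hp : u ∈ F.P θ) : u = 1 := by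
  obtain ⟨l, hl, w, hw, e⟩ := h.levi hp
  have h1 := h.levi_lim hl hw
  rw [← e] at h1
  have h2 : ∀ n : ℕ, (F.cb θ ^ n)⁻¹ * u * F.cb θ ^ n ∈ F.Um := fun n => by
    simpa using h.zum _ (F.Z.inv_mem (F.Z.pow_mem (h.cb_mem θ) n)) u (h.U'_le_Um θ hu)
  have h3 : l ∈ F.Um := h.clUm.mem_of_tendsto h1 (Eventually.of_forall h2)
  have h4 : w ∈ F.Um := by
    rw [show w = l⁻¹ * u by rw [e]; group]
    exact F.Um.mul_mem (F.Um.inv_mem h3) (h.U'_le_Um θ hu)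
  have h5 : w = 1 := h.cell_one h4 F.Z.one_mem (h.U_le_Up θ hw) (one_mul w).symm
  rw [h5, mul_one] at e
  have h6 := h.levi_lim' hl (F.U' θ).one_mem
  rw [mul_one, ← e] at h6
  exact tendsto_nhds_unique h6 hu

theorem U_inf_Pm {θ : Finset (Fin r)} {u : G} (hu : u ∈ F.U θ) (hp : u ∈ F.Pm θ) : u = 1 := by
  obtain ⟨l, hl, w, hw, e⟩ := h.levi' hp
  have h1 := h.levi_lim' hl hw
  rw [← e] at h1
  have h3 : l ∈ F.Up := h.clUp.mem_of_tendsto h1 (Eventually.of_forall fun n =>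
    h.zup _ (F.Z.pow_mem (h.cb_mem θ) n) u (h.U_le_Up θ hu))
  have h4 : w ∈ F.Up := by
    rw [show w = l⁻¹ * u by rw [e]; group]
    exact F.Up.mul_mem (F.Up.inv_mem h3) (h.U_le_Up θ hu)
  have h5 : w = 1 := h.cell_one (h.U'_le_Um θ hw) F.Z.one_mem h4 (one_mul w).symm
  rw [h5, mul_one] at e
  have h6 := h.levi_lim hl (F.U θ).one_mem
  rw [mul_one, ← e] at h6
  exact tendsto_nhds_unique h6 hu

theorem L_iff {θ : Finset (Fin r)} {g : G} : g ∈ F.L θ ↔ g ∈ F.P θ ∧ g ∈ F.Pm θ := by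
  refine ⟨fun hg => ⟨h.L_le_P θ hg, h.L_le_Pm θ hg⟩, fun hg => ?_⟩
  obtain ⟨l, hl, u, hu, e⟩ := h.levi hg.1
  have h1 : u = 1 := h.U_inf_Pm hu (by
    rw [show u = l⁻¹ * g by rw [e]; group]
    exact (F.Pm θ).mul_mem ((F.Pm θ).inv_mem (h.L_le_Pm θ hl)) hg.2)
  rw [e, h1, mul_one]
  exact hl

theorem L_of_comm {θ : Finset (Fin r)} {z g : G} (hz : F.Dom z) (hθ : ∀ j ∈ θ, 0 < F.ℓ z j)
    (hg : z * g = g * z) : g ∈ F.L θ := h.L_iff.2 (h.P_of_comm hz hθ hg)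

theorem L_univ {g : G} : g ∈ F.L Finset.univ ↔ g ∈ F.Z :=
  ⟨fun hg => h.P_inf_Pm (h.L_le_P _ hg) (h.L_le_Pm _ hg), fun hg => h.z_mem_L hg _⟩

end Fl

end Vale.Agent.P092GK
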