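import Vale.Agent.P092GK.Basic
import Mathlib.Analysis.Normed.Module.RCLike.Real

/-!
P092, group package (helper83): properness of the orbit maps of `U±`, contraction by dominant
elements, local spanning, and the coarse Cartan decomposition.
-/

set_option linter.all false

open Matrix Filter Topology

namespace Vale.Agent.P092GK

open FlD

theorem cpt_low {G ι : Type} [TopologicalSpace G] [Fintype ι] {K : Set G} (hK : IsCompact K)
    (f : ι → G → ℝ) (hf : ∀ j, ContinuousOn (f j) K) (h0 : ∀ j, ∀ x ∈ K, 0 < f j x) :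
    ∃ c : ℝ, 0 < c ∧ c ≤ 1 ∧ ∀ j, ∀ x ∈ K, c ≤ f j x := by
  have h1 : ∀ j, ∃ c : ℝ, 0 < c ∧ ∀ x ∈ K, c ≤ f j x := fun j => by
    rcases K.eq_empty_or_nonempty with rfl | hne
    · exact ⟨1, one_pos, fun x hx => absurd hx (Set.notMem_empty x)⟩
    · obtain ⟨x, hx, hm⟩ := hK.exists_isMinOn hne (hf j)
      exact ⟨f j x, h0 j x hx, fun y hy => hm hy⟩
  choose c hc hc' using h1
  have h2 : ∀ᶠ e : ℝ in 𝓝[>] 0, e ≤ 1 ∧ ∀ j, e ≤ c j := by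
    refine Filter.Eventually.and (nhdsWithin_le_nhds (Iic_mem_nhds one_pos)) ?_
    exact eventually_all.2 fun j => nhdsWithin_le_nhds (Iic_mem_nhds (hc j))
  obtain ⟨e, he, he'⟩ := (h2.and self_mem_nhdsWithin).exists
  exact ⟨e, he', he.1, fun j x hx => (he.2 j).trans (hc' j x hx)⟩

theorem cpt_up {G ι : Type} [TopologicalSpace G] [Fintype ι] {K : Set G} (hK : IsCompact K)
    (f : ι → G → ℝ) (hf : ∀ j, ContinuousOn (f j) K) :
    ∃ C : ℝ, 1 ≤ C ∧ ∀ j, ∀ x ∈ K, f j x ≤ C := by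
  have h1 : ∀ j, ∃ c : ℝ, ∀ x ∈ K, f j x ≤ c := fun j => by
    obtain ⟨c, hc⟩ := hK.bddAbove_image (hf j)
    exact ⟨c, fun x hx => hc ⟨x, hx, rfl⟩⟩
  choose c hc using h1
  have h2 : 0 ≤ ∑ j, |c j| := Finset.sum_nonneg fun j _ => abs_nonneg (c j)
  refine ⟨1 + ∑ j, |c j|, by linarith, fun j x hx => ?_⟩
  have := Finset.single_le_sum (f := fun j => |c j|) (fun j _ => abs_nonneg (c j))
    (Finset.mem_univ j)
  linarith [hc j x hx, le_abs_self (c j)]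

variable {k : Type} [NontriviallyNormedField k] {G : Type} [Group G] {r : ℕ} {F : FlD k G r}
  [TopologicalSpace G] [IsTopologicalGroup G]

namespace Fl

variable (h : Fl F)
include h

theorem V_up {K : Set G} (hK : IsCompact K) : ∃ C : ℝ, 1 ≤ C ∧ ∀ j, ∀ x ∈ K, ‖F.V j x‖ ≤ C :=
  cpt_up hK (fun j x => ‖F.V j x‖) fun j => (h.contV j).norm.continuousOn

theorem Vv_low {K : Set G} (hK : IsCompact K) :
    ∃ c : ℝ, 0 < c ∧ c ≤ 1 ∧ ∀ j, ∀ x ∈ K, c ≤ ‖F.V j x (F.v j)‖ :=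
  cpt_low hK (fun j x => ‖F.V j x (F.v j)‖) (fun j => (h.contVv j).norm.continuousOn)
    fun j x _ => norm_pos_iff.2 (h.Vv_ne j x)

theorem φV_low {K : Set G} (hK : IsCompact K) :
    ∃ c : ℝ, 0 < c ∧ c ≤ 1 ∧ ∀ j, ∀ x ∈ K, c ≤ ‖(F.φ j).comp (F.V j x)‖ :=
  cpt_low hK (fun j x => ‖(F.φ j).comp (F.V j x)‖) (fun j => (h.contφV j).norm.continuousOn)
    fun j x _ => norm_pos_iff.2 (h.φV_ne j x)

/-- the opposite Iwasawa decomposition -/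
theorem iwa' : ∃ C : Set G, IsCompact C ∧ ∀ g, ∃ u ∈ F.Um, ∃ z ∈ F.Z, ∃ x ∈ C, g = u * z * x := by
  obtain ⟨C, hC, hg⟩ := h.iwa
  refine ⟨(fun x => F.n₀ * x⁻¹ * F.n₀⁻¹) '' C, hC.image (by fun_prop), fun g => ?_⟩
  obtain ⟨x, hx, z, hz, u, hu, e⟩ := hg (F.n₀⁻¹ * g⁻¹ * F.n₀)
  refine ⟨_, (h.n₀up _).1 (F.Up.inv_mem hu), _, (h.n₀Z _).1 (F.Z.inv_mem hz), _, ⟨x, hx, rfl⟩, ?_⟩
  have : g = F.n₀ * (x * z * u)⁻¹ * F.n₀⁻¹ := by rw [← e]; group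
  rw [this]; group

theorem cpt_Ω {K : Set G} (hK : IsCompact K) (c : ℝ) : IsCompact {x | x ∈ K ∧ ∀ j, c ≤ ‖F.Δ j x‖} := by
  refine hK.inter_right (t := {x | ∀ j, c ≤ ‖F.Δ j x‖}) ?_
  rw [Set.setOf_forall]
  exact isClosed_iInter fun j => isClosed_le continuous_const (h.contΔ j).norm

theorem sub_Ω {K : Set G} {c : ℝ} (hc : 0 < c) : {x | x ∈ K ∧ ∀ j, c ≤ ‖F.Δ j x‖} ⊆ F.Ω :=
  fun x hx j => norm_pos_iff.1 (hc.trans_le (hx.2 j))

theorem lo_eq {u z w : G} (hu : u ∈ F.Um) (hz : z ∈ F.Z) (hw : w ∈ F.Up) :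
    F.lo (u * w * z) = u := by
  have : u * w * z = u * z * (z⁻¹ * w * z⁻¹⁻¹) := by group
  rw [this]
  exact (h.cell_eq hu hz (h.zup _ (F.Z.inv_mem hz) w hw)).1

theorem up_eq {u z w : G} (hu : u ∈ F.Um) (hz : z ∈ F.Z) (hw : w ∈ F.Up) :
    F.up (z * u * w) = w := by
  have : z * u * w = (z * u * z⁻¹) * z * w := by group
  rw [this]
  exact (h.cell_eq (h.zum _ hz u hu) hz hw).2.2

variable [T2Space G]

/-- the orbit map of `U⁻` is proper -/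
theorem um_proper (R : ℝ) : IsCompact {u | u ∈ F.Um ∧ ∀ j, ‖F.V j u (F.v j)‖ ≤ R} := by
  obtain ⟨C, hC, hg⟩ := h.iwa
  obtain ⟨c, hc, -, hc'⟩ := h.Vv_low hC
  have hR : 0 < |R| + 1 := by positivity
  have hK := (h.cpt_Ω hC (c / (|R| + 1))).image_of_continuousOn
    (h.lo_cont.mono (h.sub_Ω (div_pos hc hR)))
  refine hK.of_isClosed_subset (h.clUm.inter (s₂ := {u | ∀ j, ‖F.V j u (F.v j)‖ ≤ R}) ?_) ?_
  · rw [Set.setOf_forall]
    exact isClosed_iInter fun j => isClosed_le (h.contVv j).norm continuous_const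
  · rintro u ⟨hu, hR'⟩
    obtain ⟨x, hx, z, hz, w, hw, e⟩ := hg u
    refine ⟨x, ⟨hx, fun j => ?_⟩, ?_⟩
    · have h1 : F.Δ j x * F.Δ j z = 1 := by rw [← h.Δ_zr hz, ← h.Δ_up hw, ← e, h.Δ_of_um hu]
      have h2 := hR' j
      rw [e, V_mul, h.upv w hw, V_mul, h.zv z hz, map_smul, norm_smul] at h2
      have h3 : ‖F.Δ j x‖ * ‖F.Δ j z‖ = 1 := by rw [← norm_mul, h1, norm_one]
      have h4 : ‖F.Δ j z‖ * c ≤ |R| + 1 :=
        le_trans (mul_le_mul_of_nonneg_left (hc' j x hx) (norm_nonneg _))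
          (by linarith [le_abs_self R])
      rw [div_le_iff₀ hR]
      calc c = ‖F.Δ j x‖ * (‖F.Δ j z‖ * c) := by rw [← mul_assoc, h3, one_mul]
        _ ≤ _ := mul_le_mul_of_nonneg_left h4 (norm_nonneg _)
    · have : x = u * w⁻¹ * z⁻¹ := by rw [e]; group
      rw [this]
      exact h.lo_eq hu (F.Z.inv_mem hz) (F.Up.inv_mem hw)

/-- the orbit map of `U⁺` on forms is proper -/
theorem up_proper (R : ℝ) : IsCompact {u | u ∈ F.Up ∧ ∀ j, ‖(F.φ j).comp (F.V j u)‖ ≤ R} := by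
  obtain ⟨C, hC, hg⟩ := h.iwa'
  obtain ⟨c, hc, -, hc'⟩ := h.φV_low hC
  have hR : 0 < |R| + 1 := by positivity
  have hK := (h.cpt_Ω hC (c / (|R| + 1))).image_of_continuousOn
    (h.up_cont.mono (h.sub_Ω (div_pos hc hR)))
  refine hK.of_isClosed_subset (h.clUp.inter (s₂ := {u | ∀ j, ‖(F.φ j).comp (F.V j u)‖ ≤ R}) ?_) ?_
  · rw [Set.setOf_forall]
    exact isClosed_iInter fun j => isClosed_le (h.contφV j).norm continuous_const
  · rintro u ⟨hu, hR'⟩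
    obtain ⟨w, hw, z, hz, x, hx, e⟩ := hg u
    refine ⟨x, ⟨hx, fun j => ?_⟩, ?_⟩
    · have h1 : F.Δ j z * F.Δ j x = 1 := by
        rw [← h.Δ_zl hz, ← h.Δ_um hw, ← mul_assoc, ← e, h.Δ_of_up hu]
      have h2 := hR' j
      have h5 : (F.φ j).comp (F.V j u) = F.Δ j z • (F.φ j).comp (F.V j x) := by
        ext y
        rw [ContinuousLinearMap.comp_apply, e, V_mul, V_mul, h.umφ w hw, h.zφ z hz]; rfl
      rw [h5, norm_smul] at h2
      have h3 : ‖F.Δ j x‖ * ‖F.Δ j z‖ = 1 := by rw [← norm_mul, mul_comm, h1, norm_one]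
      have h4 : ‖F.Δ j z‖ * c ≤ |R| + 1 :=
        le_trans (mul_le_mul_of_nonneg_left (hc' j x hx) (norm_nonneg _))
          (by linarith [le_abs_self R])
      rw [div_le_iff₀ hR]
      calc c = ‖F.Δ j x‖ * (‖F.Δ j z‖ * c) := by rw [← mul_assoc, h3, one_mul]
        _ ≤ _ := mul_le_mul_of_nonneg_left h4 (norm_nonneg _)
    · have : x = z⁻¹ * w⁻¹ * u := by rw [e]; group
      rw [this]
      exact h.up_eq (F.Um.inv_mem hw) (F.Z.inv_mem hz) hu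

theorem near_aux {L N : Set G} (hL : IsCompact L) (hN : N ∈ 𝓝 (1 : G)) (f : G → ℝ)
    (hf : Continuous f) (h0 : ∀ u ∈ L, u ≠ 1 → 0 < f u) :
    ∃ ε : ℝ, 0 < ε ∧ ε ≤ 1 ∧ ∀ u ∈ L, f u < ε → u ∈ N := by
  obtain ⟨c, hc, hc1, hc'⟩ := cpt_low (hL.diff (isOpen_interior (s := N))) (fun _ : Unit => f)
    (fun _ => hf.continuousOn) fun _ u hu => h0 u hu.1 fun e =>
      hu.2 (e ▸ mem_interior_iff_mem_nhds.2 hN)
  refine ⟨c, hc, hc1, fun u hu hlt => ?_⟩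
  by_contra hn
  exact absurd (hc' () u ⟨hu, fun h1 => hn (interior_subset h1)⟩) (not_le.2 hlt)

theorem um_near {N : Set G} (hN : N ∈ 𝓝 (1 : G)) : ∃ ε : ℝ, 0 < ε ∧ ∀ u ∈ F.Um,
    (∀ j, ‖F.V j u (F.v j) - F.v j‖ ≤ ε) → u ∈ N := by
  obtain ⟨ε, hε, hε1, hh⟩ := h.near_aux (h.um_proper (1 + ∑ j, ‖F.v j‖)) hN
    (fun u => ∑ j, ‖F.V j u (F.v j) - F.v j‖)
    (continuous_finsetSum _ fun j _ => ((h.contVv j).sub continuous_const).norm) (fun u hu hne => by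
      refine lt_of_le_of_ne (Finset.sum_nonneg fun j _ => norm_nonneg _) fun e => hne ?_
      refine h.um_inj u hu.1 fun j => sub_eq_zero.1 (norm_eq_zero.1 ?_)
      exact (Finset.sum_eq_zero_iff_of_nonneg fun j _ => norm_nonneg _).1 e.symm j (Finset.mem_univ j))
  have hr : (0 : ℝ) < r + 1 := by positivity
  refine ⟨ε / (r + 1), div_pos hε hr, fun u hu hle => hh u ⟨hu, fun j => ?_⟩ ?_⟩
  · have h1 := hle j
    have h2 : ε / (r + 1) ≤ 1 := by rw [div_le_one hr]; linarith [Nat.cast_nonneg (α := ℝ) r]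
    have h3 := Finset.single_le_sum (f := fun j => ‖F.v j‖) (fun j _ => norm_nonneg _)
      (Finset.mem_univ j)
    linarith [norm_sub_norm_le (F.V j u (F.v j)) (F.v j)]
  · refine lt_of_le_of_lt (Finset.sum_le_sum fun j _ => hle j) ?_
    rw [Finset.sum_const, Finset.card_univ, Fintype.card_fin, nsmul_eq_mul, ← mul_div_assoc,
      div_lt_iff₀ hr]
    nlinarith

theorem up_near {N : Set G} (hN : N ∈ 𝓝 (1 : G)) : ∃ ε : ℝ, 0 < ε ∧ ∀ u ∈ F.Up,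
    (∀ j, ‖(F.φ j).comp (F.V j u) - F.φ j‖ ≤ ε) → u ∈ N := by
  obtain ⟨ε, hε, hε1, hh⟩ := h.near_aux (h.up_proper (1 + ∑ j, ‖F.φ j‖)) hN
    (fun u => ∑ j, ‖(F.φ j).comp (F.V j u) - F.φ j‖)
    (continuous_finsetSum _ fun j _ => ((h.contφV j).sub continuous_const).norm) (fun u hu hne => by
      refine lt_of_le_of_ne (Finset.sum_nonneg fun j _ => norm_nonneg _) fun e => hne ?_
      refine h.up_inj u hu.1 fun j x => ?_
      have := sub_eq_zero.1 (norm_eq_zero.1 ((Finset.sum_eq_zero_iff_of_nonneg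
        fun j _ => norm_nonneg _).1 e.symm j (Finset.mem_univ j)))
      exact congrArg (fun T : F.E j →L[k] k => T x) this)
  have hr : (0 : ℝ) < r + 1 := by positivity
  refine ⟨ε / (r + 1), div_pos hε hr, fun u hu hle => hh u ⟨hu, fun j => ?_⟩ ?_⟩
  · have h1 := hle j
    have h2 : ε / (r + 1) ≤ 1 := by rw [div_le_one hr]; linarith [Nat.cast_nonneg (α := ℝ) r]
    have h3 := Finset.single_le_sum (f := fun j => ‖F.φ j‖) (fun j _ => norm_nonneg _)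
      (Finset.mem_univ j)
    linarith [norm_sub_norm_le ((F.φ j).comp (F.V j u)) (F.φ j)]
  · refine lt_of_le_of_lt (Finset.sum_le_sum fun j _ => hle j) ?_
    rw [Finset.sum_const, Finset.card_univ, Fintype.card_fin, nsmul_eq_mul, ← mul_div_assoc,
      div_lt_iff₀ hr]
    nlinarith

omit [T2Space G] [IsTopologicalGroup G] in
theorem con' : ∃ C : ℝ, 1 ≤ C ∧ ∀ z, F.Dom z → ∀ j,
    ‖F.V j z - F.Δ j z • F.pr j‖ ≤ C * (‖F.Δ j z‖ * Real.exp (-F.ℓ z j)) := by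
  obtain ⟨C, hC⟩ := h.con
  exact ⟨|C| + 1, by linarith [abs_nonneg C], fun z hz j => (hC z hz j).trans
    (mul_le_mul_of_nonneg_right (by linarith [le_abs_self C]) (by positivity))⟩

omit [T2Space G] [IsTopologicalGroup G] in
/-- the contraction estimate on `U⁻` -/
theorem um_est : ∃ C : ℝ, 1 ≤ C ∧ ∀ z, F.Dom z → ∀ u ∈ F.Um, ∀ j,
    ‖F.V j (z * u * z⁻¹) (F.v j) - F.v j‖ ≤ C * Real.exp (-F.ℓ z j) * ‖F.V j u (F.v j)‖ := by
  obtain ⟨C, hC1, hC⟩ := h.con'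
  refine ⟨C, hC1, fun z hz u hu j => ?_⟩
  have h1 : F.V j (z * u * z⁻¹) (F.v j) - F.v j =
      F.Δ j z⁻¹ • (F.V j z - F.Δ j z • F.pr j) (F.V j u (F.v j)) := by
    rw [V_mul, V_mul, h.zv _ (F.Z.inv_mem hz.1), map_smul, map_smul, ContinuousLinearMap.sub_apply,
      ContinuousLinearMap.smul_apply, pr_apply, h.umφ u hu, h.φv, one_smul, smul_sub, smul_smul,
      mul_comm, h.Δ_zinv hz.1, one_smul]
  have h2 : ‖F.Δ j z⁻¹‖ * ‖F.Δ j z‖ = 1 := by rw [← norm_mul, mul_comm, h.Δ_zinv hz.1, norm_one]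
  rw [h1, norm_smul]
  calc _ ≤ ‖F.Δ j z⁻¹‖ * (C * (‖F.Δ j z‖ * Real.exp (-F.ℓ z j)) * ‖F.V j u (F.v j)‖) :=
        mul_le_mul_of_nonneg_left ((ContinuousLinearMap.le_opNorm _ _).trans
          (mul_le_mul_of_nonneg_right (hC z hz j) (norm_nonneg _))) (norm_nonneg _)
    _ = (‖F.Δ j z⁻¹‖ * ‖F.Δ j z‖) * (C * Real.exp (-F.ℓ z j) * ‖F.V j u (F.v j)‖) := by ring
    _ = _ := by rw [h2, one_mul]

omit [T2Space G] [IsTopologicalGroup G] in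
/-- the contraction estimate on `U⁺` -/
theorem up_est : ∃ C : ℝ, 1 ≤ C ∧ ∀ z, F.Dom z → ∀ u ∈ F.Up, ∀ j,
    ‖(F.φ j).comp (F.V j (z⁻¹ * u * z)) - F.φ j‖ ≤
      C * Real.exp (-F.ℓ z j) * ‖(F.φ j).comp (F.V j u)‖ := by
  obtain ⟨C, hC1, hC⟩ := h.con'
  refine ⟨C, hC1, fun z hz u hu j => ?_⟩
  have h1 : (F.φ j).comp (F.V j (z⁻¹ * u * z)) - F.φ j =
      F.Δ j z⁻¹ • ((F.φ j).comp (F.V j u)).comp (F.V j z - F.Δ j z • F.pr j) := by
    ext x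
    simp only [ContinuousLinearMap.sub_apply, ContinuousLinearMap.comp_apply,
      ContinuousLinearMap.smul_apply, pr_apply, V_mul, map_sub, map_smul, smul_eq_mul]
    rw [h.zφ _ (F.Z.inv_mem hz.1), h.upv u hu, h.φv, mul_one, mul_sub, ← mul_assoc,
      mul_comm (F.Δ j z⁻¹) (F.Δ j z), h.Δ_zinv hz.1, one_mul]
  have h2 : ‖F.Δ j z⁻¹‖ * ‖F.Δ j z‖ = 1 := by rw [← norm_mul, mul_comm, h.Δ_zinv hz.1, norm_one]
  rw [h1, norm_smul]
  calc _ ≤ ‖F.Δ j z⁻¹‖ * (‖(F.φ j).comp (F.V j u)‖ * (C * (‖F.Δ j z‖ * Real.exp (-F.ℓ z j)))) :=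
        mul_le_mul_of_nonneg_left ((ContinuousLinearMap.opNorm_comp_le _ _).trans
          (mul_le_mul_of_nonneg_left (hC z hz j) (norm_nonneg _))) (norm_nonneg _)
    _ = (‖F.Δ j z⁻¹‖ * ‖F.Δ j z‖) * (C * Real.exp (-F.ℓ z j) * ‖(F.φ j).comp (F.V j u)‖) := by ring
    _ = _ := by rw [h2, one_mul]

/-- dominant elements keep compact parts of `U⁻` bounded -/
theorem um_bdd {K : Set G} (hK : IsCompact K) : ∃ L : Set G, IsCompact L ∧ L ⊆ F.Um ∧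
    ∀ z, F.Dom z → ∀ u ∈ K, u ∈ F.Um → z * u * z⁻¹ ∈ L := by
  obtain ⟨C, hC1, hC⟩ := h.um_est
  obtain ⟨D, hD1, hD⟩ := cpt_up hK (fun j x => ‖F.V j x (F.v j)‖)
    fun j => (h.contVv j).norm.continuousOn
  refine ⟨_, h.um_proper (C * D + ∑ j, ‖F.v j‖), fun u hu => hu.1, fun z hz u huK hu =>
    ⟨h.zum z hz.1 u hu, fun j => ?_⟩⟩
  have h1 := hC z hz u hu j
  have h2 : Real.exp (-F.ℓ z j) ≤ 1 := Real.exp_le_one_iff.2 (neg_nonpos.2 (hz.2 j))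
  have h3 := Finset.single_le_sum (f := fun j => ‖F.v j‖) (fun j _ => norm_nonneg _)
    (Finset.mem_univ j)
  have h4 : C * Real.exp (-F.ℓ z j) * ‖F.V j u (F.v j)‖ ≤ C * 1 * D := by
    gcongr; exact hD j u huK
  linarith [norm_sub_norm_le (F.V j (z * u * z⁻¹) (F.v j)) (F.v j)]

theorem up_bdd {K : Set G} (hK : IsCompact K) : ∃ L : Set G, IsCompact L ∧ L ⊆ F.Up ∧
    ∀ z, F.Dom z → ∀ u ∈ K, u ∈ F.Up → z⁻¹ * u * z ∈ L := by
  obtain ⟨C, hC1, hC⟩ := h.up_est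
  obtain ⟨D, hD1, hD⟩ := cpt_up hK (fun j x => ‖(F.φ j).comp (F.V j x)‖)
    fun j => (h.contφV j).norm.continuousOn
  refine ⟨_, h.up_proper (C * D + ∑ j, ‖F.φ j‖), fun u hu => hu.1, fun z hz u huK hu =>
    ⟨by simpa using h.zup _ (F.Z.inv_mem hz.1) u hu, fun j => ?_⟩⟩
  have h1 := hC z hz u hu j
  have h2 : Real.exp (-F.ℓ z j) ≤ 1 := Real.exp_le_one_iff.2 (neg_nonpos.2 (hz.2 j))
  have h3 := Finset.single_le_sum (f := fun j => ‖F.φ j‖) (fun j _ => norm_nonneg _)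
    (Finset.mem_univ j)
  have h4 : C * Real.exp (-F.ℓ z j) * ‖(F.φ j).comp (F.V j u)‖ ≤ C * 1 * D := by
    gcongr; exact hD j u huK
  linarith [norm_sub_norm_le ((F.φ j).comp (F.V j (z⁻¹ * u * z))) (F.φ j)]

omit h [T2Space G] [IsTopologicalGroup G] [TopologicalSpace G] in
theorem exp_small (C : ℝ) {ε : ℝ} (hε : 0 < ε) : ∃ T : ℝ, 0 ≤ T ∧ ∀ s, T ≤ s →
    C * Real.exp (-s) ≤ ε := by
  have h1 : Tendsto (fun s : ℝ => C * Real.exp (-s)) atTop (𝓝 (C * 0)) :=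
    Real.tendsto_exp_neg_atTop_nhds_zero.const_mul C
  rw [mul_zero] at h1
  obtain ⟨T, hT⟩ := eventually_atTop.1 (h1.eventually (Iic_mem_nhds hε))
  exact ⟨max T 0, le_max_right _ _, fun s hs => hT s ((le_max_left _ _).trans hs)⟩

/-- regular dominant elements contract `U⁻` -/
theorem um_contr {K N : Set G} (hK : IsCompact K) (hN : N ∈ 𝓝 (1 : G)) : ∃ T : ℝ, 0 ≤ T ∧
    ∀ z ∈ F.Z, (∀ i, T ≤ F.ℓ z i) → ∀ u ∈ K, u ∈ F.Um → z * u * z⁻¹ ∈ N := by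
  obtain ⟨C, hC1, hC⟩ := h.um_est
  obtain ⟨D, hD1, hD⟩ := cpt_up hK (fun j x => ‖F.V j x (F.v j)‖)
    fun j => (h.contVv j).norm.continuousOn
  obtain ⟨ε, hε, hh⟩ := h.um_near hN
  obtain ⟨T, hT0, hT⟩ := exp_small (C * D) hε
  refine ⟨T, hT0, fun z hz hl u huK hu => hh _ (h.zum z hz u hu) fun j => ?_⟩
  refine (hC z ⟨hz, fun i => hT0.trans (hl i)⟩ u hu j).trans (le_trans ?_ (hT _ (hl j)))
  calc _ ≤ C * Real.exp (-F.ℓ z j) * D := by gcongr; exact hD j u huK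
    _ = _ := by ring

theorem up_contr {K N : Set G} (hK : IsCompact K) (hN : N ∈ 𝓝 (1 : G)) : ∃ T : ℝ, 0 ≤ T ∧
    ∀ z ∈ F.Z, (∀ i, T ≤ F.ℓ z i) → ∀ u ∈ K, u ∈ F.Up → z⁻¹ * u * z ∈ N := by
  obtain ⟨C, hC1, hC⟩ := h.up_est
  obtain ⟨D, hD1, hD⟩ := cpt_up hK (fun j x => ‖(F.φ j).comp (F.V j x)‖)
    fun j => (h.contφV j).norm.continuousOn
  obtain ⟨ε, hε, hh⟩ := h.up_near hN
  obtain ⟨T, hT0, hT⟩ := exp_small (C * D) hε
  refine ⟨T, hT0, fun z hz hl u huK hu =>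
    hh _ (by simpa using h.zup _ (F.Z.inv_mem hz) u hu) fun j => ?_⟩
  refine (hC z ⟨hz, fun i => hT0.trans (hl i)⟩ u hu j).trans (le_trans ?_ (hT _ (hl j)))
  calc _ ≤ C * Real.exp (-F.ℓ z j) * D := by gcongr; exact hD j u huK
    _ = _ := by ring

end Fl

end Vale.Agent.P092GK
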