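import Vale.Agent.P092GK.Vol
import Vale.Agent.P092TH.Win

/-!
P092, group package (helper83): the volume inequality of a coupling with linear windows.
-/

set_option linter.all false

open scoped InnerProductSpace ENNReal NNReal Pointwise
open MeasureTheory Filter Topology ContinuousLinearMap Set

namespace Vale.Agent.P092GK

open Vale.Agent.P092CP Vale.Agent.P092RD FlD
open Vale.Agent.P092.RC (Cm)

variable {G G' K : Type} [Group G] [TopologicalSpace G] [IsTopologicalGroup G]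
  [LocallyCompactSpace G] [SecondCountableTopology G] [T2Space G] [MeasurableSpace G] [BorelSpace G]
  [Group G'] [TopologicalSpace G'] [IsTopologicalGroup G'] [LocallyCompactSpace G']
  [SecondCountableTopology G'] [T2Space G'] [MeasurableSpace G'] [BorelSpace G']
  [NormedAddCommGroup K] [InnerProductSpace ℂ K] [CompleteSpace K] {μ : Measure G}
  [μ.IsHaarMeasure] {μ' : Measure G'} [μ'.IsHaarMeasure] {W : Set (K →L[ℂ] K)}

/-- every vector is almost carried by a compact set -/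
theorem exists_cpt_P (S : Side μ W) (ξ : K) {ε : ℝ} (hε : 0 < ε) :
    ∃ B, IsCompact B ∧ ‖S.P B ξ - ξ‖ ≤ ε := by
  let Q := CompactExhaustion.choice G
  have h1 := S.tendsto_m (l := atTop) (F := fun n => (Q n).indicator 1) (f := 1) (C := 1)
    (fun n => (Bd.ind (Q.isCompact n).measurableSet).meas)
    (fun n x => by by_cases a : x ∈ Q n <;> simp [a]) (Bd.const 1) (.of_forall fun x =>
      tendsto_const_nhds.congr' ((eventually_ge_atTop (Q.find x)).mono fun n hn =>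
        (indicator_of_mem (Q.mem_iff_find_le.2 hn) _).symm)) ξ
  rw [S.m_one] at h1
  obtain ⟨n, hn⟩ := (Metric.tendsto_nhds.1 h1 ε hε).exists
  exact ⟨_, Q.isCompact n, (dist_eq_norm _ _).symm.trans_le hn.le⟩

theorem lint_tP_le (C : Cpl μ μ' W) {A : Set G'} (hA : MeasurableSet A) {B : Set G}
    (hB : MeasurableSet B) : μ' C.t.D * ∫⁻ g, ‖C.t.P A (C.s.π g (C.s.P B C.t.Ω))‖ₑ ^ 2 ∂μ ≤
      μ B * μ' A := by
  haveI := C.s.inv
  have h1 := P092TH.tr_cut C.s (C.t.cm_P hA) hB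
  rw [C.tr_eq _ (C.t.cm_P hA), C.t.Tr_P hA, mul_left_comm] at h1
  refine (ENNReal.mul_le_mul_iff_right C.κ_ne' ENNReal.coe_ne_top).1 (le_trans ?_ h1.ge)
  rw [← lintegral_inv_eq_self, ← lintegral_const_mul' _ _ C.t.vol,
    ← lintegral_const_mul' _ _ ENNReal.coe_ne_top]
  refine lintegral_mono fun g => ?_
  have h2 := C.s.conj _ (C.t.cm_P hA) g
  have h3 := cm_mul h2 (C.s.cm_P hB)
  rw [C.tr_eq _ (cm_mul (C.s.cm_P hB) h2), ← C.tr_adj _ (cm_mul (C.s.cm_P hB) h2), adj_mul,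
    C.s.conj_adj, C.t.adjoint_P hA, C.s.adjoint_P hB]
  refine mul_le_mul_right (le_trans (le_of_eq ?_) ((C.Tr_mul_le h3 (C.t.cm_P C.t.mD)).trans
    (mul_le_of_le_one_left' (pow_le_one₀ bot_le ?_)))) _
  · rw [C.t.Tr_mul_PD h3]
    simp only [mul_ap, C.s.enorm_π]
  · rw [← ofReal_norm_eq_enorm, ENNReal.ofReal_le_one]
    exact C.t.norm_P_le C.t.mD

/-- **few source points see a given target set** -/
theorem vol_cpl (C : Cpl μ μ' W) {c : ℝ} (hc : 0 < c) : ∃ V ∈ 𝓝 (1 : G), ∃ D : ℝ, ∀ A : Set G',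
    MeasurableSet A → μ ({g | c ≤ ‖C.t.P A (C.s.π g C.t.Ω)‖} * V) ≤ eo D * μ' A := by
  obtain ⟨B, hB, h1⟩ := exists_cpt_P C.s C.t.Ω (by positivity : 0 < c / 4)
  have h0 : μ' C.t.D * .ofReal (c / 2) ^ 2 ≠ 0 := mul_ne_zero C.t.vol_ne
    (pow_ne_zero _ (ENNReal.ofReal_pos.2 (half_pos hc)).ne')
  have h0' : μ' C.t.D * .ofReal (c / 2) ^ 2 ≠ ∞ := ENNReal.mul_ne_top C.t.vol
    (ENNReal.pow_ne_top ENNReal.ofReal_ne_top)
  obtain ⟨D, -, hD⟩ := exists_le_eo (a := (μ' C.t.D * .ofReal (c / 2) ^ 2)⁻¹ * μ B)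
    (ENNReal.mul_ne_top (ENNReal.inv_ne_top.2 h0) hB.measure_lt_top.ne)
  refine ⟨{v | ‖C.s.π v (C.s.P B C.t.Ω) - C.t.Ω‖ < c / 2}, (isOpen_lt
    ((C.s.cont _).sub continuous_const).norm continuous_const).mem_nhds ?_, D, fun A hA => ?_⟩
  · show ‖C.s.π 1 _ - _‖ < _
    rw [map_one]
    exact h1.trans_lt (by linarith)
  refine le_trans ?_ (mul_le_mul_left hD _)
  rw [mul_assoc, ← ENNReal.mul_le_iff_le_inv h0 h0', mul_assoc]
  refine le_trans (mul_le_mul_right (le_trans (mul_le_mul_right (measure_mono ?_) _)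
    (mul_meas_ge_le_lintegral (C.s.meas_π (C.t.P A) _) _)) _) (lint_tP_le C hA hB.measurableSet)
  rintro _ ⟨g, hg, v, hv, rfl⟩
  show _ ≤ ‖C.t.P A (C.s.π (g * v) _)‖ₑ ^ 2
  refine pow_le_pow_left₀ bot_le ?_ 2
  rw [← ofReal_norm_eq_enorm]
  refine ENNReal.ofReal_le_ofReal ?_
  have h2 : ‖C.t.P A (C.s.π g (C.s.π v (C.s.P B C.t.Ω) - C.t.Ω))‖ ≤ c / 2 :=
    ((C.t.P A).le_of_opNorm_le (C.t.norm_P_le hA) _).trans (by
      rw [one_mul, C.s.norm_π]; exact le_of_lt hv)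
  rw [map_sub, map_sub] at h2
  have h3 := norm_sub_norm_le (C.t.P A (C.s.π g C.t.Ω)) (C.t.P A (C.s.π g (C.s.π v (C.s.P B C.t.Ω))))
  rw [norm_sub_rev] at h3
  rw [map_mul, mul_ap]
  linarith [show c ≤ _ from hg]

variable {k k' : Type} [NontriviallyNormedField k] [NontriviallyNormedField k'] [ProperSpace k]
  [ProperSpace k'] {r r' : ℕ} {F : FlD k G r} {F' : FlD k' G' r'}

/-- **the volume inequality** -/
theorem vol_ineq (C : Cpl μ μ' W) (h : Fl F) (h' : Fl F') {V : Set G} (hV : V ∈ 𝓝 (1 : G)) {c : ℝ}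
    (hc : 0 < c) (R : ℝ) : ∃ D : ℝ, ∀ z ∈ F.Z, ∀ x : Fin r' → ℝ,
      (∀ q ∈ V, c ≤ ‖C.t.P {g | ‖F'.κ g - x‖ ≤ R} (C.s.π (q * z) C.t.Ω)‖) →
        F.ρ (F.ℓ z) ≤ F'.ρ x + D := by
  haveI := C.s.right
  haveI := C.t.right
  obtain ⟨V', hV', D, h1⟩ := vol_cpl C hc
  obtain ⟨A, -, h2⟩ := h.le_vol μ (inter_mem hV hV')
  obtain ⟨B, -, h3⟩ := h'.win_le μ' R
  refine ⟨A + B + D, fun z hz x hx => ?_⟩
  have h4 := (h2 z hz).trans ((measure_mono (mul_subset_mul ?_ inter_subset_right)).trans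
    ((h1 _ (isClosed_le (h'.cont_κ.sub continuous_const).norm continuous_const).measurableSet).trans
      (mul_le_mul_right (h3 x) _)))
  · rw [← eo_add, eo_le] at h4
    linarith
  · rintro _ ⟨q, hq, _, rfl, rfl⟩
    exact hx q hq.1

omit [ProperSpace k] [IsTopologicalGroup G] [LocallyCompactSpace G] [SecondCountableTopology G]
  [T2Space G] [MeasurableSpace G] [BorelSpace G] in
/-- a linear form which is bounded below on all translates of a path is eventually non-negative -/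
theorem Fl.lin_ev (h : Fl F) {ι : Type} {l : Filter ι} {x : ι → Fin r → ℝ}
    (δ : (Fin r → ℝ) →ₗ[ℝ] ℝ) {D : ℝ} (hD : ∀ a ∈ F.Z, ∀ᶠ n in l, -D ≤ δ (F.ℓ a + x n)) :
    δ = 0 ∨ Tendsto (fun n => δ (x n)) l atTop := by
  by_cases h0 : ∀ i, δ (Pi.single i F.β) = 0
  · exact Or.inl (lin_ext h.β_pos.ne' h0)
  obtain ⟨i, hi⟩ := not_forall.1 h0
  refine Or.inr (tendsto_atTop.2 fun b => ?_)
  obtain ⟨m, hm⟩ : ∃ m : ℤ, m * δ (Pi.single i F.β) ≤ -D - b := by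
    rcases lt_or_gt_of_ne hi with e | e
    · exact ⟨⌈(-D - b) / δ (Pi.single i F.β)⌉, (div_le_iff_of_neg e).1 (Int.le_ceil _)⟩
    · exact ⟨⌊(-D - b) / δ (Pi.single i F.β)⌋, (le_div_iff₀ e).1 (Int.floor_le _)⟩
  filter_upwards [hD _ (F.Z.zpow_mem (h.bZ i) m)] with n hn
  rw [h.ℓ_zpow (h.bZ i), h.bℓ, map_add, map_smul, smul_eq_mul] at hn
  linarith

/-- **VOL** -/
theorem vol (C : Cpl μ μ' W) (h : Fl F) (h' : Fl F') {ι : Type} {l : Filter ι} {z : ι → G}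
    (hz : ∀ n, z n ∈ F.Z) (L : (Fin r → ℝ) →ₗ[ℝ] (Fin r' → ℝ)) {V : Set G} (hV : V ∈ 𝓝 (1 : G))
    {c R : ℝ} (hc : 0 < c) (hw : ∀ a ∈ F.Z, ∀ᶠ n in l, ∀ q ∈ V,
      c ≤ ‖C.t.P {g | ‖F'.κ g - L (F.ℓ (a * z n))‖ ≤ R} (C.s.π (q * (a * z n)) C.t.Ω)‖) :
    ∀ᶠ n in l, F.ρ (F.ℓ (z n)) ≤ F'.ρ (L (F.ℓ (z n))) := by
  obtain ⟨D, h1⟩ := vol_ineq C h h' hV hc R
  rcases h.lin_ev (l := l) (x := fun n => F.ℓ (z n)) (F'.ρ ∘ₗ L - F.ρ) (D := D) (fun a ha =>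
    (hw a ha).mono fun n hn => by
      have := h1 _ (F.Z.mul_mem ha (hz n)) _ hn
      rw [← h.ℓ_mul ha (hz n), LinearMap.sub_apply, LinearMap.comp_apply]
      linarith) with e | e
  · exact .of_forall fun n => (sub_eq_zero.1 (LinearMap.congr_fun e (F.ℓ (z n)))).ge
  · exact (e.eventually_ge_atTop 0).mono fun n hn => sub_nonneg.1 hn

theorem one_le_P (S : Side μ W) {A B : Set G} (hA : MeasurableSet A) (hB : MeasurableSet B)
    (e : Aᶜ ⊆ B) (ξ : K) : ‖ξ‖ ≤ ‖S.P A ξ‖ + ‖S.P B ξ‖ := by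
  have h1 : ξ = S.P A ξ + S.P Aᶜ ξ := by
    rw [S.P_compl hA]
    exact (add_sub_cancel _ _).symm
  refine (congrArg norm h1).trans_le ((norm_add_le _ _).trans (add_le_add_right ?_ _))
  rw [← inter_eq_left.2 e, ← S.P_mul hA.compl hB]
  exact ((S.P _).le_of_opNorm_le (S.norm_P_le hA.compl) _).trans_eq (one_mul _)

omit [ProperSpace k] [T2Space G] [LocallyCompactSpace G] [SecondCountableTopology G] in
theorem Fl.meas_bad (h : Fl F) (y : Fin r → ℝ) (R : ℝ) :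
    MeasurableSet {x | ∃ j, R < |F.lam x j - y j|} := by
  rw [setOf_exists]
  exact .iUnion fun j => (isOpen_lt continuous_const
    (((continuous_apply j).comp h.cont_lam).sub continuous_const).abs).measurableSet

omit [ProperSpace k] [T2Space G] [LocallyCompactSpace G] [SecondCountableTopology G]
  [TopologicalSpace G] [IsTopologicalGroup G] [MeasurableSpace G] [BorelSpace G] in
theorem bad_sub (F : FlD k G r) : ∃ A : ℝ, 1 ≤ A ∧ ∀ (y : Fin r → ℝ) (R : ℝ),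
    {x | ∃ j, R < |F.lam x j - y j|}ᶜ ⊆ {x | ‖F.κ x - F.co y‖ ≤ A * |R|} := by
  obtain ⟨A, h1, h2⟩ := F.co_bound
  refine ⟨A, h1, fun y R x hx => ?_⟩
  show ‖F.co _ - _‖ ≤ _
  rw [← co_sub]
  exact (h2 _).trans (mul_le_mul_of_nonneg_left ((pi_norm_le_iff_of_nonneg (abs_nonneg R)).2
    fun j => (not_lt.1 fun e => hx ⟨j, e⟩).trans (le_abs_self R)) (by linarith))

/-- the vector with prescribed highest weights as a linear map -/
noncomputable def FlD.coL (F : FlD k G r) : (Fin r → ℝ) →ₗ[ℝ] (Fin r → ℝ) := Matrix.mulVecLin F.c⁻¹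

/-- **VOL** from tightness -/
theorem vol_tight (C : Cpl μ μ' W) (h : Fl F) (h' : Fl F') {ι : Type} {l : Filter ι} {z : ι → G}
    (hz : ∀ n, z n ∈ F.Z) (L : (Fin r → ℝ) →ₗ[ℝ] (Fin r' → ℝ))
    (ht : ∀ Q, IsCompact Q → ∀ ε : ℝ, 0 < ε → ∃ R, ∀ a ∈ F.Z, ∀ᶠ n in l, ∀ q ∈ Q,
      ‖C.t.P {x | ∃ j, R < |F'.lam x j - L (F.ℓ (a * z n)) j|}
        (C.s.π (q * (a * z n)) C.t.Ω)‖ ≤ ε) :
    ∀ᶠ n in l, F.ρ (F.ℓ (z n)) ≤ F'.ρ (F'.co (L (F.ℓ (z n)))) := by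
  obtain ⟨Q, h1, h2⟩ := exists_compact_mem_nhds (1 : G)
  obtain ⟨R, h3⟩ := ht Q h1 _ one_half_pos
  obtain ⟨A, -, h4⟩ := bad_sub F'
  refine vol C h h' hz (F'.coL ∘ₗ L) h2 (R := A * |R|) one_half_pos fun a ha =>
    (h3 a ha).mono fun n hn q hq => ?_
  have h5 := one_le_P C.t (h'.meas_bad _ R) (isClosed_le (h'.cont_κ.sub continuous_const).norm
    continuous_const).measurableSet (h4 (L (F.ℓ (a * z n))) R) (C.s.π (q * (a * z n)) C.t.Ω)
  rw [C.s.norm_π, C.t.nΩ] at h5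
  exact le_trans (by linarith [hn q hq]) (sub_le_iff_le_add'.2 h5)

omit [ProperSpace k'] in
/-- the centres of the windows leave all the walls -/
theorem far_tight (C : Cpl μ μ' W) (h' : Fl F') {ι : Type} {l : Filter ι} {g : ι → G}
    {y : ι → Fin r' → ℝ} {R : ℝ} (ht : ∀ᶠ n in l,
      ‖C.t.P {x | ∃ j, R < |F'.lam x j - y n j|} (C.s.π (g n) C.t.Ω)‖ ≤ 1 / 4) (i : Fin r')
    (hw : ∀ τ : ℝ, ∀ᶠ n in l, ‖C.t.P {x | ∀ i, τ ≤ F'.κ x i}ᶜ (C.s.π (g n) C.t.Ω)‖ ≤ 1 / 4) :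
    Tendsto (fun n => F'.co (y n) i) l atTop := by
  obtain ⟨A, -, h4⟩ := bad_sub F'
  refine tendsto_atTop.2 fun b => ?_
  filter_upwards [ht, hw (b + A * |R|)] with n h1 h2
  by_contra h3
  have m : MeasurableSet {x | ∀ i, b + A * |R| ≤ F'.κ x i} := by
    rw [setOf_forall]
    exact .iInter fun j => (isClosed_le continuous_const
      ((continuous_apply j).comp h'.cont_κ)).measurableSet
  have h5 := one_le_P C.t (h'.meas_bad (y n) R) m.compl (fun x hx e => h3 (by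
    have h6 := (abs_le.1 ((norm_le_pi_norm (F'.κ x - F'.co (y n)) i).trans (h4 _ R hx))).2
    rw [Pi.sub_apply] at h6
    linarith [e i])) (C.s.π (g n) C.t.Ω)
  rw [C.s.norm_π, C.t.nΩ] at h5
  linarith

omit [ProperSpace k] [T2Space G] [LocallyCompactSpace G] [SecondCountableTopology G]
  [TopologicalSpace G] [IsTopologicalGroup G] [MeasurableSpace G] [BorelSpace G] in
theorem off_eq (F : FlD k G r) (y : Fin r → ℝ) {R : ℝ} (hR : 0 ≤ R) :
    {x | R < ‖F.lam x - y‖} = {x | ∃ j, R < |F.lam x j - y j|} := Set.ext fun x => by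
  refine not_iff_not.1 ?_
  simp only [mem_setOf_eq, not_lt, not_exists]
  exact pi_norm_le_iff_of_nonneg hR

/-- **VOL** and regularity of the centres, from tightness in the sup norm -/
theorem vol_off (C : Cpl μ μ' W) (h : Fl F) (h' : Fl F') {ι : Type} {l : Filter ι} {z : ι → G}
    (hz : ∀ n, z n ∈ F.Z) (L : (Fin r → ℝ) →ₗ[ℝ] (Fin r' → ℝ))
    (ht : ∀ Q, IsCompact Q → ∀ ξ (ε : ℝ), 0 < ε → ∀ᶠ R in atTop, ∀ a ∈ F.Z, ∀ᶠ n in l, ∀ q ∈ Q,
      ‖C.t.P {x | R < ‖F'.lam x - L (F.ℓ (a * z n))‖} (C.s.π (q * (a * z n)) ξ)‖ ≤ ε) :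
    (∀ᶠ n in l, F.ρ (F.ℓ (z n)) ≤ F'.ρ (F'.co (L (F.ℓ (z n))))) ∧
      ((∀ τ ε : ℝ, 0 < ε → ∀ᶠ n in l,
        ‖C.t.P {x | ∀ i, τ ≤ F'.κ x i}ᶜ (C.s.π (z n) C.t.Ω)‖ ≤ ε) →
        ∀ i, Tendsto (fun n => F'.co (L (F.ℓ (z n))) i) l atTop) := by
  refine ⟨vol_tight C h h' hz L fun Q hQ ε hε => ?_, fun hw i => ?_⟩
  · obtain ⟨R, h1, h2⟩ := ((ht Q hQ C.t.Ω ε hε).and (eventually_ge_atTop 0)).exists
    exact ⟨R, by simpa only [off_eq F' _ h2] using h1⟩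
  · obtain ⟨R, h1, h2⟩ := ((ht {1} isCompact_singleton C.t.Ω (1 / 4) (by norm_num)).and
      (eventually_ge_atTop 0)).exists
    refine far_tight C h' (g := z) (R := R) ((h1 1 F.Z.one_mem).mono fun n hn => ?_) i
      fun τ => hw τ _ (by norm_num)
    simpa only [off_eq F' _ h2, one_mul] using hn 1 rfl

end Vale.Agent.P092GK
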