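import Vale.Agent.P092GK.Haar

/-!
P092, group package (helper83): volumes of double cosets and of Cartan windows, integrability on
`U⁻`, positivity of `ρ` on the coroots.
-/

set_option linter.all false

open Matrix Filter Topology MeasureTheory Measure Set
open scoped Pointwise ENNReal

namespace Vale.Agent.P092GK

open FlD

theorem eo_pow (x : ℝ) (n : ℕ) : eo x ^ n = eo (n * x) := by
  induction n with
  | zero => rw [pow_zero, Nat.cast_zero, zero_mul, eo_zero]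
  | succ n ih => rw [pow_succ, ih, ← eo_add]; congr 1; push_cast; ring

theorem natCast_le_eo (n : ℕ) : (n : ℝ≥0∞) ≤ eo n := by
  rw [eo, ← ENNReal.ofReal_natCast]
  exact ENNReal.ofReal_le_ofReal (by linarith [Real.add_one_le_exp (n : ℝ)])

variable {k : Type} [NontriviallyNormedField k] {G : Type} [Group G] {r : ℕ} {F : FlD k G r}
  [TopologicalSpace G] [IsTopologicalGroup G] [T2Space G] [LocallyCompactSpace G]

/-- a compact set is moved into a compact part of a dense open set by finitely many translations -/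
theorem cover_left {Ω O C : Set G} (h1 : IsOpen Ω) (h2 : Dense Ω) (hO : IsOpen O) (hne : O.Nonempty)
    (hC : IsCompact C) : ∃ (S : Finset G) (Q : Set G), (↑S : Set G) ⊆ O ∧ IsCompact Q ∧ Q ⊆ Ω ∧
      ∀ c ∈ C, ∃ y ∈ S, y * c ∈ Q := by
  classical
  have h3 : ∀ c : G, ∃ y ∈ O, ∃ Q ∈ 𝓝 (y * c), Q ⊆ Ω ∧ IsCompact Q := fun c => by
    obtain ⟨_, ⟨y, hy, rfl⟩, h4⟩ := h2.inter_open_nonempty _ (isOpenMap_mul_right c O hO)
      (hne.image _)
    exact ⟨y, hy, local_compact_nhds (h1.mem_nhds h4)⟩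
  choose y hy Q hQ hs hc using h3
  obtain ⟨t, -, ht⟩ := hC.elim_nhds_subcover (fun c => (fun x => y c * x) ⁻¹' Q c)
    fun c _ => (continuous_const_mul _).continuousAt.preimage_mem_nhds (hQ c)
  refine ⟨t.image y, ⋃ c ∈ t, Q c, fun x hx => ?_, t.isCompact_biUnion fun c _ => hc c,
    iUnion₂_subset fun c _ => hs c, fun x hx => ?_⟩
  · obtain ⟨c, -, rfl⟩ := Finset.mem_image.1 hx
    exact hy c
  · obtain ⟨c, h4, h5⟩ := mem_iUnion₂.1 (ht hx)
    exact ⟨_, Finset.mem_image_of_mem _ h4, mem_iUnion₂.2 ⟨c, h4, h5⟩⟩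

theorem cover_right {Ω O C : Set G} (h1 : IsOpen Ω) (h2 : Dense Ω) (hO : IsOpen O)
    (hne : O.Nonempty) (hC : IsCompact C) : ∃ (S : Finset G) (Q : Set G), (↑S : Set G) ⊆ O ∧
      IsCompact Q ∧ Q ⊆ Ω ∧ ∀ c ∈ C, ∃ y ∈ S, c * y ∈ Q := by
  classical
  obtain ⟨S, Q, h3, h4, h5, h6⟩ := cover_left h1.inv
    (h2.preimage (Homeomorph.inv G).isOpenMap) hO.inv hne.inv hC.inv
  refine ⟨S.image fun x => x⁻¹, Q⁻¹, fun x hx => ?_, h4.inv, fun x hx => ?_, fun c hc => ?_⟩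
  · obtain ⟨c, h7, rfl⟩ := Finset.mem_image.1 hx
    exact h3 h7
  · simpa using h5 hx
  · obtain ⟨y, h7, h8⟩ := h6 c⁻¹ (Set.inv_mem_inv.2 hc)
    exact ⟨_, Finset.mem_image_of_mem _ h7, by simpa using h8⟩

namespace Fl

variable (h : Fl F)
include h

omit [LocallyCompactSpace G] in
theorem co_ht_P {p : G} (hp : p ∈ F.P Finset.univ) (g : G) :
    F.co (F.ht (g * p)) = F.co (F.ht g) + F.ℓ p := by rw [h.ht_P' hp, co_add, h.co_ω]

omit [LocallyCompactSpace G] in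
theorem z_bdd {Q : Set G} (hQ : IsCompact Q) (hs : Q ⊆ F.Z) : ∃ Q', IsCompact Q' ∧ Q' ⊆ F.Z ∧
    ∀ z ∈ F.Z, ∀ m ∈ Q, z⁻¹ * m * z ∈ Q' := by
  obtain ⟨B, -, hB⟩ := h.ℓ_bdd hQ fun x hx => h.z_mem (hs hx)
  refine ⟨_, h.zprop B, fun x hx => hx.1, fun z hz m hm =>
    ⟨F.Z.mul_mem (F.Z.mul_mem (F.Z.inv_mem hz) (hs hm)) hz, fun i => ?_⟩⟩
  have := h.ℓ_conj (g := m) (F.Z.inv_mem hz)
  rw [inv_inv] at this
  rw [this]
  exact (norm_le_pi_norm (F.ℓ m) i).trans (hB m hm)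

variable [SecondCountableTopology G] [MeasurableSpace G] [BorelSpace G] [ProperSpace k]
  (μ : Measure G) [μ.IsHaarMeasure] [μ.IsMulRightInvariant]

omit [ProperSpace k] in
theorem P_right {π : Measure G} (hπ : Hm (F.P Finset.univ) π) {p : G} (hp : p ∈ F.P Finset.univ)
    {B : Set G} (hB : MeasurableSet B) :
    π ((fun x => x * p) ⁻¹' B) = eo (F.ρ (F.ℓ p)) * π B := by
  rw [← h.mdl_B hp, ← smul_eq_mul, ← Measure.smul_apply, ← hπ.right hp,
    map_apply (measurable_mul_const p) hB]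

/-- upper bound for the volume of a double coset -/
theorem vol_le {K : Set G} (hK : IsCompact K) : ∃ C : ℝ, 0 ≤ C ∧ ∀ z, F.Dom z →
    μ (K * {z} * K) ≤ eo (C + F.ρ (F.ℓ z)) := by
  obtain ⟨η, hη⟩ := exists_hm h.clUm
  obtain ⟨π, hπ⟩ := exists_hm (h.isClosed_P Finset.univ)
  obtain ⟨c, hc⟩ := h.box μ hη hπ
  obtain ⟨S, Q, -, hQ, hQΩ, h1⟩ := cover_left h.isOpen_Ω h.dense isOpen_univ univ_nonempty hK
  have lQ := hQ.image_of_continuousOn (h.lo_cont.mono hQΩ)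
  obtain ⟨L, hL, -, h2⟩ := h.up_bdd (hQ.image_of_continuousOn (h.up_cont.mono hQΩ))
  obtain ⟨Z', hZ', hZs, h3⟩ := h.z_bdd (hQ.image_of_continuousOn (h.md_cont.mono hQΩ))
    (by rintro _ ⟨x, hx, rfl⟩; exact h.md_mem (hQΩ hx))
  obtain ⟨S', Q', -, hQ', hQΩ', h4⟩ := cover_right h.isOpen_Ω h.dense isOpen_univ univ_nonempty
    ((hZ'.mul hL).mul hK)
  have lQ' := hQ'.image_of_continuousOn (h.lo_cont.mono hQΩ')
  obtain ⟨L', hL', -, h5⟩ := h.um_bdd lQ'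
  obtain ⟨x, -, hx⟩ := exists_le_eo (ENNReal.mul_lt_top (hη.fin _ (lQ.mul hL'))
    (hπ.fin _ (hQ'.inv.mul lQ'))).ne
  refine ⟨max 0 (S.card + S'.card + c + x), le_max_left _ _, fun z hz => ?_⟩
  obtain ⟨T, hT⟩ : ∃ T, T = {g | g ∈ F.Ω ∧ F.lo g ∈ F.lo '' Q * L' ∧
    g⁻¹ * F.lo g ∈ (fun x => x * z) ⁻¹' (Q'⁻¹ * (F.lo '' Q'))} := ⟨_, rfl⟩
  have h6 : μ T ≤ eo (c + x + F.ρ (F.ℓ z)) := by
    have mB := (hQ'.inv.mul lQ').measurableSet
    rw [hT, hc _ _ (lQ.mul hL').measurableSet (measurable_mul_const z mB),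
      h.P_right hπ (h.z_mem_P hz.1 _) mB, add_assoc, eo_add, add_comm x, eo_add, mul_left_comm (η _)]
    exact mul_le_mul_right (mul_le_mul_right hx _) _
  have h7 : K * {z} * K ⊆ ⋃ s ∈ S, ⋃ s' ∈ S', {g | s * g * s' ∈ T} := by
    rintro _ ⟨_, ⟨a, ha, _, ⟨⟩, rfl⟩, b, hb, rfl⟩
    obtain ⟨s, hs, hq⟩ := h1 a ha
    have hq' := hQΩ hq
    obtain ⟨s', hs', h8⟩ := h4 _ (mul_mem_mul (mul_mem_mul (h3 _ hz.1 _ ⟨_, hq, rfl⟩)
      (h2 _ hz _ ⟨_, hq, rfl⟩ (h.up_mem _ hq'))) hb)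
    refine mem_iUnion₂.2 ⟨s, hs, mem_iUnion₂.2 ⟨s', hs', ?_⟩⟩
    obtain ⟨q', e'⟩ : ∃ q', q' = z⁻¹ * F.md (s * a) * z * (z⁻¹ * F.up (s * a) * z) * b * s' :=
      ⟨_, rfl⟩
    rw [← e'] at h8
    have h9 := h.lo_mem _ (hQΩ' h8)
    have h10 := F.Um.mul_mem (h.lo_mem _ hq') (h.zum _ hz.1 _ h9)
    have h11 := (F.P _).mul_mem (h.z_mem_P hz.1 Finset.univ) (h.lo_P (hQΩ' h8))
    show s * (a * z * b) * s' ∈ T
    rw [show s * (a * z * b) * s' = F.lo (s * a) * (z * F.lo q' * z⁻¹) * (z * ((F.lo q')⁻¹ * q')) by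
      conv_rhs => rw [mul_assoc, mul_assoc, inv_mul_cancel_left, mul_assoc, mul_inv_cancel_left, e']
      unfold FlD.md
      group, hT]
    refine ⟨h.Ω_iff.2 ⟨_, h10, _, h11, rfl⟩, ?_, ?_⟩
    · rw [h.lo_mul h10 h11]
      exact mul_mem_mul ⟨_, hq, rfl⟩ (h5 _ hz _ ⟨_, h8, rfl⟩ h9)
    · rw [h.lo_mul h10 h11]
      exact ⟨_, Set.inv_mem_inv.2 h8, _, ⟨_, h8, rfl⟩, by simp only; group⟩
  have h8 : ∀ s s', μ {g | s * g * s' ∈ T} = μ T := fun s s' =>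
    (measure_preimage_mul μ s _).trans (measure_preimage_mul_right μ s' T)
  refine (measure_mono h7).trans ((measure_biUnion_finset_le _ _).trans
    ((Finset.sum_le_card_nsmul _ _ (S'.card • μ T) fun s _ => (measure_biUnion_finset_le _ _).trans
      (Finset.sum_le_card_nsmul _ _ _ fun s' _ => (h8 s s').le)).trans ?_))
  rw [nsmul_eq_mul, nsmul_eq_mul]
  refine (mul_le_mul' (natCast_le_eo _) (mul_le_mul' (natCast_le_eo _) h6)).trans ?_
  rw [← eo_add, ← eo_add, eo_le]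
  linarith [le_max_right 0 (S.card + S'.card + c + x)]

/-- lower bound for the volume of a double coset -/
theorem le_vol {V : Set G} (hV : V ∈ 𝓝 (1 : G)) : ∃ C : ℝ, 0 ≤ C ∧ ∀ z ∈ F.Z,
    eo (-C + F.ρ (F.ℓ z)) ≤ μ (V * {z} * V) := by
  obtain ⟨η, hη⟩ := exists_hm h.clUm
  obtain ⟨π, hπ⟩ := exists_hm (h.isClosed_P Finset.univ)
  obtain ⟨c, hc⟩ := h.box μ hη hπ
  have h1 := interior_mem_nhds.2 hV
  obtain ⟨x, -, hx⟩ := exists_eo_le (mul_ne_zero (hη.pos' h1) (hπ.pos' (inv_mem_nhds_one G h1)))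
  refine ⟨max 0 (x - c), le_max_left _ _, fun z hz => ?_⟩
  have mB : MeasurableSet (interior V)⁻¹ := isOpen_interior.inv.measurableSet
  refine le_trans ?_ (measure_mono (s := {g | g ∈ F.Ω ∧ F.lo g ∈ interior V ∧
    g⁻¹ * F.lo g ∈ (fun x => x * z) ⁻¹' (interior V)⁻¹}) fun g hg => ?_)
  · rw [hc _ _ isOpen_interior.measurableSet (measurable_mul_const z mB),
      h.P_right hπ (h.z_mem_P hz _) mB, mul_left_comm (η _)]
    refine le_trans ?_ (mul_le_mul_right (mul_le_mul_right hx _) _)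
    rw [← eo_add, ← eo_add, eo_le]
    linarith [le_max_right 0 (x - c)]
  · exact ⟨_, mul_mem_mul (interior_subset hg.2.1) rfl, _, interior_subset hg.2.2,
      by simp only; group⟩

/-- upper bound for the volume of a Cartan window -/
theorem win_le (R : ℝ) : ∃ C : ℝ, 0 ≤ C ∧ ∀ x, μ {g | ‖F.κ g - x‖ ≤ R} ≤ eo (C + F.ρ x) := by
  obtain ⟨K, hK, h1⟩ := h.kak
  obtain ⟨A, hA, h2⟩ := h.κ_cpt hK
  obtain ⟨B, hB, h3⟩ := lin_bound F.ρ
  have hQ := h.zprop (2 * (R + A))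
  obtain ⟨C, hC, h4⟩ := h.vol_le μ (hK.union (hQ.mul hK))
  refine ⟨C + B * (|R| + A), by positivity, fun x => ?_⟩
  rcases eq_empty_or_nonempty {g | ‖F.κ g - x‖ ≤ R} with e | ⟨g₀, h5⟩
  · rw [e, measure_empty]; exact bot_le
  have h6 : ∀ g, ‖F.κ g - x‖ ≤ R → ∃ a ∈ K, ∃ z, F.Dom z ∧ (∀ i, |F.ℓ z i - x i| ≤ R + A) ∧
      ∃ b ∈ K, g = a * z * b := fun g hg => by
    obtain ⟨a, ha, t, ht, b, hb, rfl⟩ := h1 g
    refine ⟨a, ha, _, h.a_dom ht, fun i => ?_, b, hb, rfl⟩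
    have h7 := abs_le.1 (h2 _ (h.a_dom ht) a ha b hb i)
    have h8 := abs_le.1 ((norm_le_pi_norm _ i).trans hg)
    rw [Pi.sub_apply] at h8
    exact abs_le.2 ⟨by linarith, by linarith⟩
  obtain ⟨-, -, z, hz, h7, -⟩ := h6 g₀ h5
  refine (measure_mono fun g hg => ?_).trans ((h4 z hz).trans (eo_le.2 ?_))
  · obtain ⟨a, ha, w, hw, h8, b, hb, rfl⟩ := h6 g hg
    refine ⟨_, mul_mem_mul (Or.inl ha) rfl, z⁻¹ * w * b, Or.inr (mul_mem_mul ⟨F.Z.mul_mem
      (F.Z.inv_mem hz.1) hw.1, fun i => ?_⟩ hb), by simp only; group⟩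
    rw [h.ℓ_mul (F.Z.inv_mem hz.1) hw.1, h.ℓ_inv hz.1, Pi.add_apply, Pi.neg_apply]
    have h9 := abs_le.1 (h7 i)
    have h10 := abs_le.1 (h8 i)
    exact abs_le.2 ⟨by linarith, by linarith⟩
  · have h8 := (le_abs_self _).trans (h3 (F.ℓ z - x))
    have h9 : ‖F.ℓ z - x‖ ≤ |R| + A := (pi_norm_le_iff_of_nonneg (by positivity)).2 fun i =>
      (h7 i).trans (by linarith [le_abs_self R])
    rw [map_sub] at h8
    nlinarith

/-- lower bound for the volume of a Cartan window -/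
theorem le_win : ∃ R C : ℝ, 0 ≤ R ∧ 0 ≤ C ∧ ∀ x, 0 ≤ x →
    eo (-C + F.ρ x) ≤ μ {g | ‖F.κ g - x‖ ≤ R} := by
  obtain ⟨K, hK, h1⟩ := exists_compact_mem_nhds (1 : G)
  obtain ⟨A, hA, h2⟩ := h.κ_cpt hK
  obtain ⟨B, hB, h3⟩ := lin_bound F.ρ
  obtain ⟨C, hC, h4⟩ := h.le_vol μ h1
  have hβ := h.β_pos
  refine ⟨A + F.β, C + B * F.β, by positivity, by positivity, fun x hx => ?_⟩
  have h5 : F.Dom (F.a fun i => ⌊x i / F.β⌋) :=
    h.a_dom fun i => Int.floor_nonneg.2 (div_nonneg (hx i) hβ.le)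
  have h6 : ∀ i, |F.ℓ (F.a fun i => ⌊x i / F.β⌋) i - x i| ≤ F.β := fun i => by
    rw [h.ℓ_a]
    have h7 := (le_div_iff₀ hβ).1 (Int.floor_le (x i / F.β))
    have h8 := (div_lt_iff₀ hβ).1 (Int.lt_floor_add_one (x i / F.β))
    exact abs_le.2 ⟨by simp only; linarith, by simp only; linarith⟩
  refine le_trans (eo_le.2 ?_) ((h4 _ h5.1).trans (measure_mono ?_))
  · have h7 := (neg_abs_le _).trans' (neg_le_neg (h3 (F.ℓ (F.a fun i => ⌊x i / F.β⌋) - x)))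
    have h8 : ‖F.ℓ (F.a fun i => ⌊x i / F.β⌋) - x‖ ≤ F.β := (pi_norm_le_iff_of_nonneg hβ.le).2 h6
    rw [map_sub] at h7
    nlinarith
  · rintro _ ⟨_, ⟨a, ha, _, rfl, rfl⟩, b, hb, rfl⟩
    refine (pi_norm_le_iff_of_nonneg (by positivity)).2 fun i => ?_
    have h7 := abs_le.1 (h2 _ h5 a ha b hb i)
    have h8 := abs_le.1 (h6 i)
    exact abs_le.2 ⟨by simp only [Pi.sub_apply]; linarith, by simp only [Pi.sub_apply]; linarith⟩

include μ

/-- **Integrability on `U⁻`.** -/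
theorem lint_um {η : Measure G} (hη : Hm F.Um η) : ∫⁻ u, eo (-F.ρ (F.co (F.ht u))) ∂η < ⊤ := by
  obtain ⟨π, hπ⟩ := exists_hm (h.isClosed_P Finset.univ)
  obtain ⟨c, hc⟩ := h.lint_cell μ hη hπ
  obtain ⟨C, hC, h1⟩ := h.iwa
  obtain ⟨V, hV, h2⟩ := exists_compact_mem_nhds (1 : G)
  obtain ⟨B, -, h3⟩ := cpt_up hC (fun (_ : Unit) x => -F.ρ (F.co (F.ht x))) fun _ =>
    ((F.ρ.continuous_of_finiteDimensional.comp ((cont_co (F := F)).comp h.cont_ht)).neg).continuousOn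
  have mT := (hC.mul hV).measurableSet
  have h4 := hc _ (measurable_one.indicator mT)
  rw [lintegral_indicator_one mT] at h4
  have h5 : ∀ u, eo (-B) * π V⁻¹ * eo (-F.ρ (F.co (F.ht u))) ≤
      ∫⁻ p, (C * V).indicator 1 (u * p⁻¹) ∂π := fun u => by
    obtain ⟨x, hx, z, hz, w, hw, rfl⟩ := h1 u
    have h6 := (F.P _).mul_mem (h.z_mem_P hz Finset.univ) (h.up_mem_P hw _)
    have h7 := h.P_right hπ ((F.P _).inv_mem h6) hV.inv.measurableSet
    rw [mul_assoc x, h.co_ht_P h6, map_add, mul_right_comm, ← eo_add]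
    refine le_trans (mul_le_mul_left (eo_le.2 ?_) _) (h7.ge.trans ?_)
    · rw [h.ℓ_invP h6, map_neg]
      linarith [h3 () x hx]
    · rw [← lintegral_indicator_one (measurable_mul_const _ hV.inv.measurableSet)]
      refine lintegral_mono fun p => ?_
      by_cases hp : p ∈ (fun x => x * (z * w)⁻¹) ⁻¹' V⁻¹
      · rw [indicator_of_mem hp, indicator_of_mem]
        · exact le_rfl
        · exact ⟨x, hx, _, hp, by simp only; group⟩
      · rw [indicator_of_notMem hp]; exact bot_le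
  have h6 := lintegral_mono (μ := η) h5
  rw [lintegral_const_mul' _ _ (ENNReal.mul_ne_top (eo_ne_top _) (hπ.fin _ hV.inv).ne)] at h6
  by_contra h7
  rw [not_lt, top_le_iff] at h7
  rw [h7, ENNReal.mul_top (mul_ne_zero (eo_ne_zero _) (hπ.pos' (inv_mem_nhds_one G h2))),
    top_le_iff] at h6
  rw [h6, ENNReal.mul_top (eo_ne_zero _)] at h4
  exact (hC.mul hV).measure_ne_top h4

theorem um_sub_fin {η : Measure G} (hη : Hm F.Um η) (R : ℝ) :
    η {u | F.ρ (F.co (F.ht u)) ≤ R} < ⊤ := by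
  have h1 : Continuous fun u => F.ρ (F.co (F.ht u)) :=
    F.ρ.continuous_of_finiteDimensional.comp ((cont_co (F := F)).comp h.cont_ht)
  have h2 := (mul_meas_ge_le_lintegral (μ := η) (continuous_eo.comp h1.neg).measurable
    (eo (-R))).trans_lt (h.lint_um μ hη)
  refine lt_of_le_of_lt (measure_mono fun u hu => ?_)
    (ENNReal.lt_top_of_mul_ne_top_right h2.ne (eo_ne_zero _))
  exact eo_le.2 (neg_le_neg hu)

omit μ [SecondCountableTopology G] [MeasurableSpace G] [BorelSpace G] [ProperSpace k] in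
theorem ht_um_low : ∃ C : ℝ, 0 ≤ C ∧ ∀ u ∈ F.Um, ∀ j, -C ≤ F.ht u j := by
  obtain ⟨C, hC, h1⟩ := cpt_up (isCompact_singleton (x := ())) (fun j _ => F.ht' 1 j)
    fun _ => continuousOn_const
  refine ⟨C, by linarith, fun u hu j => ?_⟩
  have h2 := h.norm_Δ_le j 1 u
  rw [one_mul, h.Δ_of_um hu, norm_one, Real.one_le_exp_iff] at h2
  linarith [h1 j () rfl]

omit h μ [TopologicalSpace G] [IsTopologicalGroup G] [T2Space G] [LocallyCompactSpace G]
  [SecondCountableTopology G] [MeasurableSpace G] [BorelSpace G] [ProperSpace k] in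
theorem lin_co (l : (Fin r → ℝ) →ₗ[ℝ] ℝ) (y : Fin r → ℝ) :
    l (F.co y) = ∑ j, y j * l (F.co (Pi.single j 1)) := by
  have := (l.comp (Matrix.mulVecLin F.c⁻¹)).pi_apply_eq_sum_univ y
  refine this.trans (Finset.sum_congr rfl fun j _ => ?_)
  rw [show (Pi.single j 1 : Fin r → ℝ) = fun i => if j = i then 1 else 0 from
    funext fun i => by rw [Pi.single_apply]; simp only [eq_comm]]
  rfl

/-- `ρ` is a positive combination of the highest weights -/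
theorem ρ_co_pos (j : Fin r) : 0 < F.ρ (F.co (Pi.single j 1)) := by
  by_contra h0
  obtain ⟨η, hη⟩ := exists_hm h.clUm
  obtain ⟨u, hu, h1, h2⟩ := h.exists_um_L₁ j
  obtain ⟨K, hK, h3⟩ := exists_compact_mem_nhds (1 : G)
  obtain ⟨A, hA, h4⟩ := h.ht_um_low
  obtain ⟨R, -, h5⟩ := h.len_cpt hK
  obtain ⟨w, hw⟩ : ∃ w : ℕ → G, w = fun n => (F.b j ^ n)⁻¹ * u * F.b j ^ n := ⟨_, rfl⟩
  have h6 : ∀ n, w n ∈ F.Um := fun n => by
    have := h.zum _ (F.Z.inv_mem (F.Z.pow_mem (h.bZ j) n)) u hu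
    rwa [inv_inv, ← congrFun hw n] at this
  have h7 : ∀ n i, i ≠ j → F.ht (w n) i = F.ht 1 i := fun n i hi => by
    have h8 := h.z_mem_L (F.Z.pow_mem (h.bZ j) n) (Finset.univ.erase j)
    have h9 : w n ∈ F.L₁ j := hw ▸ (F.L _).mul_mem ((F.L _).mul_mem ((F.L _).inv_mem h8) h1) h8
    have := h.ht_P (h.L_le_P _ h9) (Finset.mem_erase.2 ⟨hi, Finset.mem_univ i⟩) 1
    rwa [one_mul, h.Δ_of_um (h6 n), norm_one, Real.log_one, add_zero] at this
  have h8 := tendsto_measure_of_tendsto_indicator (μ := η) (L := atTop) (A := ∅)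
    (As := fun n : ℕ => (fun x => x * (w n)⁻¹) ⁻¹' K ∩ F.Um)
    (B := {x | F.ρ (F.co (F.ht x)) ≤ ∑ i, (|F.ht 1 i| + R + A) * |F.ρ (F.co (Pi.single i 1))|})
    (fun n => (measurable_mul_const _ hK.measurableSet).inter h.clUm.measurableSet)
    (isClosed_le (F.ρ.continuous_of_finiteDimensional.comp ((cont_co (F := F)).comp h.cont_ht))
      continuous_const).measurableSet (h.um_sub_fin μ hη _).ne
    (Eventually.of_forall fun n x hx => by
      show F.ρ (F.co (F.ht x)) ≤ _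
      rw [lin_co]
      refine Finset.sum_le_sum fun i _ => ?_
      by_cases e : i = j
      · rw [e, abs_of_nonpos (not_lt.1 h0)]
        nlinarith [h4 x hx.2 j, abs_nonneg (F.ht 1 j), (len_nonneg 1).trans (h5 1 (mem_of_mem_nhds h3))]
      · refine (le_abs_self _).trans ((abs_mul _ _).le.trans
          (mul_le_mul_of_nonneg_right ?_ (abs_nonneg _)))
        have h9 := h.ht_lip (x * (w n)⁻¹) (w n) i
        rw [inv_mul_cancel_right, h7 n i e] at h9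
        linarith [abs_sub_abs_le_abs_sub (F.ht x i) (F.ht 1 i), h5 _ hx.1])
    fun x => by
      filter_upwards [h.esc hu (h.um_L₁_moved hu h1 h2) (hK.inv.mul (isCompact_singleton (x := x)))]
        with n hn
      refine iff_of_false (fun e => hn ?_) id
      rw [← congrFun hw n]
      exact ⟨_, Set.inv_mem_inv.2 e.1, x, rfl, by simp only; group⟩
  rw [measure_empty] at h8
  refine hη.pos' h3 (le_antisymm (ge_of_tendsto' h8 fun n => ?_) bot_le)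
  rw [hη.inter, ← map_apply (measurable_mul_const _) hK.measurableSet,
    hη.right (F.Um.inv_mem (h6 n)), h.uni_Um (F.Um.inv_mem (h6 n)), eo_zero, one_smul]

/-- a vector whose highest weights are bounded below is controlled by `ρ` -/
theorem le_ρ_co : ∃ C : ℝ, 1 ≤ C ∧ ∀ (y : Fin r → ℝ) (R : ℝ), 0 ≤ R → (∀ j, -R ≤ y j) →
    ∀ j, y j ≤ C * (R + |F.ρ (F.co y)|) := by
  obtain ⟨c, hc, h1, h2⟩ := cpt_low (isCompact_singleton (x := ()))
    (fun i _ => F.ρ (F.co (Pi.single i 1))) (fun _ => continuousOn_const)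
    fun i _ _ => h.ρ_co_pos μ i
  obtain ⟨S, hS⟩ : ∃ S, S = ∑ i, F.ρ (F.co (Pi.single i 1)) := ⟨_, rfl⟩
  have h3 : 0 ≤ S := hS ▸ Finset.sum_nonneg fun i _ => (h.ρ_co_pos μ i).le
  refine ⟨(1 + S) / c, (one_le_div hc).2 (by linarith), fun y R hR hy j => ?_⟩
  have h4 := Finset.single_le_sum (f := fun i => (y i + R) * F.ρ (F.co (Pi.single i 1)))
    (fun i _ => mul_nonneg (by linarith [hy i]) (h.ρ_co_pos μ i).le) (Finset.mem_univ j)
  simp only [add_mul, Finset.sum_add_distrib, ← Finset.mul_sum, ← hS, ← lin_co] at h4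
  rw [div_mul_eq_mul_div, le_div_iff₀ hc]
  have h5 := mul_le_mul_of_nonneg_left (h2 j () rfl) (show 0 ≤ y j + R by linarith [hy j])
  nlinarith [le_abs_self (F.ρ (F.co y)), abs_nonneg (F.ρ (F.co y)), mul_nonneg hR hc.le,
    mul_nonneg h3 (abs_nonneg (F.ρ (F.co y)))]

end Fl

end Vale.Agent.P092GK
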